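import Mathlib

/-!
# Row 286 (S0533): BASE VOCABULARY.  Gaussian hierarchies on a finite set

Everything of PE Section 2 / LL Section 2 at the FINITE level (finitely many revelations).

* state space = the field space `S → ℝ` (`S` finite: spin configurations, one site, rest system, ...);
* `GhB S`       : prior weights `w` and terminal mass `a`;
* `GhLv S ι`    : one revelation = its mass `m` and a factor `A` of its covariance increment
                  (`ΔK s t = ∑ i, A s i * A t i`); the drivers are i.i.d. standard Gaussians indexed by `ι`;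
* a hierarchy   = `List (GhLv S ι)` = the revelations STILL TO COME (head = the next one);
                  equal masses are allowed (a filled jump = several levels of the same mass);
* `ghF`         : the continuation `F_u` as a function of the revealed field;
* `ghD`         : density of the planted transition with respect to the standard drivers;
* `ghE, ghC, ghH`: planted conditional mean / covariance / Hessian, as FUNCTIONS of the revealed field
                  (Markov property: no sigma-fields, no conditional expectations);
* `ghPath`      : expectation under the planted law of one path, test = function of drivers and spin;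
* `ghNu`        : expectation under the positive tree law with `q` labels; the tree is coded by
                  `rep t a` = representative of the label `a` among the labels which share the revelation number `t`
                  (`t = length` : the terminal draw, shared = coinciding labels);
* `ghLaw`       : the same tree law as a measure;
* `GhTree q`    : ultrametric coding of a tree, independent of the hierarchy.
-/

set_option autoImplicit false

namespace Claimed.Agent.R286

open MeasureTheory ProbabilityTheory
open scoped ENNReal NNReal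

/-! ### levels -/

/-- prior weights on the finite set `S` and the terminal mass -/
structure GhB (S : Type) where
  w : S → ℝ
  a : ℝ

/-- validity of the base -/
structure GhB.Ok {S : Type} [Fintype S] (B : GhB S) : Prop where
  nonneg : ∀ s, 0 ≤ B.w s
  sum : ∑ s, B.w s = 1
  pos : 0 < B.a

/-- the uniform prior -/
noncomputable def ghUnif (S : Type) [Fintype S] (a : ℝ) : GhB S := ⟨fun _ => (Fintype.card S : ℝ)⁻¹, a⟩

/-- one revelation: its mass and a factor `A` of its covariance increment -/
structure GhLv (S ι : Type) where
  m : ℝ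
  A : S → ι → ℝ

/-- the level with features `Φ` and coordinate variances `dv` -/
noncomputable def ghLvF {S ι : Type} (Φ : S → ι → ℝ) (m : ℝ) (dv : ι → ℝ) : GhLv S ι :=
  ⟨m, fun s i => Real.sqrt (dv i) * Φ s i⟩

/-- the standard Gaussian on the drivers -/
noncomputable def ghStd (ι : Type) [Fintype ι] : Measure (ι → ℝ) := Measure.pi fun _ => gaussianReal 0 1

variable {S ι : Type} [Fintype S] [Fintype ι]

/-- the field increment produced by a driver -/
def GhLv.inc (l : GhLv S ι) (ξ : ι → ℝ) : S → ℝ := fun s => ∑ i, l.A s i * ξ i

/-- the covariance increment -/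
def GhLv.cov (l : GhLv S ι) (s t : S) : ℝ := ∑ i, l.A s i * l.A t i

/-- admissible hierarchy seen from a cut of mass `u`: the remaining masses are nondecreasing and lie in `[u, a]` -/
def GhAdm (B : GhB S) (u : ℝ) (ls : List (GhLv S ι)) : Prop :=
  ls.Pairwise (fun l l' => l.m ≤ l'.m) ∧ ∀ l ∈ ls, u ≤ l.m ∧ l.m ≤ B.a

/-! ### continuations -/

/-- the operation `T_m` (expectation at mass `0`) -/
noncomputable def ghT {Ω : Type} [MeasurableSpace Ω] (μ : Measure Ω) (m : ℝ) (F : Ω → ℝ) : ℝ :=
  if m = 0 then ∫ ω, F ω ∂μ else m⁻¹ * Real.log (∫ ω, Real.exp (m * F ω) ∂μ)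

/-- terminal continuation `a⁻¹ log ∑ w e^{a z}` -/
noncomputable def ghF0 (B : GhB S) (z : S → ℝ) : ℝ := B.a⁻¹ * Real.log (∑ s, B.w s * Real.exp (B.a * z s))

/-- continuation; the list = the REMAINING levels (head = next revealed), `z` = the revealed field -/
noncomputable def ghF (B : GhB S) : List (GhLv S ι) → (S → ℝ) → ℝ
  | [], z => ghF0 B z
  | l :: ls, z => ghT (ghStd ι) l.m fun ξ => ghF B ls (z + l.inc ξ)

/-- density of the planted transition through the level `l` (then `ls` remain), w.r.t. the standard driver -/
noncomputable def ghD (B : GhB S) (l : GhLv S ι) (ls : List (GhLv S ι)) (z : S → ℝ) (ξ : ι → ℝ) : ℝ :=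
  Real.exp (l.m * (ghF B ls (z + l.inc ξ) - ghF B (l :: ls) z))

/-- terminal Gibbs weights (exponent `a`) -/
noncomputable def ghGw (B : GhB S) (z : S → ℝ) (s : S) : ℝ :=
  B.w s * Real.exp (B.a * z s) / ∑ t, B.w t * Real.exp (B.a * z t)

/-! ### functions of the revealed field -/

/-- planted conditional expectation of the spin observable `Φ` given the revealed field `z` -/
noncomputable def ghE (B : GhB S) : List (GhLv S ι) → (S → ℝ) → (S → ℝ) → ℝ
  | [], Φ, z => ∑ s, ghGw B z s * Φ s
  | l :: ls, Φ, z => ∫ ξ, ghD B l ls z ξ * ghE B ls Φ (z + l.inc ξ) ∂ghStd ι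

/-- planted conditional covariance of two spin observables (`C_u`) -/
noncomputable def ghC (B : GhB S) (ls : List (GhLv S ι)) (v w : S → ℝ) (z : S → ℝ) : ℝ :=
  ghE B ls (fun s => v s * w s) z - ghE B ls v z * ghE B ls w z

/-- the Hessian of the continuation (`H_u`), by its recursive formula:
mass-weighted sum of the future martingale covariance increments -/
noncomputable def ghH (B : GhB S) : List (GhLv S ι) → (S → ℝ) → (S → ℝ) → (S → ℝ) → ℝ
  | [], v, w, z => B.a * ghC (ι := ι) B [] v w z
  | l :: ls, v, w, z => ∫ ξ, ghD B l ls z ξ * (ghH B ls v w (z + l.inc ξ)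
      + l.m * ((ghE B ls v (z + l.inc ξ) - ghE B (l :: ls) v z) * (ghE B ls w (z + l.inc ξ) - ghE B (l :: ls) w z)))
      ∂ghStd ι

/-! ### driver sequences and prefix fields -/

/-- put `x` in front of a sequence -/
def ghCons {α : Type} (x : α) (f : ℕ → α) : ℕ → α
  | 0 => x
  | j + 1 => f j

/-- the total field produced by the drivers `ξ 0, ξ 1, ...` through the levels of the list -/
def ghSum : List (GhLv S ι) → (ℕ → ι → ℝ) → S → ℝ
  | [], _ => 0
  | l :: ls, ξ => l.inc (ξ 0) + ghSum ls fun j => ξ (j + 1)

/-- the field revealed by the first `t` levels -/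
def ghPre (ls : List (GhLv S ι)) (ξ : ℕ → ι → ℝ) (t : ℕ) : S → ℝ := ghSum (ls.take t) ξ

/-! ### the planted law of one path -/

/-- expectation of the test `P (drivers) (spin)` under the planted path started from the field `z` -/
noncomputable def ghPath (B : GhB S) : List (GhLv S ι) → (S → ℝ) → ((ℕ → ι → ℝ) → S → ℝ) → ℝ
  | [], z, P => ∑ s, ghGw B z s * P (fun _ _ => 0) s
  | l :: ls, z, P => ∫ ξ, ghD B l ls z ξ * ghPath B ls (z + l.inc ξ) (fun η s => P (ghCons ξ η) s) ∂ghStd ι

/-! ### positive tree laws -/

/-- validity of a family of representative maps: `rep t` chooses a representative in each class of labels sharing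
the revelation `t`; labels which share the revelation `t + 1` share the revelation `t` -/
structure GhRepOk {q : ℕ} (rep : ℕ → Fin q → Fin q) : Prop where
  idem : ∀ t a, rep t (rep t a) = rep t a
  mono : ∀ t a b, rep (t + 1) a = rep (t + 1) b → rep t a = rep t b

/-- product of the transition densities of the classes of one revelation -/
noncomputable def ghDT (B : GhB S) {q : ℕ} (l : GhLv S ι) (ls : List (GhLv S ι)) (r : Fin q → Fin q)
    (G : Fin q → S → ℝ) (W : Fin q → ι → ℝ) : ℝ :=
  ∏ a, if r a = a then ghD B l ls (G a) (W a) else 1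

/-- **the positive tree law** with `q` labels: expectation of the test `P (drivers of the labels) (spins of the labels)`;
`G a` = the field already revealed to the label `a`; `rep 0` = classes of the next revelation
(of the terminal draw if no level remains).  The test sees the EFFECTIVE drivers `ξ t a = W t (rep t a)`. -/
noncomputable def ghNu (B : GhB S) {q : ℕ} : List (GhLv S ι) → (ℕ → Fin q → Fin q) → (Fin q → S → ℝ) →
    ((ℕ → Fin q → ι → ℝ) → (Fin q → S) → ℝ) → ℝ
  | [], rep, G, P => ∑ σ : Fin q → S, (∏ a, ghGw B (G a) (σ a)) * P (fun _ _ _ => 0) fun a => σ (rep 0 a)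
  | l :: ls, rep, G, P => ∫ W : Fin q → ι → ℝ, ghDT B l ls (rep 0) G W *
      ghNu B ls (fun t => rep (t + 1)) (fun a => G a + l.inc (W (rep 0 a)))
        (fun η σ => P (ghCons (fun a => W (rep 0 a)) η) σ) ∂(Measure.pi fun _ : Fin q => ghStd ι)

/-- the same law as a measure on (effective drivers, spins) -/
noncomputable def ghLaw [MeasurableSpace S] (B : GhB S) {q : ℕ} : List (GhLv S ι) → (ℕ → Fin q → Fin q) →
    (Fin q → S → ℝ) → Measure ((ℕ → Fin q → ι → ℝ) × (Fin q → S))
  | [], rep, G => ∑ σ : Fin q → S, ENNReal.ofReal (∏ a, ghGw B (G a) (σ a)) •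
      Measure.dirac ((fun _ _ _ => 0 : ℕ → Fin q → ι → ℝ), fun a => σ (rep 0 a))
  | l :: ls, rep, G =>
      ((Measure.pi fun _ : Fin q => ghStd ι).withDensity fun W => ENNReal.ofReal (ghDT B l ls (rep 0) G W)).bind
        fun W => (ghLaw B ls (fun t => rep (t + 1)) fun a => G a + l.inc (W (rep 0 a))).map
          fun p => (ghCons (fun a => W (rep 0 a)) p.1, p.2)

/-! ### ultrametric trees -/

/-- a tree on `q` labels, independent of the hierarchy: `sh a b` = number of revelations shared by `a ≠ b`
(the terminal draw counts as the revelation number `length`: `length < sh a b` means that the labels coincide) -/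
structure GhTree (q : ℕ) where
  sh : Fin q → Fin q → ℕ
  symm : ∀ a b, sh a b = sh b a
  ultra : ∀ a b c, a ≠ c → min (sh a b) (sh b c) ≤ sh a c

/-- the least label which shares the revelation number `t` with `a` -/
noncomputable def GhTree.rep {q : ℕ} (T : GhTree q) (t : ℕ) (a : Fin q) : Fin q :=
  (Finset.univ.filter fun b => b = a ∨ t < T.sh a b).min' ⟨a, by simp⟩

/-- number of labels in the class of `a` at the revelation number `t` -/
noncomputable def GhTree.cnt {q : ℕ} (T : GhTree q) (t : ℕ) (a : Fin q) : ℕ :=
  (Finset.univ.filter fun b => b = a ∨ t < T.sh a b).card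

/-- tree expectation from the root field `z` -/
noncomputable def GhTree.nu {q : ℕ} (T : GhTree q) (B : GhB S) (ls : List (GhLv S ι)) (z : S → ℝ)
    (P : (ℕ → Fin q → ι → ℝ) → (Fin q → S) → ℝ) : ℝ :=
  ghNu B ls T.rep (fun _ => z) P

theorem gh_defs_eqns_cite : True := by
  have := @ghUnif.eq_1
  have := @ghLvF.eq_1
  have := @ghStd.eq_1
  have := @GhLv.inc.eq_1
  have := @GhLv.cov.eq_1
  have := @GhAdm.eq_1
  have := @ghT.eq_1
  have := @ghF0.eq_1
  have := @ghF.eq_1
  have := @ghF.eq_2
  have := @ghF.eq_def
  have := @ghD.eq_1
  have := @ghGw.eq_1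
  have := @ghE.eq_1
  have := @ghE.eq_2
  have := @ghE.eq_def
  have := @ghC.eq_1
  have := @ghH.eq_1
  have := @ghH.eq_2
  have := @ghH.eq_def
  have := @ghCons.eq_1
  have := @ghCons.eq_2
  have := @ghCons.eq_def
  have := @ghSum.eq_1
  have := @ghSum.eq_2
  have := @ghSum.eq_def
  have := @ghPre.eq_1
  have := @ghPath.eq_1
  have := @ghPath.eq_2
  have := @ghPath.eq_def
  have := @ghDT.eq_1
  have := @ghNu.eq_1
  have := @ghNu.eq_2
  have := @ghNu.eq_def
  have := @ghLaw.eq_1
  have := @ghLaw.eq_2
  have := @ghLaw.eq_def
  have := @GhTree.rep.eq_1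
  have := @GhTree.cnt.eq_1
  have := @GhTree.nu.eq_1
  have := @ghF.induct
  have := @ghE.induct
  have := @ghH.induct
  have := @ghSum.induct
  have := @ghPath.induct
  have := @ghNu.induct
  have := @ghLaw.induct
  trivial

end Claimed.Agent.R286
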