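-- KEEP
import Claimed.Prelude.Def_0461
import Claimed.Agent.R286.Defs.Gh

/-!
# Row 286 (S0533), Defs, LAYER B : THE SK INSTANCE of `Defs/Gh.lean`      (helper273; names `Sk*`, `sk*`; lemmas `sk_d_*`)

PE Sec. 2.1 and LL Sec. 2.1, 2.4 at the FINITE level (step clocks).      Terminal mass `a` (PE: `a = 1`; LL: `a ∈ [1,4]`) sits in the base `skBase n a`.

* `SkCfg n`, `skSp σ i = ± 1` (`pmSpin` of the frozen Def_0461), `skY σ i = σ_i/√n`, `skOv σ τ = R(σ,τ)`
* `SkDr n` drivers (matrix feature: ALL ordered pairs; field feature), `skPhi n` = `(σσᵀ/√(2n), σ)`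
* `SkInc = (m, db, dh)` one revelation; `SkStp = List SkInc` a STEP PATH (first revealed first; equal masses allowed = filled jump; zero increments allowed = empty cut)
* `skLvs n P` the hierarchy; `SkAdm a P`; cumulative clocks `skCumB P j` (after `j` revelations), `skClkB P u` (function of the mass, right continuous)
* `skF n a P z` continuation; **`skPr n a P` = self corrected pressure** `f_n(b,h)`
* `skGap a P j` = length in mass of the CUT `j` (= after `j` revelations)
* `skTilt s P`, `skPsi n a s P = ψ_n(s)`, `skKK n a s P = K_n(s) = s n ψ_n(s)`, `skG n a P ξ = G_n` (LL (A4))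
* `skSamp b h` sampling of clocks `b h : ℝ → ℝ` at a list of masses;  `skSeg t P Q` convex segment
* `skPhys T = [(0,T,0)]` the SK model itself; `skFc n T ξ` = completed free energy as a function of the matrix drivers
-/

set_option autoImplicit false

namespace Claimed.Agent.R286

open MeasureTheory ProbabilityTheory
open scoped ENNReal NNReal

/-- spin configurations (as in the frozen Def_0461) -/
abbrev SkCfg (n : ℕ) : Type := Fin n → Bool

/-- the spin `± 1` -/
def skSp {n : ℕ} (σ : SkCfg n) (i : Fin n) : ℝ := Claims.C0461.pmSpin (σ i)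

/-- the normalised spin vector `y = σ / √n` -/
noncomputable def skY {n : ℕ} (σ : SkCfg n) (i : Fin n) : ℝ := skSp σ i / Real.sqrt n

/-- the overlap `R(σ,τ) = y(σ)·y(τ) = n⁻¹ ∑ σ_i τ_i` -/
noncomputable def skOv {n : ℕ} (σ τ : SkCfg n) : ℝ := (∑ i, skSp σ i * skSp τ i) / n

/-- drivers: matrix feature (all ordered pairs) + field feature -/
abbrev SkDr (n : ℕ) : Type := (Fin n × Fin n) ⊕ Fin n

/-- the combined feature map `(φ_b, φ_h) = (σσᵀ/√(2n), σ)` -/
noncomputable def skPhi (n : ℕ) (σ : SkCfg n) : SkDr n → ℝ :=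
  Sum.elim (fun p => skSp σ p.1 * skSp σ p.2 / Real.sqrt (2 * n)) (fun i => skSp σ i)

/-- uniform prior, terminal mass `a` -/
noncomputable def skBase (n : ℕ) (a : ℝ) : GhB (SkCfg n) := ghUnif (SkCfg n) a

/-- one revelation: mass `m`, increase `db` of the matrix clock, increase `dh` of the field clock.      Covariance increment `n (db R²/2 + dh R)` -/
structure SkInc where
  m : ℝ
  db : ℝ
  dh : ℝ

/-- the level of the abstract hierarchy -/
noncomputable def SkInc.lv (n : ℕ) (e : SkInc) : GhLv (SkCfg n) (SkDr n) :=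
  ghLvF (skPhi n) e.m (Sum.elim (fun _ => e.db) fun _ => e.dh)

/-- a STEP PATH = the list of its revelations, the first revealed first -/
abbrev SkStp : Type := List SkInc

/-- the hierarchy of size `n` of a step path -/
noncomputable def skLvs (n : ℕ) (P : SkStp) : List (GhLv (SkCfg n) (SkDr n)) := P.map (SkInc.lv n)

/-- admissible with terminal mass `a`: masses nondecreasing in `[0,a]`, increments `≥ 0` -/
def SkAdm (a : ℝ) (P : SkStp) : Prop :=
  P.Pairwise (fun e e' => e.m ≤ e'.m) ∧ ∀ e ∈ P, 0 ≤ e.m ∧ e.m ≤ a ∧ 0 ≤ e.db ∧ 0 ≤ e.dh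

/-- cumulative clocks after `j` revelations -/
def skCumB (P : SkStp) (j : ℕ) : ℝ := ((P.take j).map SkInc.db).sum
def skCumH (P : SkStp) (j : ℕ) : ℝ := ((P.take j).map SkInc.dh).sum

/-- total clocks -/
def skTotB (P : SkStp) : ℝ := (P.map SkInc.db).sum
def skTotH (P : SkStp) : ℝ := (P.map SkInc.dh).sum

/-- the clocks of a step path as (right continuous) functions of the mass -/
noncomputable def skClkB (P : SkStp) (u : ℝ) : ℝ := ((P.filter fun e => decide (e.m ≤ u)).map SkInc.db).sum
noncomputable def skClkH (P : SkStp) (u : ℝ) : ℝ := ((P.filter fun e => decide (e.m ≤ u)).map SkInc.dh).sum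

/-- mass of the revelation number `j` (from `0`); the terminal mass `a` after the last one -/
def skMs (a : ℝ) (P : SkStp) (j : ℕ) : ℝ := (P.map SkInc.m).getD j a

/-- length in mass of the CUT `j` (after `j` revelations): from the mass of the revelation `j - 1` (`0` if `j = 0`) to the mass of the revelation `j` (`a` if none) -/
def skGap (a : ℝ) (P : SkStp) (j : ℕ) : ℝ := skMs a P j - (if j = 0 then 0 else skMs a P (j - 1))

/-- the continuation; `P` = the REMAINING revelations, `z` = the revealed field (a function on the configurations) -/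
noncomputable def skF (n : ℕ) (a : ℝ) (P : SkStp) (z : SkCfg n → ℝ) : ℝ := ghF (skBase n a) (skLvs n P) z

/-- **the self corrected pressure** `f_n(b,h)`  (PE Sec. 2.1 at `a = 1`; LL Sec. 2.1) -/
noncomputable def skPr (n : ℕ) (a : ℝ) (P : SkStp) : ℝ := skF n a P 0 / n - a * (skTotB P / 4 + skTotH P / 2)

/-- the same with a common deterministic source `z` -/
noncomputable def skPrS (n : ℕ) (a : ℝ) (P : SkStp) (z : SkCfg n → ℝ) : ℝ := skF n a P z / n - a * (skTotB P / 4 + skTotH P / 2)

/-- move the first revelation to the mass `s` -/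
def skTilt (s : ℝ) : SkStp → SkStp
  | [] => []
  | e :: P => ⟨s, e.db, e.dh⟩ :: P

/-- `ψ_n(s) = f_n^s - f_n^0` -/
noncomputable def skPsi (n : ℕ) (a s : ℝ) (P : SkStp) : ℝ := skPr n a (skTilt s P) - skPr n a P

/-- `K_n(s) = s n ψ_n(s)` -/
noncomputable def skKK (n : ℕ) (a s : ℝ) (P : SkStp) : ℝ := s * n * skPsi n a s P

/-- `G_n`: the total continuation just after the first revelation, as a function of its driver -/
noncomputable def skG (n : ℕ) (a : ℝ) : SkStp → (SkDr n → ℝ) → ℝ
  | [], _ => skF n a [] 0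
  | e :: P, ξ => skF n a P ((e.lv n).inc ξ)

/-- the step path which reveals the clocks `b, h` at the masses of the list (`b0, h0` = what is already revealed) -/
def skSamp (b h : ℝ → ℝ) : ℝ → ℝ → List ℝ → SkStp
  | _, _, [] => []
  | b0, h0, u :: us => ⟨u, b u - b0, h u - h0⟩ :: skSamp b h (b u) (h u) us

/-- convex segment between two step paths with the same masses -/
def skSeg (t : ℝ) (P Q : SkStp) : SkStp :=
  List.zipWith (fun e e' => ⟨e.m, (1 - t) * e.db + t * e'.db, (1 - t) * e.dh + t * e'.dh⟩) P Q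

/-- the rescaling `u = v/a`, `b~ = a² b`, `h~ = a² h` to terminal mass `1` (LL Lemma 2.1, PE appendix) -/
noncomputable def skRs (a : ℝ) (P : SkStp) : SkStp := P.map fun e => ⟨e.m / a, a ^ 2 * e.db, a ^ 2 * e.dh⟩

/-- the SK model at `T = β²`: one matrix revelation at mass `0` -/
def skPhys (T : ℝ) : SkStp := [⟨0, T, 0⟩]

/-- the completed free energy `F_n^c` (uniform prior), as a function of the drivers -/
noncomputable def skFc (n : ℕ) (T : ℝ) (ξ : SkDr n → ℝ) : ℝ := skG n 1 (skPhys T) ξ

theorem sk_d_eqns_cite : True := by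
  have := @skSp.eq_1
  have := @skY.eq_1
  have := @skOv.eq_1
  have := @skPhi.eq_1
  have := @skBase.eq_1
  have := @SkInc.lv.eq_1
  have := @skLvs.eq_1
  have := @SkAdm.eq_1
  have := @skCumB.eq_1
  have := @skCumH.eq_1
  have := @skTotB.eq_1
  have := @skTotH.eq_1
  have := @skClkB.eq_1
  have := @skClkH.eq_1
  have := @skMs.eq_1
  have := @skGap.eq_1
  have := @skF.eq_1
  have := @skPr.eq_1
  have := @skPrS.eq_1
  have := @skTilt.eq_1
  have := @skTilt.eq_2
  have := @skTilt.eq_def
  have := @skPsi.eq_1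
  have := @skKK.eq_1
  have := @skG.eq_1
  have := @skG.eq_2
  have := @skG.eq_def
  have := @skSamp.eq_1
  have := @skSamp.eq_2
  have := @skSamp.eq_def
  have := @skSamp.induct
  have := @skSeg.eq_1
  have := @skRs.eq_1
  have := @skPhys.eq_1
  have := @skFc.eq_1
  trivial

end Claimed.Agent.R286
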