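import Claimed.Agent.R286.Defs.Gh
import Claimed.Agent.R286.Defs.Sk

/-!
# Row 286 (S0533), Defs, LAYER C : BOUNDED MONOTONE CLOCKS      (helper76; names `GhPos`, `ghC*`, `skC*`)

PE Prop 2.14 / LL Sec. 2: for clocks which are not step functions ONLY NUMBERS are defined, as limits of the numbers of finite
hierarchies (`Defs/Gh.lean`) along the NET of all finite chains of positions (ordered by inclusion).      All random variables live on finite chains.
Why the net (262, 150): a chain which contains both sides of the big jumps is uniformly close to the clock, so the sup-norm Lipschitz bound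
(PE Lemma 2.9) + insertion of empty levels + merging of equal masses give existence of every limit, uniformly in the cuts; a step clock is reached exactly.

* `GhPos = ℝ ×ₗ ℝ`      a POSITION on a path: `(u, lam)` = mass `u`, fraction `lam ∈ [0,1]` of the jump at `u` already revealed (joint linear filling);
                        `ghPosB u = (u,0)` before the jump at `u`, `ghPosA u = (u,1)` after it.      Lexicographic order.
* `ghClamp a c`         the clock `c` is read on `[0,a]` only (`0` before mass `0`, constant after `a`); what is there at mass `0+` is revealed at mass `0`.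
* `ghAt a c p`, `ghClkAt a v p`       clock values at a position.
* `ghChain Φ a v c ps`  the finite hierarchy which reveals the clocks at the positions of the list `ps` (increment up to `p` at the mass `p.u`); `c` = what is already revealed.
* `ghPs a F`            the sorted list of the valid positions of the finite set `F`.
* `ghLim a Q`           **the limit operator**: limit of `Q (ghPs a F)` along `F → ∞` (inclusion).      EVERY path quantity is `ghLim` of a functional of finite chains.
* `ghIdx ps p`          number of revelations of the chain `ps` up to the position `p : WithTop GhPos` (`⊤`: including the terminal draw).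
* real trees            `τ : ℕ → ℕ → WithTop GhPos` on the labels `0..q-1`: `τ x y` = last position shared by `x, y` (`⊤` = the labels coincide); `GhIsRT a q τ`; independent of the clocks.
* `ghDisc ps τ`         the discrete table (number of shared revelations) of `τ` on the chain `ps`; `ghRepN q sh` representatives of a table.
* `ghOsc a c ps`        oscillation of a clock in the gaps of a chain (the modulus of every convergence statement).
* `ghCPress`, `ghCNu`   pressure and tree expectations of spin tests for clocks.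
* `ghAfter`, `ghUpto`   the clocks after / up to a position.
* `skCPr n a b h` = `f_n(b,h)`, `skCPrS` (with a source), `skCG` (LL (A4)), `skCNu`, `skCS`, `skCB` = `S`, `B` at a position.
-/

set_option autoImplicit false

namespace Claimed.Agent.R286

open MeasureTheory ProbabilityTheory Filter Topology

noncomputable section

/-! ### positions -/

/-- position on a path: (mass, revealed fraction of the jump at that mass), lexicographic order -/
abbrev GhPos : Type := ℝ ×ₗ ℝ

/-- mass of a position -/
def GhPos.u (p : GhPos) : ℝ := (ofLex p).1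
/-- revealed fraction of the jump -/
def GhPos.lam (p : GhPos) : ℝ := (ofLex p).2
/-- the position inside the jump at `u` -/
def ghPosF (u lam : ℝ) : GhPos := toLex (u, lam)
/-- before the jump at `u` -/
def ghPosB (u : ℝ) : GhPos := toLex (u, 0)
/-- after the jump at `u` -/
def ghPosA (u : ℝ) : GhPos := toLex (u, 1)

/-- valid position for the terminal mass `a` -/
def GhPos.Ok (a : ℝ) (p : GhPos) : Prop := 0 ≤ p.u ∧ p.u ≤ a ∧ 0 ≤ p.lam ∧ p.lam ≤ 1

/-! ### clocks -/

/-- the clock is read on `[0,a]` only -/
def ghClamp (a : ℝ) (c : ℝ → ℝ) (u : ℝ) : ℝ := if u < 0 then 0 else c (min u a)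

/-- admissible clock on `[0,a]` -/
def GhClk1 (a : ℝ) (c : ℝ → ℝ) : Prop := MonotoneOn c (Set.Icc 0 a) ∧ 0 ≤ c 0

/-- value of one clock at a position -/
def ghAt (a : ℝ) (c : ℝ → ℝ) (p : GhPos) : ℝ :=
  Function.leftLim (ghClamp a c) p.u + p.lam * (Function.rightLim (ghClamp a c) p.u - Function.leftLim (ghClamp a c) p.u)

variable {S ι : Type}

/-- admissible family of coordinate clocks -/
def GhClk (a : ℝ) (v : ι → ℝ → ℝ) : Prop := ∀ i, GhClk1 a (v i)

/-- values of the coordinate clocks at a position -/
def ghClkAt (a : ℝ) (v : ι → ℝ → ℝ) (p : GhPos) : ι → ℝ := fun i => ghAt a (v i) p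

/-- the clocks of what remains to be revealed after the position `p` -/
def ghAfter (a : ℝ) (v : ι → ℝ → ℝ) (p : GhPos) : ι → ℝ → ℝ :=
  fun i u => if u < p.u then 0 else max 0 (ghClamp a (v i) u - ghAt a (v i) p)

/-- the clocks stopped at the position `p` -/
def ghUpto (a : ℝ) (v : ι → ℝ → ℝ) (p : GhPos) : ι → ℝ → ℝ :=
  fun i u => if u < p.u then ghClamp a (v i) u else ghAt a (v i) p

/-- the finite hierarchy which reveals the clocks `v` of the features `Φ` at the positions of the list; `c` = already revealed -/
def ghChain (Φ : S → ι → ℝ) (a : ℝ) (v : ι → ℝ → ℝ) : (ι → ℝ) → List GhPos → List (GhLv S ι)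
  | _, [] => []
  | c, p :: ps => ghLvF Φ p.u (fun i => ghClkAt a v p i - c i) :: ghChain Φ a v (ghClkAt a v p) ps

/-! ### finite chains and the limit operator -/

open Classical in
/-- the sorted list of the valid positions of a finite set -/
def ghPs (a : ℝ) (F : Finset GhPos) : List GhPos := (F.filter fun p => p.Ok a).sort (· ≤ ·)

/-- **the limit operator**: limit along the net of all finite sets of positions -/
def ghLim (a : ℝ) (Q : List GhPos → ℝ) : ℝ := limUnder atTop fun F : Finset GhPos => Q (ghPs a F)

/-- the limit exists -/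
def GhLimEx (a : ℝ) (Q : List GhPos → ℝ) : Prop :=
  Tendsto (fun F : Finset GhPos => Q (ghPs a F)) atTop (𝓝 (ghLim a Q))

/-- dyadic masses of `[0,a]`, after their jumps -/
def ghGrid (a : ℝ) (k : ℕ) : Finset GhPos := (Finset.range (2 ^ k + 1)).image fun i : ℕ => ghPosA (a * i / 2 ^ k)

/-- oscillation of the clock `c` in the gaps of the chain `ps` (`c0` = value already revealed): the largest amount of clock which belongs to masses
`< p.u` and which the chain reveals only at the mass `p.u` (the jump at `p.u` itself costs nothing: equal masses merge); at the end: what is never revealed -/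
def ghOsc (a : ℝ) (c : ℝ → ℝ) : ℝ → List GhPos → ℝ
  | c0, [] => ghAt a c (ghPosA a) - c0
  | c0, p :: ps => max (Function.leftLim (ghClamp a c) p.u - c0) (ghOsc a c (ghAt a c p) ps)

/-- number of revelations of the chain `ps` up to the position `p` (`⊤`: all of them and the terminal draw) -/
def ghIdx (ps : List GhPos) (p : WithTop GhPos) : ℕ :=
  (ps.filter fun x => decide ((x : WithTop GhPos) ≤ p)).length + if p = ⊤ then 1 else 0

/-! ### real trees -/

/-- a real tree on the labels `0..q-1`: `τ x y` = the last position shared by `x` and `y`, `⊤` if they coincide -/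
structure GhIsRT (a : ℝ) (q : ℕ) (τ : ℕ → ℕ → WithTop GhPos) : Prop where
  diag : ∀ x, x < q → τ x x = ⊤
  symm : ∀ x y, x < q → y < q → τ x y = τ y x
  ultra : ∀ x y z, x < q → y < q → z < q → min (τ x y) (τ y z) ≤ τ x z
  ok : ∀ x y, x < q → y < q → ∀ p : GhPos, τ x y = (p : WithTop GhPos) → p.Ok a

/-- the fork positions (`⊤` is replaced by the empty position before mass `0`) -/
def ghForks (q : ℕ) (τ : ℕ → ℕ → WithTop GhPos) : Finset GhPos :=
  (Finset.range q ×ˢ Finset.range q).image fun xy => (τ xy.1 xy.2).untopD (ghPosB 0)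

/-- the discrete table of a real tree on a chain: number of shared revelations -/
def ghDisc (ps : List GhPos) (τ : ℕ → ℕ → WithTop GhPos) : ℕ → ℕ → ℕ := fun x y => ghIdx ps (τ x y)

/-- the least label which shares the revelation number `t` with `a`, for a table `sh` of numbers of shared revelations -/
def ghRepN (q : ℕ) (sh : ℕ → ℕ → ℕ) (t : ℕ) (a : Fin q) : Fin q :=
  (Finset.univ.filter fun b : Fin q => b = a ∨ t < sh a.1 b.1).min' ⟨a, by simp⟩

/-- the new label `q` follows `x` up to the position `p`, then departs (`p = ⊤`: coincides with `x`) -/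
def ghRAtt (q : ℕ) (τ : ℕ → ℕ → WithTop GhPos) (x : ℕ) (p : WithTop GhPos) : ℕ → ℕ → WithTop GhPos := fun y z =>
  if y = q then (if z = q then ⊤ else min p (τ x z)) else if z = q then min p (τ y x) else τ y z

/-- the tree of two labels which split at `p` -/
def ghR2 (p : GhPos) : ℕ → ℕ → WithTop GhPos := fun x y => if x = y then ⊤ else (p : WithTop GhPos)

/-! ### numbers of a path -/

variable [Fintype S] [Fintype ι]

/-- root continuation of the clocks `v`, with the common source `z` -/
def ghCPress (B : GhB S) (Φ : S → ι → ℝ) (v : ι → ℝ → ℝ) (z : S → ℝ) : ℝ :=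
  ghLim B.a fun ps => ghF B (ghChain Φ B.a v 0 ps) z

/-- tree expectation on ONE chain `ps` of the spin test `P` -/
def ghCNuF (B : GhB S) (Φ : S → ι → ℝ) (v : ι → ℝ → ℝ) (z : S → ℝ) (q : ℕ) (τ : ℕ → ℕ → WithTop GhPos)
    (P : (Fin q → S) → ℝ) (ps : List GhPos) : ℝ :=
  ghNu B (ghChain Φ B.a v 0 ps) (ghRepN q (ghDisc ps τ)) (fun _ => z) fun _ σ => P σ

/-- **tree expectation** of the spin test `P` under the positive tree law of the clocks `v` on the real tree `τ` -/
def ghCNu (B : GhB S) (Φ : S → ι → ℝ) (v : ι → ℝ → ℝ) (z : S → ℝ) (q : ℕ) (τ : ℕ → ℕ → WithTop GhPos)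
    (P : (Fin q → S) → ℝ) : ℝ :=
  ghLim B.a (ghCNuF B Φ v z q τ P)

/-! ### the SK instance -/

/-- the coordinate clocks of the SK model: matrix clock `b`, field clock `h` -/
def skClk (n : ℕ) (b h : ℝ → ℝ) : SkDr n → ℝ → ℝ := Sum.elim (fun _ => b) fun _ => h

/-- the step path which reveals `b, h` at the positions of the list -/
def skCStp (a : ℝ) (b h : ℝ → ℝ) : ℝ → ℝ → List GhPos → SkStp
  | _, _, [] => []
  | b0, h0, p :: ps => ⟨p.u, ghAt a b p - b0, ghAt a h p - h0⟩ :: skCStp a b h (ghAt a b p) (ghAt a h p) ps

/-- **the self corrected pressure** `f_n(b,h)` of bounded monotone clocks on `[0,a]` -/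
def skCPr (n : ℕ) (a : ℝ) (b h : ℝ → ℝ) : ℝ := ghLim a fun ps => skPr n a (skCStp a b h 0 0 ps)

/-- the same with a common deterministic source `z` -/
def skCPrS (n : ℕ) (a : ℝ) (b h : ℝ → ℝ) (z : SkCfg n → ℝ) : ℝ := ghLim a fun ps => skPrS n a (skCStp a b h 0 0 ps) z

/-- `G_n` (LL (A4)): the total continuation just after the revelation at the mass `0`, as a function of its driver -/
def skCG (n : ℕ) (a : ℝ) (b h : ℝ → ℝ) (ξ : SkDr n → ℝ) : ℝ :=
  ghCPress (skBase n a) (skPhi n) (ghAfter a (skClk n b h) (ghPosA 0))
    ((SkInc.lv n ⟨0, ghAt a b (ghPosA 0), ghAt a h (ghPosA 0)⟩).inc ξ)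

/-- tree expectation of a spin test -/
def skCNu (n : ℕ) (a : ℝ) (b h : ℝ → ℝ) (q : ℕ) (τ : ℕ → ℕ → WithTop GhPos) (P : (Fin q → SkCfg n) → ℝ) : ℝ :=
  ghLim a fun ps =>
    ghNu (skBase n a) (skLvs n (skCStp a b h 0 0 ps)) (ghRepN q (ghDisc ps τ)) (fun _ => 0) fun _ σ => P σ

/-- `S` at the position `p` -/
def skCS (n : ℕ) (a : ℝ) (b h : ℝ → ℝ) (p : GhPos) : ℝ := skCNu n a b h 2 (ghR2 p) fun σ => skOv (σ 0) (σ 1)

/-- `B` at the position `p` -/
def skCB (n : ℕ) (a : ℝ) (b h : ℝ → ℝ) (p : GhPos) : ℝ := skCNu n a b h 2 (ghR2 p) fun σ => skOv (σ 0) (σ 1) ^ 2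

theorem gh_clk_eqns_cite : True := by
  have := @GhPos.u.eq_1
  have := @GhPos.lam.eq_1
  have := @ghPosF.eq_1
  have := @ghPosB.eq_1
  have := @ghPosA.eq_1
  have := @GhPos.Ok.eq_1
  have := @ghClamp.eq_1
  have := @GhClk1.eq_1
  have := @ghAt.eq_1
  have := @GhClk.eq_1
  have := @ghClkAt.eq_1
  have := @ghAfter.eq_1
  have := @ghUpto.eq_1
  have := @skCPrS.eq_1
  have := @skCG.eq_1
  have := @ghChain.eq_1
  have := @ghChain.eq_2
  have := @ghChain.eq_def
  have := @ghChain.induct
  have := @ghGrid.eq_1
  have := @ghOsc.eq_1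
  have := @ghOsc.eq_2
  have := @ghOsc.eq_def
  have := @ghOsc.induct
  have := @ghPs.eq_1
  have := @ghLim.eq_1
  have := @GhLimEx.eq_1
  have := @ghIdx.eq_1
  have := @ghForks.eq_1
  have := @ghDisc.eq_1
  have := @ghRepN.eq_1
  have := @ghRAtt.eq_1
  have := @ghR2.eq_1
  have := @ghCPress.eq_1
  have := @ghCNuF.eq_1
  have := @ghCNu.eq_1
  have := @skClk.eq_1
  have := @skCStp.eq_1
  have := @skCStp.eq_2
  have := @skCStp.eq_def
  have := @skCStp.induct
  have := @skCPr.eq_1
  have := @skCNu.eq_1
  have := @skCS.eq_1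
  have := @skCB.eq_1
  trivial

/-- the two codings of the SK chains agree -/
theorem sk_c_chain (n : ℕ) (a : ℝ) (b h : ℝ → ℝ) (ps : List GhPos) (b0 h0 : ℝ) :
    skLvs n (skCStp a b h b0 h0 ps) = ghChain (skPhi n) a (skClk n b h) (Sum.elim (fun _ => b0) fun _ => h0) ps := by
  induction ps generalizing b0 h0 with
  | nil => rfl
  | cons p ps ih =>
    have h1 : ghClkAt a (skClk n b h) p = Sum.elim (fun _ => ghAt a b p) fun _ => ghAt a h p := by
      funext i; cases i <;> rfl
    have h2 : (fun i => ghClkAt a (skClk n b h) p i - (Sum.elim (fun _ => b0) fun _ => h0 : SkDr n → ℝ) i)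
        = Sum.elim (fun _ => ghAt a b p - b0) fun _ => ghAt a h p - h0 := by
      funext i; cases i <;> rfl
    simp only [skCStp, ghChain, skLvs, List.map_cons, SkInc.lv]
    rw [h2, h1]
    congr 1
    exact ih _ _

/-- the SK tree numbers are the general ones -/
theorem sk_c_nu_eq (n : ℕ) (a : ℝ) (b h : ℝ → ℝ) (q : ℕ) (τ : ℕ → ℕ → WithTop GhPos) (P : (Fin q → SkCfg n) → ℝ) :
    skCNu n a b h q τ P = ghCNu (skBase n a) (skPhi n) (skClk n b h) 0 q τ P := by
  have h0 : (Sum.elim (fun _ => (0:ℝ)) fun _ => (0:ℝ) : SkDr n → ℝ) = 0 := by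
    funext i; cases i <;> rfl
  unfold skCNu ghCNu
  have : (skBase n a).a = a := rfl
  rw [this]
  congr 1
  funext ps
  unfold ghCNuF
  rw [sk_c_chain, h0, this]

end

end Claimed.Agent.R286
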