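import Claimed.Agent.R286.Defs.Gh
import Claimed.Agent.Lib.PLConvex

/-!
# Row 286 (S0533), Defs: FIRST ORDER API of `Defs/Gh.lean`      (helper71; prefix `gh_b_`)      sorry free

* `GhNice F` : `F` monotone + translation equivariant (`⟹` `1`-Lipschitz for the sup norm, continuous)
* `gh_b_nice` : every continuation `ghF B ls` is `GhNice` (masses `≥ 0`)
* exponential integrability under `ghStd`, normalisation of the planted transition `ghD`
-/

set_option autoImplicit false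
set_option linter.unusedSectionVars false

namespace Claimed.Agent.R286

open MeasureTheory ProbabilityTheory Filter Topology

variable {S ι : Type} [Fintype S] [Fintype ι]

instance gh_b_instProb : IsProbabilityMeasure (ghStd ι) := by
  unfold ghStd; infer_instance

theorem gh_b_gauss_exp_abs (s : ℝ) :
    Integrable (fun x : ℝ => Real.exp (s * |x|)) (gaussianReal 0 1) := by
  refine ((integrable_exp_mul_gaussianReal (μ := 0) (v := 1) s).add
    (integrable_exp_mul_gaussianReal (μ := 0) (v := 1) (-s))).mono' (by fun_prop)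
    (Eventually.of_forall fun x => ?_)
  rw [Real.norm_eq_abs, abs_of_pos (Real.exp_pos _)]
  simp only [Pi.add_apply]
  rcases abs_cases x with ⟨h, _⟩ | ⟨h, _⟩
  · rw [h]; linarith [Real.exp_pos (-s * x)]
  · rw [h, mul_neg, ← neg_mul]; linarith [Real.exp_pos (s * x)]

/-- exponential moments of the `ℓ¹` norm of the drivers -/
theorem gh_b_exp_l1 (s : ℝ) :
    Integrable (fun ξ : ι → ℝ => Real.exp (s * ∑ i, |ξ i|)) (ghStd ι) := by
  have h := Integrable.fintype_prod (ι := ι) (f := fun _ (x : ℝ) => Real.exp (s * |x|))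
    (μ := fun _ => gaussianReal 0 1) (fun _ => gh_b_gauss_exp_abs s)
  refine h.congr (Eventually.of_forall fun g => ?_)
  simp only
  rw [← Real.exp_sum, Finset.mul_sum]

/-- crude size of a level -/
noncomputable def GhLv.nrm (l : GhLv S ι) : ℝ := ∑ s, ∑ i, |l.A s i|

theorem gh_b_nrm_nonneg (l : GhLv S ι) : 0 ≤ l.nrm :=
  Finset.sum_nonneg fun _ _ => Finset.sum_nonneg fun _ _ => abs_nonneg _

theorem gh_b_inc_le (l : GhLv S ι) (ξ : ι → ℝ) (s : S) : |l.inc ξ s| ≤ l.nrm * ∑ i, |ξ i| := by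
  unfold GhLv.inc
  refine (Finset.abs_sum_le_sum_abs _ _).trans ?_
  rw [Finset.mul_sum]
  refine Finset.sum_le_sum fun i _ => ?_
  rw [abs_mul]
  refine mul_le_mul_of_nonneg_right ?_ (abs_nonneg _)
  calc |l.A s i| ≤ ∑ i, |l.A s i| :=
        Finset.single_le_sum (f := fun i => |l.A s i|) (fun _ _ => abs_nonneg _) (Finset.mem_univ i)
    _ ≤ l.nrm :=
        Finset.single_le_sum (f := fun s => ∑ i, |l.A s i|)
          (fun _ _ => Finset.sum_nonneg fun _ _ => abs_nonneg _) (Finset.mem_univ s)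

theorem gh_b_inc_continuous (l : GhLv S ι) : Continuous (l.inc) := by
  unfold GhLv.inc
  fun_prop

theorem gh_b_inc_add (l : GhLv S ι) (ξ η : ι → ℝ) : l.inc (ξ + η) = l.inc ξ + l.inc η := by
  funext s
  simp [GhLv.inc, mul_add, Finset.sum_add_distrib]

theorem gh_b_inc_smul (l : GhLv S ι) (c : ℝ) (ξ : ι → ℝ) : l.inc (c • ξ) = c • l.inc ξ := by
  funext s
  simp only [GhLv.inc, Pi.smul_apply, smul_eq_mul, Finset.mul_sum]
  exact Finset.sum_congr rfl fun i _ => by ring

/-! ### the class of monotone translation equivariant functions -/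

/-- monotone and translation equivariant -/
structure GhNice (F : (S → ℝ) → ℝ) : Prop where
  mono : ∀ z z' : S → ℝ, (∀ s, z s ≤ z' s) → F z ≤ F z'
  shift : ∀ (z : S → ℝ) (c : ℝ), F (fun s => z s + c) = F z + c

theorem GhNice.le_add {F : (S → ℝ) → ℝ} (h : GhNice F) {z z' : S → ℝ} {d : ℝ}
    (hd : ∀ s, z s ≤ z' s + d) : F z ≤ F z' + d := by
  rw [← h.shift]
  exact h.mono _ _ hd

theorem GhNice.abs_sub_le {F : (S → ℝ) → ℝ} (h : GhNice F) {z z' : S → ℝ} {d : ℝ}
    (hd : ∀ s, |z s - z' s| ≤ d) : |F z - F z'| ≤ d := by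
  have h1 : F z ≤ F z' + d := h.le_add fun s => by linarith [(abs_le.1 (hd s)).2]
  have h2 : F z' ≤ F z + d := h.le_add fun s => by linarith [(abs_le.1 (hd s)).1]
  rw [abs_le]; constructor <;> linarith

theorem GhNice.abs_sub_le_norm {F : (S → ℝ) → ℝ} (h : GhNice F) (z z' : S → ℝ) :
    |F z - F z'| ≤ ‖z - z'‖ :=
  h.abs_sub_le fun s => by
    have := norm_le_pi_norm (z - z') s
    simpa using this

theorem GhNice.lipschitz {F : (S → ℝ) → ℝ} (h : GhNice F) : LipschitzWith 1 F :=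
  LipschitzWith.of_dist_le_mul fun z z' => by
    rw [Real.dist_eq, dist_eq_norm, NNReal.coe_one, one_mul]
    exact h.abs_sub_le_norm z z'

theorem GhNice.continuous {F : (S → ℝ) → ℝ} (h : GhNice F) : Continuous F := h.lipschitz.continuous

theorem GhNice.abs_inc_le {F : (S → ℝ) → ℝ} (h : GhNice F) (l : GhLv S ι) (z : S → ℝ) (ξ : ι → ℝ) :
    |F (z + l.inc ξ) - F z| ≤ l.nrm * ∑ i, |ξ i| :=
  h.abs_sub_le fun s => by simpa using gh_b_inc_le l ξ s

theorem GhNice.continuous_inc {F : (S → ℝ) → ℝ} (h : GhNice F) (l : GhLv S ι) (z : S → ℝ) :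
    Continuous fun ξ => F (z + l.inc ξ) :=
  h.continuous.comp (continuous_const.add (gh_b_inc_continuous l))

/-- exponential integrability of a nice function of the next field -/
theorem GhNice.integrable_exp {F : (S → ℝ) → ℝ} (h : GhNice F) (l : GhLv S ι) (c : ℝ) (z : S → ℝ) :
    Integrable (fun ξ => Real.exp (c * F (z + l.inc ξ))) (ghStd ι) := by
  have hc : Continuous fun ξ => Real.exp (c * F (z + l.inc ξ)) :=
    Real.continuous_exp.comp (continuous_const.mul (h.continuous_inc l z))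
  refine ((gh_b_exp_l1 (ι := ι) (|c| * l.nrm)).const_mul (Real.exp (c * F z))).mono'
    hc.aestronglyMeasurable (Eventually.of_forall fun ξ => ?_)
  rw [Real.norm_eq_abs, abs_of_pos (Real.exp_pos _), ← Real.exp_add]
  apply Real.exp_le_exp.2
  have h1 := h.abs_inc_le l z ξ
  have h2 : c * (F (z + l.inc ξ) - F z) ≤ |c| * (l.nrm * ∑ i, |ξ i|) := by
    calc c * (F (z + l.inc ξ) - F z) ≤ |c * (F (z + l.inc ξ) - F z)| := le_abs_self _
      _ = |c| * |F (z + l.inc ξ) - F z| := abs_mul _ _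
      _ ≤ _ := mul_le_mul_of_nonneg_left h1 (abs_nonneg _)
  nlinarith [h2]

theorem gh_b_l1_integrable : Integrable (fun ξ : ι → ℝ => ∑ i, |ξ i|) (ghStd ι) := by
  have hc : Continuous fun ξ : ι → ℝ => ∑ i, |ξ i| := by fun_prop
  refine (gh_b_exp_l1 (ι := ι) 1).mono' hc.aestronglyMeasurable (Eventually.of_forall fun ξ => ?_)
  have h0 : 0 ≤ ∑ i, |ξ i| := Finset.sum_nonneg fun _ _ => abs_nonneg _
  rw [Real.norm_eq_abs, abs_of_nonneg h0, one_mul]
  linarith [Real.add_one_le_exp (∑ i, |ξ i|)]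

theorem GhNice.integrable {F : (S → ℝ) → ℝ} (h : GhNice F) (l : GhLv S ι) (z : S → ℝ) :
    Integrable (fun ξ => F (z + l.inc ξ)) (ghStd ι) := by
  refine ((gh_b_l1_integrable (ι := ι)).const_mul l.nrm |>.add (integrable_const |F z|)).mono'
    (h.continuous_inc l z).aestronglyMeasurable (Eventually.of_forall fun ξ => ?_)
  have h1 := h.abs_inc_le l z ξ
  rw [Real.norm_eq_abs]
  simp only [Pi.add_apply]
  calc |F (z + l.inc ξ)| = |(F (z + l.inc ξ) - F z) + F z| := by ring_nf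
    _ ≤ |F (z + l.inc ξ) - F z| + |F z| := abs_add_le _ _
    _ ≤ _ := by linarith

theorem GhNice.integral_exp_pos {F : (S → ℝ) → ℝ} (h : GhNice F) (l : GhLv S ι) (c : ℝ)
    (z : S → ℝ) : 0 < ∫ ξ, Real.exp (c * F (z + l.inc ξ)) ∂ghStd ι :=
  MeasureTheory.integral_exp_pos (h.integrable_exp l c z)

/-- one step of the recursion preserves the class -/
theorem GhNice.step {F : (S → ℝ) → ℝ} (h : GhNice F) (l : GhLv S ι) (hm : 0 ≤ l.m) :
    GhNice fun z => ghT (ghStd ι) l.m fun ξ => F (z + l.inc ξ) := by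
  rcases hm.eq_or_lt with hm0 | hm0
  · constructor
    · intro z z' hz
      simp only [ghT, ← hm0, if_true]
      exact integral_mono (h.integrable l z) (h.integrable l z')
        fun ξ => h.mono _ _ fun s => by simpa using hz s
    · intro z c
      simp only [ghT, ← hm0, if_true]
      have e : ∀ ξ, F ((fun s => z s + c) + l.inc ξ) = F (z + l.inc ξ) + c := by
        intro ξ
        rw [← h.shift]
        congr 1
        funext s
        simp only [Pi.add_apply]; ring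
      simp_rw [e]
      rw [integral_add (h.integrable l z) (integrable_const c)]
      simp
  · constructor
    · intro z z' hz
      simp only [ghT, hm0.ne', if_false]
      refine mul_le_mul_of_nonneg_left ?_ (inv_nonneg.2 hm0.le)
      refine Real.log_le_log (h.integral_exp_pos l _ z) ?_
      refine integral_mono (h.integrable_exp l _ z) (h.integrable_exp l _ z') fun ξ => ?_
      apply Real.exp_le_exp.2
      exact mul_le_mul_of_nonneg_left (h.mono _ _ fun s => by simpa using hz s) hm0.le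
    · intro z c
      simp only [ghT, hm0.ne', if_false]
      have e : ∀ ξ, Real.exp (l.m * F ((fun s => z s + c) + l.inc ξ))
          = Real.exp (l.m * c) * Real.exp (l.m * F (z + l.inc ξ)) := by
        intro ξ
        rw [← Real.exp_add]
        congr 1
        have : F ((fun s => z s + c) + l.inc ξ) = F (z + l.inc ξ) + c := by
          rw [← h.shift]
          congr 1
          funext s
          simp only [Pi.add_apply]; ring
        rw [this]; ring
      simp_rw [e]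
      rw [integral_const_mul, Real.log_mul (Real.exp_pos _).ne' (h.integral_exp_pos l _ z).ne',
        Real.log_exp]
      field_simp
      ring

/-! ### the continuations -/

theorem gh_b_Z_pos {B : GhB S} (hB : B.Ok) (z : S → ℝ) : 0 < ∑ s, B.w s * Real.exp (B.a * z s) := by
  have h1 : ∃ s, 0 < B.w s := by
    by_contra hcon
    push Not at hcon
    have : ∑ s, B.w s ≤ 0 := Finset.sum_nonpos fun s _ => hcon s
    linarith [hB.sum]
  obtain ⟨s, hs⟩ := h1
  exact Finset.sum_pos' (fun t _ => mul_nonneg (hB.nonneg t) (Real.exp_pos _).le)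
    ⟨s, Finset.mem_univ s, mul_pos hs (Real.exp_pos _)⟩

theorem gh_b_nice0 {B : GhB S} (hB : B.Ok) : GhNice (ghF0 B) := by
  constructor
  · intro z z' hz
    unfold ghF0
    refine mul_le_mul_of_nonneg_left ?_ (inv_nonneg.2 hB.pos.le)
    refine Real.log_le_log (gh_b_Z_pos hB z) (Finset.sum_le_sum fun s _ => ?_)
    refine mul_le_mul_of_nonneg_left ?_ (hB.nonneg s)
    exact Real.exp_le_exp.2 (mul_le_mul_of_nonneg_left (hz s) hB.pos.le)
  · intro z c
    unfold ghF0
    have e : ∑ s, B.w s * Real.exp (B.a * (z s + c))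
        = Real.exp (B.a * c) * ∑ s, B.w s * Real.exp (B.a * z s) := by
      rw [Finset.mul_sum]
      refine Finset.sum_congr rfl fun s _ => ?_
      rw [mul_add, Real.exp_add]; ring
    rw [e, Real.log_mul (Real.exp_pos _).ne' (gh_b_Z_pos hB z).ne', Real.log_exp]
    have := hB.pos.ne'
    field_simp
    ring

/-- all masses of the list are `≥ 0` -/
def GhNn (ls : List (GhLv S ι)) : Prop := ∀ l ∈ ls, 0 ≤ l.m

theorem GhNn.tail {l : GhLv S ι} {ls : List (GhLv S ι)} (h : GhNn (l :: ls)) : GhNn ls :=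
  fun l' hl' => h l' (List.mem_cons_of_mem _ hl')

theorem GhNn.head {l : GhLv S ι} {ls : List (GhLv S ι)} (h : GhNn (l :: ls)) : 0 ≤ l.m :=
  h l List.mem_cons_self

theorem gh_b_nn_nil : GhNn ([] : List (GhLv S ι)) := fun _ h => absurd h List.not_mem_nil

theorem GhAdm.ghNn {B : GhB S} {u : ℝ} {ls : List (GhLv S ι)} (h : GhAdm B u ls) (hu : 0 ≤ u) :
    GhNn ls := fun l hl => hu.trans (h.2 l hl).1

/-- **every continuation is monotone and translation equivariant** -/
theorem gh_b_nice {B : GhB S} (hB : B.Ok) : ∀ {ls : List (GhLv S ι)}, GhNn ls → GhNice (ghF B ls)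
  | [], _ => gh_b_nice0 hB
  | l :: ls, h => by
      have := (gh_b_nice hB h.tail).step l h.head
      exact this

theorem gh_b_lip {B : GhB S} (hB : B.Ok) {ls : List (GhLv S ι)} (h : GhNn ls) (z z' : S → ℝ) :
    |ghF B ls z - ghF B ls z'| ≤ ‖z - z'‖ := (gh_b_nice hB h).abs_sub_le_norm z z'

theorem gh_b_continuous {B : GhB S} (hB : B.Ok) {ls : List (GhLv S ι)} (h : GhNn ls) :
    Continuous (ghF B ls) := (gh_b_nice hB h).continuous

/-- the partition function of one step -/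
noncomputable def ghI (B : GhB S) (l : GhLv S ι) (ls : List (GhLv S ι)) (z : S → ℝ) : ℝ :=
  ∫ ξ, Real.exp (l.m * ghF B ls (z + l.inc ξ)) ∂ghStd ι

theorem gh_b_I_pos {B : GhB S} (hB : B.Ok) {ls : List (GhLv S ι)} (h : GhNn ls) (l : GhLv S ι)
    (z : S → ℝ) : 0 < ghI B l ls z := (gh_b_nice hB h).integral_exp_pos l _ z

theorem gh_b_F_cons {B : GhB S} {l : GhLv S ι} (hm : l.m ≠ 0) (ls : List (GhLv S ι)) (z : S → ℝ) :
    ghF B (l :: ls) z = l.m⁻¹ * Real.log (ghI B l ls z) := by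
  simp only [ghF, ghT, hm, if_false, ghI]

theorem gh_b_F_cons_zero {B : GhB S} {l : GhLv S ι} (hm : l.m = 0) (ls : List (GhLv S ι))
    (z : S → ℝ) : ghF B (l :: ls) z = ∫ ξ, ghF B ls (z + l.inc ξ) ∂ghStd ι := by
  simp only [ghF, ghT, hm, if_true]

/-- the planted density is the normalised exponential -/
theorem gh_b_D_eq {B : GhB S} (hB : B.Ok) {ls : List (GhLv S ι)} (h : GhNn ls) (l : GhLv S ι)
    (z : S → ℝ) (ξ : ι → ℝ) :
    ghD B l ls z ξ = Real.exp (l.m * ghF B ls (z + l.inc ξ)) / ghI B l ls z := by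
  unfold ghD
  by_cases hm : l.m = 0
  · simp [hm, ghI]
  · rw [gh_b_F_cons hm, mul_sub, Real.exp_sub, ← mul_assoc, mul_inv_cancel₀ hm, one_mul,
      Real.exp_log (gh_b_I_pos hB h l z)]

theorem gh_b_D_pos (B : GhB S) (l : GhLv S ι) (ls : List (GhLv S ι)) (z : S → ℝ) (ξ : ι → ℝ) :
    0 < ghD B l ls z ξ := Real.exp_pos _

theorem gh_b_D_continuous {B : GhB S} (hB : B.Ok) {ls : List (GhLv S ι)} (h : GhNn ls)
    (l : GhLv S ι) (z : S → ℝ) : Continuous (ghD B l ls z) := by
  unfold ghD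
  exact Real.continuous_exp.comp (continuous_const.mul
    (((gh_b_nice hB h).continuous_inc l z).sub continuous_const))

theorem gh_b_D_integrable {B : GhB S} (hB : B.Ok) {ls : List (GhLv S ι)} (h : GhNn ls)
    (l : GhLv S ι) (z : S → ℝ) : Integrable (ghD B l ls z) (ghStd ι) := by
  have := ((gh_b_nice hB h).integrable_exp l l.m z).div_const (ghI B l ls z)
  exact this.congr (Eventually.of_forall fun ξ => (gh_b_D_eq hB h l z ξ).symm)

/-- **normalisation of the planted transition** -/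
theorem gh_b_D_integral {B : GhB S} (hB : B.Ok) {ls : List (GhLv S ι)} (h : GhNn ls)
    (l : GhLv S ι) (z : S → ℝ) : ∫ ξ, ghD B l ls z ξ ∂ghStd ι = 1 := by
  simp_rw [gh_b_D_eq hB h l z]
  rw [integral_div]
  exact div_self (gh_b_I_pos hB h l z).ne'

/-- comparison of the planted densities at two root fields -/
theorem gh_b_D_le {B : GhB S} (hB : B.Ok) {l : GhLv S ι} {ls : List (GhLv S ι)}
    (h : GhNn (l :: ls)) (z z' : S → ℝ) (ξ : ι → ℝ) :
    ghD B l ls z ξ ≤ Real.exp (2 * l.m * ‖z - z'‖) * ghD B l ls z' ξ := by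
  unfold ghD
  rw [← Real.exp_add]
  apply Real.exp_le_exp.2
  have h1 := gh_b_lip hB h.tail (z + l.inc ξ) (z' + l.inc ξ)
  have h2 := gh_b_lip hB h z z'
  rw [add_sub_add_right_eq_sub] at h1
  have h3 := (abs_le.1 h1).2
  have h4 := (abs_le.1 h2).1
  have hm := h.head
  nlinarith

/-! ### Gibbs weights -/

theorem gh_b_Gw_nonneg {B : GhB S} (hB : B.Ok) (z : S → ℝ) (s : S) : 0 ≤ ghGw B z s :=
  div_nonneg (mul_nonneg (hB.nonneg s) (Real.exp_pos _).le) (gh_b_Z_pos hB z).le

theorem gh_b_Gw_sum {B : GhB S} (hB : B.Ok) (z : S → ℝ) : ∑ s, ghGw B z s = 1 := by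
  unfold ghGw
  rw [← Finset.sum_div]
  exact div_self (gh_b_Z_pos hB z).ne'

theorem gh_b_Gw_continuous {B : GhB S} (hB : B.Ok) (s : S) : Continuous fun z => ghGw B z s := by
  unfold ghGw
  refine Continuous.div (by fun_prop) (by fun_prop) fun z => (gh_b_Z_pos hB z).ne'

/-! ### the planted average of a bounded continuous function of the next field -/

/-- planted average through the level `l` -/
noncomputable def ghA (B : GhB S) (l : GhLv S ι) (ls : List (GhLv S ι)) (g : (S → ℝ) → ℝ)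
    (z : S → ℝ) : ℝ := ∫ ξ, ghD B l ls z ξ * g (z + l.inc ξ) ∂ghStd ι

/-- bounded continuous -/
structure GhBC (g : (S → ℝ) → ℝ) (M : ℝ) : Prop where
  cont : Continuous g
  le : ∀ z, |g z| ≤ M

theorem GhBC.nonneg {g : (S → ℝ) → ℝ} {M : ℝ} (h : GhBC g M) : 0 ≤ M :=
  (abs_nonneg _).trans (h.le 0)

theorem GhBC.mono {g : (S → ℝ) → ℝ} {M M' : ℝ} (h : GhBC g M) (hM : M ≤ M') : GhBC g M' :=
  ⟨h.cont, fun z => (h.le z).trans hM⟩

theorem GhBC.add {g g' : (S → ℝ) → ℝ} {M M' : ℝ} (h : GhBC g M) (h' : GhBC g' M') :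
    GhBC (fun z => g z + g' z) (M + M') :=
  ⟨h.cont.add h'.cont, fun z => (abs_add_le _ _).trans (add_le_add (h.le z) (h'.le z))⟩

theorem GhBC.sub {g g' : (S → ℝ) → ℝ} {M M' : ℝ} (h : GhBC g M) (h' : GhBC g' M') :
    GhBC (fun z => g z - g' z) (M + M') :=
  ⟨h.cont.sub h'.cont, fun z => (abs_sub _ _).trans (add_le_add (h.le z) (h'.le z))⟩

theorem GhBC.mul {g g' : (S → ℝ) → ℝ} {M M' : ℝ} (h : GhBC g M) (h' : GhBC g' M') :
    GhBC (fun z => g z * g' z) (M * M') :=
  ⟨h.cont.mul h'.cont, fun z => by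
    rw [abs_mul]; exact mul_le_mul (h.le z) (h'.le z) (abs_nonneg _) h.nonneg⟩

theorem GhBC.const_mul {g : (S → ℝ) → ℝ} {M : ℝ} (h : GhBC g M) (c : ℝ) :
    GhBC (fun z => c * g z) (|c| * M) :=
  ⟨continuous_const.mul h.cont, fun z => by
    rw [abs_mul]; exact mul_le_mul_of_nonneg_left (h.le z) (abs_nonneg _)⟩

theorem gh_b_bc_const (c : ℝ) : GhBC (fun _ : S → ℝ => c) |c| := ⟨continuous_const, fun _ => le_rfl⟩

section avg
variable {B : GhB S} (hB : B.Ok) {l : GhLv S ι} {ls : List (GhLv S ι)} (h : GhNn (l :: ls))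
include hB h

theorem gh_b_A_integrable {g : (S → ℝ) → ℝ} {M : ℝ} (hg : GhBC g M) (z : S → ℝ) :
    Integrable (fun ξ => ghD B l ls z ξ * g (z + l.inc ξ)) (ghStd ι) := by
  refine ((gh_b_D_integrable hB h.tail l z).mul_const M).mono'
    ((gh_b_D_continuous hB h.tail l z).mul
      (hg.cont.comp (continuous_const.add (gh_b_inc_continuous l)))).aestronglyMeasurable
    (Eventually.of_forall fun ξ => ?_)
  rw [norm_mul, Real.norm_eq_abs, Real.norm_eq_abs, abs_of_pos (gh_b_D_pos B l ls z ξ)]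
  exact mul_le_mul_of_nonneg_left (hg.le _) (gh_b_D_pos B l ls z ξ).le

theorem gh_b_A_const (c : ℝ) (z : S → ℝ) : ghA B l ls (fun _ => c) z = c := by
  unfold ghA
  rw [integral_mul_const, gh_b_D_integral hB h.tail, one_mul]

theorem gh_b_A_add {g g' : (S → ℝ) → ℝ} {M M' : ℝ} (hg : GhBC g M) (hg' : GhBC g' M')
    (z : S → ℝ) : ghA B l ls (fun y => g y + g' y) z = ghA B l ls g z + ghA B l ls g' z := by
  unfold ghA
  rw [← integral_add (gh_b_A_integrable hB h hg z) (gh_b_A_integrable hB h hg' z)]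
  exact integral_congr_ae (Eventually.of_forall fun ξ => by simp only; ring)

theorem gh_b_A_sub {g g' : (S → ℝ) → ℝ} {M M' : ℝ} (hg : GhBC g M) (hg' : GhBC g' M')
    (z : S → ℝ) : ghA B l ls (fun y => g y - g' y) z = ghA B l ls g z - ghA B l ls g' z := by
  unfold ghA
  rw [← integral_sub (gh_b_A_integrable hB h hg z) (gh_b_A_integrable hB h hg' z)]
  exact integral_congr_ae (Eventually.of_forall fun ξ => by simp only; ring)

omit hB h in
theorem gh_b_A_const_mul (g : (S → ℝ) → ℝ) (c : ℝ) (z : S → ℝ) :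
    ghA B l ls (fun y => c * g y) z = c * ghA B l ls g z := by
  unfold ghA
  rw [← integral_const_mul]
  exact integral_congr_ae (Eventually.of_forall fun ξ => by simp only; ring)

theorem gh_b_A_mono {g g' : (S → ℝ) → ℝ} {M M' : ℝ} (hg : GhBC g M) (hg' : GhBC g' M')
    (hle : ∀ y, g y ≤ g' y) (z : S → ℝ) : ghA B l ls g z ≤ ghA B l ls g' z :=
  integral_mono (gh_b_A_integrable hB h hg z) (gh_b_A_integrable hB h hg' z)
    fun ξ => mul_le_mul_of_nonneg_left (hle _) (gh_b_D_pos B l ls z ξ).le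

theorem gh_b_A_nonneg {g : (S → ℝ) → ℝ} (hle : ∀ y, 0 ≤ g y) (z : S → ℝ) :
    0 ≤ ghA B l ls g z :=
  integral_nonneg fun ξ => mul_nonneg (gh_b_D_pos B l ls z ξ).le (hle _)

theorem gh_b_A_abs_le {g : (S → ℝ) → ℝ} {M : ℝ} (hg : GhBC g M) (z : S → ℝ) :
    |ghA B l ls g z| ≤ M := by
  have h1 := gh_b_A_mono hB h hg (gh_b_bc_const M) (fun y => (abs_le.1 (hg.le y)).2) z
  have h2 := gh_b_A_mono hB h (gh_b_bc_const (-M)) hg (fun y => (abs_le.1 (hg.le y)).1) z
  rw [gh_b_A_const hB h] at h1 h2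
  exact abs_le.2 ⟨h2, h1⟩

theorem gh_b_D_continuous_left (ξ : ι → ℝ) : Continuous fun z => ghD B l ls z ξ := by
  unfold ghD
  exact Real.continuous_exp.comp (continuous_const.mul
    (((gh_b_continuous hB h.tail).comp (continuous_id.add continuous_const)).sub
      (gh_b_continuous hB h)))

theorem gh_b_A_continuous {g : (S → ℝ) → ℝ} {M : ℝ} (hg : GhBC g M) :
    Continuous (ghA B l ls g) := by
  rw [continuous_iff_continuousAt]
  intro z₀
  unfold ghA
  refine continuousAt_of_dominated (bound := fun ξ => Real.exp (2 * l.m) * ghD B l ls z₀ ξ * M)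
    (Eventually.of_forall fun z => (gh_b_A_integrable hB h hg z).aestronglyMeasurable) ?_
    (((gh_b_D_integrable hB h.tail l z₀).const_mul _).mul_const M)
    (Eventually.of_forall fun ξ => ((gh_b_D_continuous_left hB h ξ).mul
      (hg.cont.comp (continuous_id.add continuous_const))).continuousAt)
  filter_upwards [Metric.ball_mem_nhds z₀ one_pos] with z hz
  refine Eventually.of_forall fun ξ => ?_
  rw [norm_mul, Real.norm_eq_abs, Real.norm_eq_abs, abs_of_pos (gh_b_D_pos B l ls z ξ)]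
  refine mul_le_mul ?_ (hg.le _) (abs_nonneg _)
    (mul_nonneg (Real.exp_pos _).le (gh_b_D_pos B l ls z₀ ξ).le)
  refine (gh_b_D_le hB h z z₀ ξ).trans ?_
  refine mul_le_mul_of_nonneg_right ?_ (gh_b_D_pos B l ls z₀ ξ).le
  apply Real.exp_le_exp.2
  have : ‖z - z₀‖ < 1 := by simpa [dist_eq_norm] using hz
  have hm := h.head
  nlinarith

theorem gh_b_A_bc {g : (S → ℝ) → ℝ} {M : ℝ} (hg : GhBC g M) : GhBC (ghA B l ls g) M :=
  ⟨gh_b_A_continuous hB h hg, gh_b_A_abs_le hB h hg⟩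

end avg

/-! ### the planted conditional expectation `ghE` -/

theorem gh_b_E_cons (B : GhB S) (l : GhLv S ι) (ls : List (GhLv S ι)) (Φ : S → ℝ) :
    ghE B (l :: ls) Φ = ghA B l ls (ghE B ls Φ) := rfl

theorem gh_b_E_nil (B : GhB S) (Φ : S → ℝ) (z : S → ℝ) :
    ghE (ι := ι) B [] Φ z = ∑ s, ghGw B z s * Φ s := rfl

/-- `ghE` is bounded continuous -/
theorem gh_b_E_bc {B : GhB S} (hB : B.Ok) {Φ : S → ℝ} {M : ℝ} (hΦ : ∀ s, |Φ s| ≤ M) :
    ∀ {ls : List (GhLv S ι)}, GhNn ls → GhBC (ghE B ls Φ) M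
  | [], _ => by
      constructor
      · have : ∀ s, Continuous fun z => ghGw B z s * Φ s :=
          fun s => (gh_b_Gw_continuous hB s).mul continuous_const
        exact continuous_finsetSum _ fun s _ => this s
      · intro z
        rw [gh_b_E_nil]
        calc |∑ s, ghGw B z s * Φ s| ≤ ∑ s, |ghGw B z s * Φ s| := Finset.abs_sum_le_sum_abs _ _
          _ ≤ ∑ s, ghGw B z s * M := Finset.sum_le_sum fun s _ => by
              rw [abs_mul, abs_of_nonneg (gh_b_Gw_nonneg hB z s)]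
              exact mul_le_mul_of_nonneg_left (hΦ s) (gh_b_Gw_nonneg hB z s)
          _ = M := by rw [← Finset.sum_mul, gh_b_Gw_sum hB, one_mul]
  | l :: ls, h => gh_b_A_bc hB h (gh_b_E_bc hB hΦ h.tail)

/-- sup norm of a spin observable -/
theorem gh_b_abs_le_norm (Φ : S → ℝ) (s : S) : |Φ s| ≤ ‖Φ‖ := by
  simpa using norm_le_pi_norm Φ s

theorem gh_b_E_bc' {B : GhB S} (hB : B.Ok) (Φ : S → ℝ) {ls : List (GhLv S ι)} (h : GhNn ls) :
    GhBC (ghE B ls Φ) ‖Φ‖ := gh_b_E_bc hB (gh_b_abs_le_norm Φ) h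

theorem gh_b_E_continuous {B : GhB S} (hB : B.Ok) (Φ : S → ℝ) {ls : List (GhLv S ι)}
    (h : GhNn ls) : Continuous (ghE B ls Φ) := (gh_b_E_bc' hB Φ h).cont

theorem gh_b_E_abs_le {B : GhB S} (hB : B.Ok) {Φ : S → ℝ} {M : ℝ} (hΦ : ∀ s, |Φ s| ≤ M)
    {ls : List (GhLv S ι)} (h : GhNn ls) (z : S → ℝ) : |ghE B ls Φ z| ≤ M :=
  (gh_b_E_bc hB hΦ h).le z

theorem gh_b_E_const {B : GhB S} (hB : B.Ok) (c : ℝ) :
    ∀ {ls : List (GhLv S ι)}, GhNn ls → ∀ z, ghE B ls (fun _ => c) z = c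
  | [], _, z => by rw [gh_b_E_nil, ← Finset.sum_mul, gh_b_Gw_sum hB, one_mul]
  | l :: ls, h, z => by
      rw [gh_b_E_cons]
      have : ghE B ls (fun _ => c) = fun _ => c := funext fun y => gh_b_E_const hB c h.tail y
      rw [this, gh_b_A_const hB h]

theorem gh_b_E_add {B : GhB S} (hB : B.Ok) (Φ Ψ : S → ℝ) :
    ∀ {ls : List (GhLv S ι)}, GhNn ls → ∀ z,
      ghE B ls (fun s => Φ s + Ψ s) z = ghE B ls Φ z + ghE B ls Ψ z
  | [], _, z => by
      simp only [gh_b_E_nil, mul_add, Finset.sum_add_distrib]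
  | l :: ls, h, z => by
      rw [gh_b_E_cons, gh_b_E_cons, gh_b_E_cons]
      have : ghE B ls (fun s => Φ s + Ψ s) = fun y => ghE B ls Φ y + ghE B ls Ψ y :=
        funext fun y => gh_b_E_add hB Φ Ψ h.tail y
      rw [this, gh_b_A_add hB h (gh_b_E_bc' hB Φ h.tail) (gh_b_E_bc' hB Ψ h.tail)]

theorem gh_b_E_const_mul (B : GhB S) (c : ℝ) (Φ : S → ℝ) :
    ∀ (ls : List (GhLv S ι)) (z), ghE B ls (fun s => c * Φ s) z = c * ghE B ls Φ z
  | [], z => by
      simp only [gh_b_E_nil, Finset.mul_sum]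
      exact Finset.sum_congr rfl fun s _ => by ring
  | l :: ls, z => by
      rw [gh_b_E_cons, gh_b_E_cons]
      have : ghE B ls (fun s => c * Φ s) = fun y => c * ghE B ls Φ y :=
        funext fun y => gh_b_E_const_mul B c Φ ls y
      rw [this, gh_b_A_const_mul]

theorem gh_b_E_neg (B : GhB S) (Φ : S → ℝ) (ls : List (GhLv S ι)) (z : S → ℝ) :
    ghE B ls (fun s => - Φ s) z = - ghE B ls Φ z := by
  have := gh_b_E_const_mul B (-1) Φ ls z
  simpa using this

theorem gh_b_E_sub {B : GhB S} (hB : B.Ok) (Φ Ψ : S → ℝ) {ls : List (GhLv S ι)} (h : GhNn ls)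
    (z : S → ℝ) : ghE B ls (fun s => Φ s - Ψ s) z = ghE B ls Φ z - ghE B ls Ψ z := by
  have := gh_b_E_add hB Φ (fun s => - Ψ s) h z
  rw [gh_b_E_neg] at this
  simpa [sub_eq_add_neg] using this

theorem gh_b_E_nonneg {B : GhB S} (hB : B.Ok) {Φ : S → ℝ} (hΦ : ∀ s, 0 ≤ Φ s) :
    ∀ {ls : List (GhLv S ι)}, GhNn ls → ∀ z, 0 ≤ ghE B ls Φ z
  | [], _, z => Finset.sum_nonneg fun s _ => mul_nonneg (gh_b_Gw_nonneg hB z s) (hΦ s)
  | _ :: _, h, z => gh_b_A_nonneg hB h (fun y => gh_b_E_nonneg hB hΦ h.tail y) z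

theorem gh_b_E_mono {B : GhB S} (hB : B.Ok) {Φ Ψ : S → ℝ} (hΦ : ∀ s, Φ s ≤ Ψ s)
    {ls : List (GhLv S ι)} (h : GhNn ls) (z : S → ℝ) : ghE B ls Φ z ≤ ghE B ls Ψ z := by
  have := gh_b_E_nonneg hB (Φ := fun s => Ψ s - Φ s) (fun s => sub_nonneg.2 (hΦ s)) h z
  rw [gh_b_E_sub hB _ _ h] at this
  linarith

theorem gh_b_E_sum {B : GhB S} (hB : B.Ok) {κ : Type} (t : Finset κ) (Φ : κ → S → ℝ)
    {ls : List (GhLv S ι)} (h : GhNn ls) (z : S → ℝ) :
    ghE B ls (fun s => ∑ k ∈ t, Φ k s) z = ∑ k ∈ t, ghE B ls (Φ k) z := by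
  classical
  induction t using Finset.induction_on with
  | empty => simpa using gh_b_E_const hB 0 h z
  | insert a t ha ih =>
      simp only [Finset.sum_insert ha]
      rw [gh_b_E_add hB _ _ h, ih]

/-- tower property -/
theorem gh_b_E_tower (B : GhB S) (l : GhLv S ι) (ls : List (GhLv S ι)) (Φ : S → ℝ) (z : S → ℝ) :
    ghE B (l :: ls) Φ z = ∫ ξ, ghD B l ls z ξ * ghE B ls Φ (z + l.inc ξ) ∂ghStd ι := rfl

/-! ### conditional covariance `ghC` and Hessian `ghH` -/

theorem gh_b_C_bc {B : GhB S} (hB : B.Ok) (v w : S → ℝ) {ls : List (GhLv S ι)} (h : GhNn ls) :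
    GhBC (ghC B ls v w) (‖v‖ * ‖w‖ + ‖v‖ * ‖w‖) := by
  unfold ghC
  refine GhBC.sub (gh_b_E_bc hB (fun s => ?_) h)
    ((gh_b_E_bc' hB v h).mul (gh_b_E_bc' hB w h))
  rw [abs_mul]
  exact mul_le_mul (gh_b_abs_le_norm v s) (gh_b_abs_le_norm w s) (abs_nonneg _) (norm_nonneg _)

theorem gh_b_C_symm (B : GhB S) (ls : List (GhLv S ι)) (v w : S → ℝ) (z : S → ℝ) :
    ghC B ls v w z = ghC B ls w v z := by
  unfold ghC
  rw [mul_comm (ghE B ls v z)]
  congr 2
  funext s
  ring

/-- the integrand of the martingale increment -/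
noncomputable def ghQ (B : GhB S) (l : GhLv S ι) (ls : List (GhLv S ι)) (v w : S → ℝ) (z : S → ℝ)
    (y : S → ℝ) : ℝ :=
  (ghE B ls v y - ghE B (l :: ls) v z) * (ghE B ls w y - ghE B (l :: ls) w z)

theorem gh_b_Q_bc {B : GhB S} (hB : B.Ok) (v w : S → ℝ) {l : GhLv S ι} {ls : List (GhLv S ι)}
    (h : GhNn (l :: ls)) (z : S → ℝ) :
    GhBC (ghQ B l ls v w z) ((‖v‖ + |ghE B (l :: ls) v z|) * (‖w‖ + |ghE B (l :: ls) w z|)) :=
  ((gh_b_E_bc' hB v h.tail).sub (gh_b_bc_const _)).mul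
    ((gh_b_E_bc' hB w h.tail).sub (gh_b_bc_const _))

/-- **law of total covariance** -/
theorem gh_b_C_total {B : GhB S} (hB : B.Ok) (v w : S → ℝ) {l : GhLv S ι} {ls : List (GhLv S ι)}
    (h : GhNn (l :: ls)) (z : S → ℝ) :
    ghC B (l :: ls) v w z = ghA B l ls (fun y => ghC B ls v w y + ghQ B l ls v w z y) z := by
  set ev := ghE B (l :: ls) v z with hev
  set ew := ghE B (l :: ls) w z with hew
  have e1 : (fun y => ghC B ls v w y + ghQ B l ls v w z y)
      = fun y => (ghE B ls (fun s => v s * w s) y - (ev * ghE B ls w y + ew * ghE B ls v y))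
          + ev * ew := by
    funext y
    simp only [ghC, ghQ, ← hev, ← hew]
    ring
  have b1 := gh_b_E_bc' hB (fun s => v s * w s) h.tail
  have b2 := (gh_b_E_bc' hB w h.tail).const_mul ev
  have b3 := (gh_b_E_bc' hB v h.tail).const_mul ew
  rw [e1, gh_b_A_add hB h (b1.sub (b2.add b3)) (gh_b_bc_const _), gh_b_A_sub hB h b1 (b2.add b3),
    gh_b_A_add hB h b2 b3, gh_b_A_const_mul, gh_b_A_const_mul, gh_b_A_const hB h,
    ← gh_b_E_cons, ← gh_b_E_cons, ← gh_b_E_cons, ← hev, ← hew]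
  simp only [ghC, ← hev, ← hew]
  ring

theorem gh_b_C_nil_nonneg {B : GhB S} (hB : B.Ok) (v : S → ℝ) (z : S → ℝ) :
    0 ≤ ghC (ι := ι) B [] v v z := by
  obtain ⟨e, he⟩ : ∃ e : ℝ, e = ∑ s, ghGw B z s * v s := ⟨_, rfl⟩
  have : ghC (ι := ι) B [] v v z = ∑ s, ghGw B z s * (v s - e) ^ 2 := by
    simp only [ghC, gh_b_E_nil, ← he]
    have h1 : ∑ s, ghGw B z s * (v s - e) ^ 2
        = ∑ s, ghGw B z s * (v s * v s) - 2 * e * ∑ s, ghGw B z s * v s
          + e ^ 2 * ∑ s, ghGw B z s := by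
      rw [Finset.mul_sum, Finset.mul_sum, ← Finset.sum_sub_distrib, ← Finset.sum_add_distrib]
      exact Finset.sum_congr rfl fun s _ => by ring
    rw [h1, gh_b_Gw_sum hB, ← he]
    ring
  rw [this]
  exact Finset.sum_nonneg fun s _ => mul_nonneg (gh_b_Gw_nonneg hB z s) (sq_nonneg _)

theorem gh_b_Q_self_nonneg (B : GhB S) (l : GhLv S ι) (ls : List (GhLv S ι)) (v : S → ℝ)
    (z y : S → ℝ) : 0 ≤ ghQ B l ls v v z y := mul_self_nonneg _

theorem gh_b_C_nonneg {B : GhB S} (hB : B.Ok) (v : S → ℝ) :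
    ∀ {ls : List (GhLv S ι)}, GhNn ls → ∀ z, 0 ≤ ghC B ls v v z
  | [], _, z => gh_b_C_nil_nonneg hB v z
  | l :: ls, h, z => by
      rw [gh_b_C_total hB v v h]
      exact gh_b_A_nonneg hB h
        (fun y => add_nonneg (gh_b_C_nonneg hB v h.tail y) (gh_b_Q_self_nonneg B l ls v z y)) z

theorem gh_b_H_cons (B : GhB S) (l : GhLv S ι) (ls : List (GhLv S ι)) (v w : S → ℝ) (z : S → ℝ) :
    ghH B (l :: ls) v w z = ghA B l ls (fun y => ghH B ls v w y + l.m * ghQ B l ls v w z y) z := rfl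

theorem gh_b_H_nil (B : GhB S) (v w : S → ℝ) (z : S → ℝ) :
    ghH (ι := ι) B [] v w z = B.a * ghC (ι := ι) B [] v w z := rfl

/-- qualitative bound (depends on the list) -/
theorem gh_b_H_bc {B : GhB S} (hB : B.Ok) (v w : S → ℝ) :
    ∀ {ls : List (GhLv S ι)}, GhNn ls → ∃ M, GhBC (ghH B ls v w) M
  | [], h => ⟨_, (gh_b_C_bc hB v w h).const_mul B.a⟩
  | l :: ls, h => by
      obtain ⟨M, hM⟩ := gh_b_H_bc hB v w h.tail
      refine ⟨M + |l.m| * ((‖v‖ + ‖v‖) * (‖w‖ + ‖w‖)), ?_, ?_⟩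
      · -- continuity: expand the square
        have e : ghH B (l :: ls) v w = fun z =>
            ghA B l ls (fun y => ghH B ls v w y + l.m * (ghE B ls v y * ghE B ls w y)) z
              - l.m * (ghE B (l :: ls) v z * ghE B (l :: ls) w z) := by
          funext z
          rw [gh_b_H_cons]
          set ev := ghE B (l :: ls) v z with hev
          set ew := ghE B (l :: ls) w z with hew
          have bv := gh_b_E_bc' hB v h.tail
          have bw := gh_b_E_bc' hB w h.tail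
          have e1 : (fun y => ghH B ls v w y + l.m * ghQ B l ls v w z y)
              = fun y => (ghH B ls v w y + l.m * (ghE B ls v y * ghE B ls w y))
                - ((l.m * ev) * ghE B ls w y + (l.m * ew) * ghE B ls v y) + l.m * (ev * ew) := by
            funext y
            simp only [ghQ, ← hev, ← hew]
            ring
          have b1 := hM.add ((bv.mul bw).const_mul l.m)
          have b2 := bw.const_mul (l.m * ev)
          have b3 := bv.const_mul (l.m * ew)
          rw [e1, gh_b_A_add hB h (b1.sub (b2.add b3)) (gh_b_bc_const _),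
            gh_b_A_sub hB h b1 (b2.add b3), gh_b_A_add hB h b2 b3, gh_b_A_const_mul,
            gh_b_A_const_mul, gh_b_A_const hB h, ← gh_b_E_cons, ← gh_b_E_cons, ← hev, ← hew]
          ring
        rw [e]
        have bv := gh_b_E_bc' hB v h.tail
        have bw := gh_b_E_bc' hB w h.tail
        exact (gh_b_A_continuous hB h (hM.add ((bv.mul bw).const_mul l.m))).sub
          (continuous_const.mul ((gh_b_E_continuous hB v h).mul (gh_b_E_continuous hB w h)))
      · intro z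
        rw [gh_b_H_cons]
        refine gh_b_A_abs_le hB h (hM.add (((gh_b_Q_bc hB v w h z).mono ?_).const_mul l.m)) z
        exact mul_le_mul (add_le_add le_rfl ((gh_b_E_bc' hB v h).le z))
          (add_le_add le_rfl ((gh_b_E_bc' hB w h).le z))
          (add_nonneg (norm_nonneg _) (abs_nonneg _)) (add_nonneg (norm_nonneg _) (norm_nonneg _))

theorem gh_b_H_continuous {B : GhB S} (hB : B.Ok) (v w : S → ℝ) {ls : List (GhLv S ι)}
    (h : GhNn ls) : Continuous (ghH B ls v w) := (gh_b_H_bc hB v w h).choose_spec.cont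

/-- `H ≤ a C` -/
theorem gh_b_H_le {B : GhB S} (hB : B.Ok) (v : S → ℝ) :
    ∀ {ls : List (GhLv S ι)}, GhNn ls → (∀ l ∈ ls, l.m ≤ B.a) → ∀ z,
      ghH B ls v v z ≤ B.a * ghC B ls v v z
  | [], _, _, z => le_of_eq (gh_b_H_nil B v v z)
  | l :: ls, h, ha, z => by
      obtain ⟨M, hM⟩ := gh_b_H_bc hB v v h.tail
      rw [gh_b_H_cons, gh_b_C_total hB v v h, ← gh_b_A_const_mul]
      refine gh_b_A_mono hB h (hM.add ((gh_b_Q_bc hB v v h z).const_mul l.m))
        (((gh_b_C_bc hB v v h.tail).add (gh_b_Q_bc hB v v h z)).const_mul B.a) (fun y => ?_) z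
      have h1 := gh_b_H_le hB v h.tail (fun l' hl' => ha l' (List.mem_cons_of_mem _ hl')) y
      have h2 := mul_le_mul_of_nonneg_right (ha l List.mem_cons_self)
        (gh_b_Q_self_nonneg B l ls v z y)
      linarith

/-- `u C ≤ H` -/
theorem gh_b_le_H {B : GhB S} (hB : B.Ok) (v : S → ℝ) {u : ℝ} (hu : u ≤ B.a) :
    ∀ {ls : List (GhLv S ι)}, GhNn ls → (∀ l ∈ ls, u ≤ l.m) → ∀ z,
      u * ghC B ls v v z ≤ ghH B ls v v z
  | [], _, _, z => by
      rw [gh_b_H_nil]
      exact mul_le_mul_of_nonneg_right hu (gh_b_C_nil_nonneg hB v z)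
  | l :: ls, h, ha, z => by
      obtain ⟨M, hM⟩ := gh_b_H_bc hB v v h.tail
      rw [gh_b_H_cons, gh_b_C_total hB v v h, ← gh_b_A_const_mul]
      refine gh_b_A_mono hB h
        (((gh_b_C_bc hB v v h.tail).add (gh_b_Q_bc hB v v h z)).const_mul u)
        (hM.add ((gh_b_Q_bc hB v v h z).const_mul l.m)) (fun y => ?_) z
      have h1 := gh_b_le_H hB v hu h.tail (fun l' hl' => ha l' (List.mem_cons_of_mem _ hl')) y
      have h2 := mul_le_mul_of_nonneg_right (ha l List.mem_cons_self)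
        (gh_b_Q_self_nonneg B l ls v z y)
      linarith

theorem gh_b_H_nonneg {B : GhB S} (hB : B.Ok) (v : S → ℝ) {ls : List (GhLv S ι)} (h : GhNn ls)
    (z : S → ℝ) : 0 ≤ ghH B ls v v z := by
  have := gh_b_le_H hB v hB.pos.le h h z
  simpa using this

end Claimed.Agent.R286
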