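import Claimed.Agent.R286.Defs.GhBasic

/-!
# Row 286 (S0533), Defs: SECOND ORDER API of `Defs/Gh.lean`      (helper71; prefix `gh_v_`)      sorry free

* `GhDir v g g'` : `g'` is the directional derivative of `g` along `v` (at every point)
* `gh_v_grad` : `D_v ghF = ghE v`;   `gh_v_hess` : `D_w ghE v = ghH v w`
* `ghH` symmetric, bilinear, Cauchy-Schwarz
-/

set_option autoImplicit false
set_option linter.unusedSectionVars false

namespace Claimed.Agent.R286

open MeasureTheory ProbabilityTheory Filter Topology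

variable {S ι : Type} [Fintype S] [Fintype ι]

/-- `g'` is the derivative of `g` along `v`, at every point -/
def GhDir (v : S → ℝ) (g g' : (S → ℝ) → ℝ) : Prop :=
  ∀ y : S → ℝ, HasDerivAt (fun t : ℝ => g (y + t • v)) (g' y) 0

theorem GhDir.at {v : S → ℝ} {g g' : (S → ℝ) → ℝ} (h : GhDir v g g') (y : S → ℝ) (t : ℝ) :
    HasDerivAt (fun t : ℝ => g (y + t • v)) (g' (y + t • v)) t := by
  have h1 := h (y + t • v)
  have h2 : HasDerivAt (fun s : ℝ => g (y + t • v + (s - t) • v)) (g' (y + t • v)) t := by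
    have := HasDerivAt.comp_sub_const t t (f := fun s : ℝ => g (y + t • v + s • v))
      (f' := g' (y + t • v)) (by simpa using h1)
    exact this
  refine h2.congr_of_eventuallyEq (Eventually.of_forall fun s => ?_)
  simp only
  congr 1
  rw [add_assoc, ← add_smul]
  congr 2
  ring

theorem gh_v_dir_const (v : S → ℝ) (c : ℝ) : GhDir v (fun _ => c) (fun _ => 0) :=
  fun _ => hasDerivAt_const _ _

theorem GhDir.add {v : S → ℝ} {g g' k k' : (S → ℝ) → ℝ} (h : GhDir v g g') (h' : GhDir v k k') :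
    GhDir v (fun y => g y + k y) (fun y => g' y + k' y) := fun y => (h y).add (h' y)

theorem GhDir.sub {v : S → ℝ} {g g' k k' : (S → ℝ) → ℝ} (h : GhDir v g g') (h' : GhDir v k k') :
    GhDir v (fun y => g y - k y) (fun y => g' y - k' y) := fun y => (h y).sub (h' y)

theorem GhDir.mul {v : S → ℝ} {g g' k k' : (S → ℝ) → ℝ} (h : GhDir v g g') (h' : GhDir v k k') :
    GhDir v (fun y => g y * k y) (fun y => g' y * k y + g y * k' y) := fun y => by
  have := (h y).fun_mul (h' y)
  simpa using this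

theorem GhDir.const_mul {v : S → ℝ} {g g' : (S → ℝ) → ℝ} (h : GhDir v g g') (c : ℝ) :
    GhDir v (fun y => c * g y) (fun y => c * g' y) := fun y => (h y).const_mul c

/-! ### terminal level -/

theorem gh_v_sum_hasDerivAt (B : GhB S) (z v c : S → ℝ) :
    HasDerivAt (fun t : ℝ => ∑ s, B.w s * Real.exp (B.a * (z + t • v) s) * c s)
      (∑ s, B.w s * Real.exp (B.a * z s) * c s * (B.a * v s)) 0 := by
  refine HasDerivAt.fun_sum fun s _ => ?_
  have h1 : HasDerivAt (fun t : ℝ => B.a * (z + t • v) s) (B.a * v s) 0 := by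
    have : HasDerivAt (fun t : ℝ => z s + t * v s) (v s) 0 := by
      simpa using ((hasDerivAt_id (0:ℝ)).mul_const (v s)).const_add (z s)
    simpa using this.const_mul B.a
  have h2 := ((h1.exp).const_mul (B.w s)).mul_const (c s)
  refine h2.congr_deriv ?_
  simp only [zero_smul, add_zero]
  ring

theorem gh_v_grad0 {B : GhB S} (hB : B.Ok) (v : S → ℝ) :
    GhDir v (ghF0 B) (ghE (ι := ι) B [] v) := by
  intro z
  have h1 := gh_v_sum_hasDerivAt B z v (fun _ => 1)
  simp only [mul_one] at h1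
  have hZ : (∑ s, B.w s * Real.exp (B.a * (z + (0:ℝ) • v) s)) ≠ 0 := (gh_b_Z_pos hB _).ne'
  have h2 := (h1.log hZ).const_mul B.a⁻¹
  unfold ghF0
  refine h2.congr_deriv ?_
  rw [gh_b_E_nil]
  simp only [ghGw, zero_smul, add_zero]
  rw [Finset.sum_div, Finset.mul_sum]
  refine Finset.sum_congr rfl fun s _ => ?_
  have := hB.pos.ne'
  field_simp

theorem gh_v_hess0 {B : GhB S} (hB : B.Ok) (v w : S → ℝ) :
    GhDir w (ghE (ι := ι) B [] v) (ghH (ι := ι) B [] v w) := by
  intro z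
  have h1 := gh_v_sum_hasDerivAt B z w (fun _ => 1)
  have h2 := gh_v_sum_hasDerivAt B z w v
  simp only [mul_one] at h1
  have hZ : (∑ s, B.w s * Real.exp (B.a * (z + (0:ℝ) • w) s)) ≠ 0 := (gh_b_Z_pos hB _).ne'
  have h3 := h2.fun_div h1 hZ
  have e : (fun t : ℝ => ghE (ι := ι) B [] v (z + t • w)) = fun t : ℝ =>
      (∑ s, B.w s * Real.exp (B.a * (z + t • w) s) * v s) /
        (∑ s, B.w s * Real.exp (B.a * (z + t • w) s)) := by
    funext t
    rw [gh_b_E_nil, Finset.sum_div]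
    refine Finset.sum_congr rfl fun s _ => ?_
    simp only [ghGw]
    ring
  rw [e]
  refine h3.congr_deriv ?_
  rw [gh_b_H_nil]
  simp only [ghC, gh_b_E_nil, ghGw, zero_smul, add_zero]
  obtain ⟨Z, hZd⟩ : ∃ Z, Z = ∑ s, B.w s * Real.exp (B.a * z s) := ⟨_, rfl⟩
  have hZ0 : Z ≠ 0 := by rw [hZd]; exact (gh_b_Z_pos hB z).ne'
  rw [← hZd]
  have e1 : ∑ s, B.w s * Real.exp (B.a * z s) / Z * (v s * w s)
      = (∑ s, B.w s * Real.exp (B.a * z s) * v s * w s) / Z := by
    rw [Finset.sum_div]; exact Finset.sum_congr rfl fun s _ => by ring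
  have e2 : ∑ s, B.w s * Real.exp (B.a * z s) / Z * v s
      = (∑ s, B.w s * Real.exp (B.a * z s) * v s) / Z := by
    rw [Finset.sum_div]; exact Finset.sum_congr rfl fun s _ => by ring
  have e3 : ∑ s, B.w s * Real.exp (B.a * z s) / Z * w s
      = (∑ s, B.w s * Real.exp (B.a * z s) * w s) / Z := by
    rw [Finset.sum_div]; exact Finset.sum_congr rfl fun s _ => by ring
  have e4 : ∑ s, B.w s * Real.exp (B.a * z s) * v s * (B.a * w s)
      = B.a * ∑ s, B.w s * Real.exp (B.a * z s) * v s * w s := by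
    rw [Finset.mul_sum]; exact Finset.sum_congr rfl fun s _ => by ring
  have e5 : ∑ s, B.w s * Real.exp (B.a * z s) * (B.a * w s)
      = B.a * ∑ s, B.w s * Real.exp (B.a * z s) * w s := by
    rw [Finset.mul_sum]; exact Finset.sum_congr rfl fun s _ => by ring
  rw [e1, e2, e3, e4, e5]
  field_simp

/-! ### differentiation under the Gaussian integral -/

theorem gh_v_norm_smul_le {t : ℝ} (ht : |t| ≤ 1) (v : S → ℝ) : ‖t • v‖ ≤ ‖v‖ := by
  rw [norm_smul, Real.norm_eq_abs]
  exact mul_le_of_le_one_left (norm_nonneg _) ht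

/-- the weighted integral `N_g(z) = ∫ e^{m G(z + inc ξ)} g(z + inc ξ)` -/
theorem gh_v_N {G G' g g' : (S → ℝ) → ℝ} {v : S → ℝ} {K M M' m : ℝ} (hG : GhNice G)
    (hGd : GhDir v G G') (hG' : GhBC G' K) (hg : GhBC g M) (hgd : GhDir v g g') (hg' : GhBC g' M')
    (l : GhLv S ι) (hm : 0 ≤ m) :
    GhDir v (fun z => ∫ ξ, Real.exp (m * G (z + l.inc ξ)) * g (z + l.inc ξ) ∂ghStd ι)
      (fun z => ∫ ξ, Real.exp (m * G (z + l.inc ξ)) *
        (m * G' (z + l.inc ξ) * g (z + l.inc ξ) + g' (z + l.inc ξ)) ∂ghStd ι) := by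
  intro z
  have hinc : Continuous fun ξ : ι → ℝ => l.inc ξ := gh_b_inc_continuous l
  have cG : ∀ y : S → ℝ, Continuous fun ξ => Real.exp (m * G (y + l.inc ξ)) := fun y =>
    Real.continuous_exp.comp (continuous_const.mul (hG.continuous_inc l y))
  have cc : ∀ {k : (S → ℝ) → ℝ}, Continuous k → ∀ y : S → ℝ, Continuous fun ξ => k (y + l.inc ξ) :=
    fun hk y => hk.comp (continuous_const.add hinc)
  have key := hasDerivAt_integral_of_dominated_loc_of_deriv_le (μ := ghStd ι) (𝕜 := ℝ)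
    (F := fun t ξ => Real.exp (m * G (z + t • v + l.inc ξ)) * g (z + t • v + l.inc ξ))
    (F' := fun t ξ => Real.exp (m * G (z + t • v + l.inc ξ)) *
        (m * G' (z + t • v + l.inc ξ) * g (z + t • v + l.inc ξ) + g' (z + t • v + l.inc ξ)))
    (x₀ := 0) (s := Metric.ball 0 1)
    (bound := fun ξ => Real.exp (m * ‖v‖) * Real.exp (m * G (z + l.inc ξ)) * (m * K * M + M'))
    (Metric.ball_mem_nhds 0 one_pos)
    (Eventually.of_forall fun t => ((cG _).mul (cc hg.cont _)).aestronglyMeasurable)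
    ?_ ((cG _).mul (((continuous_const.mul (cc hG'.cont _)).mul (cc hg.cont _)).add
      (cc hg'.cont _))).aestronglyMeasurable ?_
    (((hG.integrable_exp l m z).const_mul _).mul_const _) ?_
  · have := key.2
    simpa using this
  · simp only [zero_smul, add_zero]
    refine ((hG.integrable_exp l m z).mul_const M).mono'
      ((cG _).mul (cc hg.cont _)).aestronglyMeasurable (Eventually.of_forall fun ξ => ?_)
    rw [norm_mul, Real.norm_eq_abs, Real.norm_eq_abs, abs_of_pos (Real.exp_pos _)]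
    exact mul_le_mul_of_nonneg_left (hg.le _) (Real.exp_pos _).le
  · refine Eventually.of_forall fun ξ t ht => ?_
    have ht1 : |t| ≤ 1 := by
      have : |t| < 1 := by simpa [Real.dist_eq] using ht
      exact this.le
    rw [norm_mul, Real.norm_eq_abs, Real.norm_eq_abs, abs_of_pos (Real.exp_pos _)]
    refine mul_le_mul ?_ ?_ (abs_nonneg _) (mul_pos (Real.exp_pos _) (Real.exp_pos _)).le
    · rw [← Real.exp_add]
      apply Real.exp_le_exp.2
      have h1 := hG.abs_sub_le_norm (z + t • v + l.inc ξ) (z + l.inc ξ)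
      have e : z + t • v + l.inc ξ - (z + l.inc ξ) = t • v := by abel
      rw [e] at h1
      have h2 := (abs_le.1 (h1.trans (gh_v_norm_smul_le ht1 v))).2
      nlinarith
    · refine (abs_add_le _ _).trans (add_le_add ?_ (hg'.le _))
      rw [abs_mul, abs_mul, abs_of_nonneg hm]
      exact mul_le_mul (mul_le_mul_of_nonneg_left (hG'.le _) hm) (hg.le _) (abs_nonneg _)
        (mul_nonneg hm hG'.nonneg)
  · refine Eventually.of_forall fun ξ t _ => ?_
    have e : ∀ t : ℝ, z + t • v + l.inc ξ = (z + l.inc ξ) + t • v := fun t => add_right_comm _ _ _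
    simp only [e]
    have h1 := ((hGd.at (z + l.inc ξ) t).const_mul m).exp
    have h2 := h1.fun_mul (hgd.at (z + l.inc ξ) t)
    refine h2.congr_deriv ?_
    ring

/-- the plain integral of a nice function -/
theorem gh_v_int {G G' : (S → ℝ) → ℝ} {v : S → ℝ} {K : ℝ} (hG : GhNice G)
    (hGd : GhDir v G G') (hG' : GhBC G' K) (l : GhLv S ι) :
    GhDir v (fun z => ∫ ξ, G (z + l.inc ξ) ∂ghStd ι) (fun z => ∫ ξ, G' (z + l.inc ξ) ∂ghStd ι) := by
  intro z
  have hinc : Continuous fun ξ : ι → ℝ => l.inc ξ := gh_b_inc_continuous l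
  have key := hasDerivAt_integral_of_dominated_loc_of_deriv_le (μ := ghStd ι) (𝕜 := ℝ)
    (F := fun t ξ => G (z + t • v + l.inc ξ)) (F' := fun t ξ => G' (z + t • v + l.inc ξ))
    (x₀ := 0) (s := Metric.ball 0 1) (bound := fun _ => K)
    (Metric.ball_mem_nhds 0 one_pos)
    (Eventually.of_forall fun t => (hG.continuous_inc l _).aestronglyMeasurable)
    (by simpa using hG.integrable l z)
    (hG'.cont.comp (continuous_const.add hinc)).aestronglyMeasurable
    (Eventually.of_forall fun ξ t _ => by rw [Real.norm_eq_abs]; exact hG'.le _)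
    (integrable_const K) ?_
  · have := key.2
    simpa using this
  · refine Eventually.of_forall fun ξ t _ => ?_
    have e : ∀ t : ℝ, z + t • v + l.inc ξ = (z + l.inc ξ) + t • v := fun t => add_right_comm _ _ _
    simp only [e]
    exact hGd.at (z + l.inc ξ) t

/-! ### the planted average, gradient and Hessian -/

theorem gh_v_A_eq {B : GhB S} (hB : B.Ok) {ls : List (GhLv S ι)} (h : GhNn ls) (l : GhLv S ι)
    (g : (S → ℝ) → ℝ) (z : S → ℝ) :
    ghA B l ls g z = (∫ ξ, Real.exp (l.m * ghF B ls (z + l.inc ξ)) * g (z + l.inc ξ) ∂ghStd ι)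
      / ghI B l ls z := by
  unfold ghA
  simp_rw [gh_b_D_eq hB h l z]
  rw [← integral_div]
  exact integral_congr_ae (Eventually.of_forall fun ξ => by simp only; ring)

/-- **derivative of a planted average** (K2) -/
theorem gh_v_A {B : GhB S} (hB : B.Ok) {l : GhLv S ι} {ls : List (GhLv S ι)} (h : GhNn (l :: ls))
    {v : S → ℝ} (IH : GhDir v (ghF B ls) (ghE B ls v)) {g g' : (S → ℝ) → ℝ} {M M' : ℝ}
    (hg : GhBC g M) (hgd : GhDir v g g') (hg' : GhBC g' M') :
    GhDir v (ghA B l ls g) (fun z => ghA B l ls (fun y => g' y + l.m * (ghE B ls v y * g y)) z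
      - l.m * (ghA B l ls (ghE B ls v) z * ghA B l ls g z)) := by
  intro z
  have hN := gh_v_N (gh_b_nice hB h.tail) IH (gh_b_E_bc' hB v h.tail) hg hgd hg' l h.head z
  have hI := gh_v_N (gh_b_nice hB h.tail) IH (gh_b_E_bc' hB v h.tail) (gh_b_bc_const 1)
    (gh_v_dir_const v 1) (gh_b_bc_const 0) l h.head z
  have hI0 : (∫ ξ, Real.exp (l.m * ghF B ls (z + (0:ℝ) • v + l.inc ξ)) * 1 ∂ghStd ι) ≠ 0 := by
    have := gh_b_I_pos hB h.tail l z
    simp only [mul_one, zero_smul, add_zero]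
    exact this.ne'
  have hq := hN.fun_div hI hI0
  have e : (fun t : ℝ => ghA B l ls g (z + t • v)) = fun t : ℝ =>
      (∫ ξ, Real.exp (l.m * ghF B ls (z + t • v + l.inc ξ)) * g (z + t • v + l.inc ξ) ∂ghStd ι) /
      (∫ ξ, Real.exp (l.m * ghF B ls (z + t • v + l.inc ξ)) * 1 ∂ghStd ι) := by
    funext t
    rw [gh_v_A_eq hB h.tail]
    simp only [mul_one, ghI]
  rw [e]
  refine hq.congr_deriv ?_
  beta_reduce
  rw [gh_v_A_eq hB h.tail, gh_v_A_eq hB h.tail, gh_v_A_eq hB h.tail]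
  simp only [mul_one, zero_smul, add_zero]
  obtain ⟨I, hId⟩ : ∃ I, I = ghI B l ls z := ⟨_, rfl⟩
  have hIne : I ≠ 0 := by rw [hId]; exact (gh_b_I_pos hB h.tail l z).ne'
  have eI : ∫ ξ, Real.exp (l.m * ghF B ls (z + l.inc ξ)) ∂ghStd ι = I := by rw [hId]; rfl
  have e1 : ∫ ξ, Real.exp (l.m * ghF B ls (z + l.inc ξ)) * (l.m * ghE B ls v (z + l.inc ξ)) ∂ghStd ι
      = l.m * ∫ ξ, Real.exp (l.m * ghF B ls (z + l.inc ξ)) * ghE B ls v (z + l.inc ξ) ∂ghStd ι := by
    rw [← integral_const_mul]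
    exact integral_congr_ae (Eventually.of_forall fun ξ => by simp only; ring)
  have e2 : ∫ ξ, Real.exp (l.m * ghF B ls (z + l.inc ξ)) *
        (l.m * ghE B ls v (z + l.inc ξ) * g (z + l.inc ξ) + g' (z + l.inc ξ)) ∂ghStd ι
      = ∫ ξ, Real.exp (l.m * ghF B ls (z + l.inc ξ)) *
        (g' (z + l.inc ξ) + l.m * (ghE B ls v (z + l.inc ξ) * g (z + l.inc ξ))) ∂ghStd ι :=
    integral_congr_ae (Eventually.of_forall fun ξ => by simp only; ring)
  rw [eI, e1, e2, ← hId]
  field_simp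

/-- **G1: the gradient of a continuation is the planted conditional mean** -/
theorem gh_v_grad {B : GhB S} (hB : B.Ok) (v : S → ℝ) :
    ∀ {ls : List (GhLv S ι)}, GhNn ls → GhDir v (ghF B ls) (ghE B ls v)
  | [], _ => gh_v_grad0 hB v
  | l :: ls, h => by
      have IH := gh_v_grad hB v h.tail
      by_cases hm : l.m = 0
      · have h1 := gh_v_int (gh_b_nice hB h.tail) IH (gh_b_E_bc' hB v h.tail) l
        intro z
        have e : (fun t : ℝ => ghF B (l :: ls) (z + t • v))
            = fun t : ℝ => ∫ ξ, ghF B ls (z + t • v + l.inc ξ) ∂ghStd ι := by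
          funext t; rw [gh_b_F_cons_zero hm]
        rw [e]
        refine (h1 z).congr_deriv ?_
        beta_reduce
        rw [gh_b_E_tower]
        exact integral_congr_ae (Eventually.of_forall fun ξ => by simp [ghD, hm])
      · intro z
        have hI := gh_v_N (gh_b_nice hB h.tail) IH (gh_b_E_bc' hB v h.tail) (gh_b_bc_const 1)
          (gh_v_dir_const v 1) (gh_b_bc_const 0) l h.head z
        have hI0 : (∫ ξ, Real.exp (l.m * ghF B ls (z + (0:ℝ) • v + l.inc ξ)) * 1 ∂ghStd ι) ≠ 0 := by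
          have := gh_b_I_pos hB h.tail l z
          simp only [mul_one, zero_smul, add_zero]
          exact this.ne'
        have h2 := (hI.log hI0).const_mul l.m⁻¹
        have e : (fun t : ℝ => ghF B (l :: ls) (z + t • v)) = fun t : ℝ => l.m⁻¹ *
            Real.log (∫ ξ, Real.exp (l.m * ghF B ls (z + t • v + l.inc ξ)) * 1 ∂ghStd ι) := by
          funext t
          rw [gh_b_F_cons hm]
          simp only [mul_one, ghI]
        rw [e]
        refine h2.congr_deriv ?_
        beta_reduce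
        rw [gh_b_E_cons, gh_v_A_eq hB h.tail]
        simp only [mul_one, zero_smul, add_zero, ghI]
        have e1 : ∫ ξ, Real.exp (l.m * ghF B ls (z + l.inc ξ)) * (l.m * ghE B ls v (z + l.inc ξ))
              ∂ghStd ι
            = l.m * ∫ ξ, Real.exp (l.m * ghF B ls (z + l.inc ξ)) * ghE B ls v (z + l.inc ξ)
              ∂ghStd ι := by
          rw [← integral_const_mul]
          exact integral_congr_ae (Eventually.of_forall fun ξ => by simp only; ring)
        rw [e1]
        field_simp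

/-- expansion of the recursive formula of `ghH` -/
theorem gh_v_H_expand {B : GhB S} (hB : B.Ok) (v w : S → ℝ) {l : GhLv S ι}
    {ls : List (GhLv S ι)} (h : GhNn (l :: ls)) (z : S → ℝ) :
    ghH B (l :: ls) v w z =
      ghA B l ls (fun y => ghH B ls v w y + l.m * (ghE B ls w y * ghE B ls v y)) z
        - l.m * (ghA B l ls (ghE B ls w) z * ghA B l ls (ghE B ls v) z) := by
  obtain ⟨M, hM⟩ := gh_b_H_bc hB v w h.tail
  rw [gh_b_H_cons, ← gh_b_E_cons, ← gh_b_E_cons]
  obtain ⟨ev, hev⟩ : ∃ e, e = ghE B (l :: ls) v z := ⟨_, rfl⟩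
  obtain ⟨ew, hew⟩ : ∃ e, e = ghE B (l :: ls) w z := ⟨_, rfl⟩
  have bv := gh_b_E_bc' hB v h.tail
  have bw := gh_b_E_bc' hB w h.tail
  have e1 : (fun y => ghH B ls v w y + l.m * ghQ B l ls v w z y)
      = fun y => (ghH B ls v w y + l.m * (ghE B ls w y * ghE B ls v y))
        - ((l.m * ev) * ghE B ls w y + (l.m * ew) * ghE B ls v y) + l.m * (ev * ew) := by
    funext y
    simp only [ghQ, ← hev, ← hew]
    ring
  have b1 := hM.add ((bw.mul bv).const_mul l.m)
  have b2 := bw.const_mul (l.m * ev)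
  have b3 := bv.const_mul (l.m * ew)
  rw [e1, gh_b_A_add hB h (b1.sub (b2.add b3)) (gh_b_bc_const _),
    gh_b_A_sub hB h b1 (b2.add b3), gh_b_A_add hB h b2 b3, gh_b_A_const_mul,
    gh_b_A_const_mul, gh_b_A_const hB h, ← gh_b_E_cons, ← gh_b_E_cons, ← hev, ← hew]
  ring

/-- **G2: the derivative of the planted mean is `ghH`** -/
theorem gh_v_hess {B : GhB S} (hB : B.Ok) (v w : S → ℝ) :
    ∀ {ls : List (GhLv S ι)}, GhNn ls → GhDir w (ghE B ls v) (ghH B ls v w)
  | [], _ => gh_v_hess0 hB v w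
  | l :: ls, h => by
      obtain ⟨M, hM⟩ := gh_b_H_bc hB v w h.tail
      have h1 := gh_v_A hB h (gh_v_grad hB w h.tail) (gh_b_E_bc' hB v h.tail)
        (gh_v_hess hB v w h.tail) hM
      intro z
      rw [gh_v_H_expand hB v w h z]
      exact h1 z

/-! ### `ghH` is a symmetric bilinear form -/

theorem gh_v_H_symm (B : GhB S) (v w : S → ℝ) :
    ∀ (ls : List (GhLv S ι)) (z : S → ℝ), ghH B ls v w z = ghH B ls w v z
  | [], z => by rw [gh_b_H_nil, gh_b_H_nil, gh_b_C_symm]
  | l :: ls, z => by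
      rw [gh_b_H_cons, gh_b_H_cons]
      congr 1
      funext y
      rw [gh_v_H_symm B v w ls y]
      simp only [ghQ]
      ring

theorem gh_v_E_smul (B : GhB S) (c : ℝ) (v : S → ℝ) (ls : List (GhLv S ι)) (z : S → ℝ) :
    ghE B ls (c • v) z = c * ghE B ls v z := gh_b_E_const_mul B c v ls z

theorem gh_v_E_add {B : GhB S} (hB : B.Ok) (v v' : S → ℝ) {ls : List (GhLv S ι)} (h : GhNn ls)
    (z : S → ℝ) : ghE B ls (v + v') z = ghE B ls v z + ghE B ls v' z := gh_b_E_add hB v v' h z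

theorem gh_v_C_smul (B : GhB S) (c : ℝ) (v w : S → ℝ) (ls : List (GhLv S ι)) (z : S → ℝ) :
    ghC B ls (c • v) w z = c * ghC B ls v w z := by
  unfold ghC
  rw [gh_v_E_smul]
  have : (fun s => (c • v) s * w s) = fun s => c * (v s * w s) := by
    funext s; simp only [Pi.smul_apply, smul_eq_mul]; ring
  rw [this, gh_b_E_const_mul]
  ring

theorem gh_v_C_add {B : GhB S} (hB : B.Ok) (v v' w : S → ℝ) {ls : List (GhLv S ι)} (h : GhNn ls)
    (z : S → ℝ) : ghC B ls (v + v') w z = ghC B ls v w z + ghC B ls v' w z := by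
  unfold ghC
  rw [gh_v_E_add hB v v' h]
  have : (fun s => (v + v') s * w s) = fun s => v s * w s + v' s * w s := by
    funext s; simp only [Pi.add_apply]; ring
  rw [this, gh_b_E_add hB _ _ h]
  ring

theorem gh_v_H_smul (B : GhB S) (c : ℝ) (v w : S → ℝ) :
    ∀ (ls : List (GhLv S ι)) (z : S → ℝ), ghH B ls (c • v) w z = c * ghH B ls v w z
  | [], z => by rw [gh_b_H_nil, gh_b_H_nil, gh_v_C_smul]; ring
  | l :: ls, z => by
      rw [gh_b_H_cons, gh_b_H_cons, ← gh_b_A_const_mul]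
      congr 1
      funext y
      rw [gh_v_H_smul B c v w ls y]
      simp only [ghQ, gh_v_E_smul]
      ring

theorem gh_v_H_add {B : GhB S} (hB : B.Ok) (v v' w : S → ℝ) :
    ∀ {ls : List (GhLv S ι)}, GhNn ls → ∀ z : S → ℝ,
      ghH B ls (v + v') w z = ghH B ls v w z + ghH B ls v' w z
  | [], h, z => by rw [gh_b_H_nil, gh_b_H_nil, gh_b_H_nil, gh_v_C_add hB v v' w h]; ring
  | l :: ls, h, z => by
      obtain ⟨M, hM⟩ := gh_b_H_bc hB v w h.tail
      obtain ⟨M', hM'⟩ := gh_b_H_bc hB v' w h.tail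
      rw [gh_b_H_cons, gh_b_H_cons, gh_b_H_cons,
        ← gh_b_A_add hB h (hM.add ((gh_b_Q_bc hB v w h z).const_mul l.m))
          (hM'.add ((gh_b_Q_bc hB v' w h z).const_mul l.m))]
      congr 1
      funext y
      rw [gh_v_H_add hB v v' w h.tail y]
      simp only [ghQ, gh_v_E_add hB v v' h.tail, gh_v_E_add hB v v' h]
      ring

/-- Cauchy-Schwarz for `ghH` -/
theorem gh_v_H_cs {B : GhB S} (hB : B.Ok) (v w : S → ℝ) {ls : List (GhLv S ι)} (h : GhNn ls)
    (z : S → ℝ) : ghH B ls v w z ^ 2 ≤ ghH B ls v v z * ghH B ls w w z := by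
  have key : ∀ t : ℝ, 0 ≤ ghH B ls w w z * (t * t) + (2 * ghH B ls v w z) * t + ghH B ls v v z := by
    intro t
    have h0 := gh_b_H_nonneg hB (v + t • w) h z
    have e : ghH B ls (v + t • w) (v + t • w) z
        = ghH B ls w w z * (t * t) + (2 * ghH B ls v w z) * t + ghH B ls v v z := by
      rw [gh_v_H_add hB _ _ _ h, gh_v_H_smul, gh_v_H_symm B v (v + t • w),
        gh_v_H_symm B w (v + t • w), gh_v_H_add hB _ _ _ h, gh_v_H_add hB _ _ _ h, gh_v_H_smul,
        gh_v_H_smul, gh_v_H_symm B w v]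
      ring
    rw [e] at h0
    exact h0
  have := discrim_le_zero key
  unfold discrim at this
  nlinarith

/-- Cauchy-Schwarz for `ghC` -/
theorem gh_v_C_cs {B : GhB S} (hB : B.Ok) (v w : S → ℝ) {ls : List (GhLv S ι)} (h : GhNn ls)
    (z : S → ℝ) : ghC B ls v w z ^ 2 ≤ ghC B ls v v z * ghC B ls w w z := by
  have key : ∀ t : ℝ, 0 ≤ ghC B ls w w z * (t * t) + (2 * ghC B ls v w z) * t + ghC B ls v v z := by
    intro t
    have h0 := gh_b_C_nonneg hB (v + t • w) h z
    have e : ghC B ls (v + t • w) (v + t • w) z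
        = ghC B ls w w z * (t * t) + (2 * ghC B ls v w z) * t + ghC B ls v v z := by
      rw [gh_v_C_add hB _ _ _ h, gh_v_C_smul, gh_b_C_symm B ls v (v + t • w),
        gh_b_C_symm B ls w (v + t • w), gh_v_C_add hB _ _ _ h, gh_v_C_add hB _ _ _ h, gh_v_C_smul,
        gh_v_C_smul, gh_b_C_symm B ls w v]
      ring
    rw [e] at h0
    exact h0
  have := discrim_le_zero key
  unfold discrim at this
  nlinarith

/-- `C(v,v) ≤ ‖v‖²` -/
theorem gh_v_C_le {B : GhB S} (hB : B.Ok) (v : S → ℝ) {ls : List (GhLv S ι)} (h : GhNn ls)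
    (z : S → ℝ) : ghC B ls v v z ≤ ‖v‖ ^ 2 := by
  unfold ghC
  have h1 : ghE B ls (fun s => v s * v s) z ≤ ‖v‖ ^ 2 := by
    refine (le_abs_self _).trans (gh_b_E_abs_le hB (fun s => ?_) h z)
    rw [abs_mul, sq]
    exact mul_le_mul (gh_b_abs_le_norm v s) (gh_b_abs_le_norm v s) (abs_nonneg _) (norm_nonneg _)
  nlinarith [mul_self_nonneg (ghE B ls v z)]

/-- list-free bound of the Hessian: `|H(v,w)| ≤ a ‖v‖ ‖w‖` -/
theorem gh_v_H_abs_le {B : GhB S} (hB : B.Ok) (v w : S → ℝ) {ls : List (GhLv S ι)} (h : GhNn ls)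
    (ha : ∀ l ∈ ls, l.m ≤ B.a) (z : S → ℝ) : |ghH B ls v w z| ≤ B.a * (‖v‖ * ‖w‖) := by
  have h1 := gh_v_H_cs hB v w h z
  have hv : ghH B ls v v z ≤ B.a * ‖v‖ ^ 2 :=
    (gh_b_H_le hB v h ha z).trans (mul_le_mul_of_nonneg_left (gh_v_C_le hB v h z) hB.pos.le)
  have hw : ghH B ls w w z ≤ B.a * ‖w‖ ^ 2 :=
    (gh_b_H_le hB w h ha z).trans (mul_le_mul_of_nonneg_left (gh_v_C_le hB w h z) hB.pos.le)
  have h2 : ghH B ls v w z ^ 2 ≤ (B.a * (‖v‖ * ‖w‖)) ^ 2 := by
    calc ghH B ls v w z ^ 2 ≤ ghH B ls v v z * ghH B ls w w z := h1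
      _ ≤ (B.a * ‖v‖ ^ 2) * (B.a * ‖w‖ ^ 2) :=
          mul_le_mul hv hw (gh_b_H_nonneg hB w h z) (by have := hB.pos; positivity)
      _ = _ := by ring
  exact abs_le_of_sq_le_sq' h2 (by have := hB.pos; positivity) |> abs_le.2

end Claimed.Agent.R286
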