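import Claimed.Agent.R286.Defs.Sk
import Claimed.Agent.R286.Top.Compl

/-!
# Row 286 (S0533), Defs, first lemmas on LAYER B      (helper273; prefixes `gh_l_`, `sk_d_`)      0 sorry

* `gh_l_law_congr`  THE LAW OF A GAUSSIAN INCREMENT DEPENDS ONLY ON ITS COVARIANCE: two factors `A`, `A'` (any driver types) with `A Aᵀ = A' A'ᵀ` give the same law of the field increment
* `gh_l_inc_congr`  the same for two levels;   `gh_l_T_congr`: `ghT` through two levels of the same mass and covariance agree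
* `sk_d_cov`        covariance increment of one SK revelation `= n (db R²/2 + dh R)`
* `sk_d_A4`         LL (A4): `K_n(s) = log E exp (s (G_n - E G_n))`
* `sk_d_bridge`     the law of `skFc n β²` under the standard drivers = the law of the completed free energy `skcFree β n` of `Top/Compl.lean`
-/

set_option autoImplicit false

namespace Claimed.Agent.R286

open MeasureTheory ProbabilityTheory Claims.C0461
open scoped ENNReal NNReal RealInnerProductSpace

section law

variable {S ι ι' : Type} [Fintype S] [Fintype ι] [Fintype ι']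

instance gh_l_std_prob : IsProbabilityMeasure (ghStd ι) := by
  unfold ghStd; infer_instance

theorem gh_l_charFun (A : S → ι → ℝ) (t : EuclideanSpace ℝ S) :
    charFun ((ghStd ι).map (fun ξ => WithLp.toLp 2 (fun s => ∑ i, A s i * ξ i))) t
      = Complex.exp (-((∑ i, (∑ s, A s i * t s) ^ 2 : ℝ) : ℂ) / 2) := by
  have hm : Measurable (fun ξ : ι → ℝ => WithLp.toLp 2 (fun s => ∑ i, A s i * ξ i)) := by fun_prop
  have key : ∀ ξ : ι → ℝ, ⟪WithLp.toLp 2 (fun s => ∑ i, A s i * ξ i), t⟫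
      = ⟪WithLp.toLp 2 ξ, (WithLp.toLp 2 (fun i => ∑ s, A s i * t s) : EuclideanSpace ℝ ι)⟫ := by
    intro ξ
    simp only [PiLp.inner_apply, RCLike.inner_apply, conj_trivial]
    simp only [Finset.mul_sum, Finset.sum_mul]
    rw [Finset.sum_comm]
    refine Finset.sum_congr rfl fun i _ => Finset.sum_congr rfl fun s _ => by ring
  have h1 : charFun ((ghStd ι).map (fun ξ => WithLp.toLp 2 (fun s => ∑ i, A s i * ξ i))) t
      = charFun ((ghStd ι).map (WithLp.toLp 2)) (WithLp.toLp 2 (fun i => ∑ s, A s i * t s) : EuclideanSpace ℝ ι) := by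
    rw [charFun_apply, charFun_apply, integral_map hm.aemeasurable (by fun_prop), integral_map (by fun_prop) (by fun_prop)]
    simp only [key]
  rw [h1]
  unfold ghStd
  rw [charFun_pi]
  simp only [charFun_gaussianReal]
  rw [← Complex.exp_sum]
  congr 1
  push_cast
  simp [Finset.sum_div, neg_div]

theorem gh_l_law_congr (A : S → ι → ℝ) (A' : S → ι' → ℝ) (h : ∀ s t, ∑ i, A s i * A t i = ∑ i, A' s i * A' t i) :
    (ghStd ι).map (fun ξ s => ∑ i, A s i * ξ i) = (ghStd ι').map (fun ξ s => ∑ i, A' s i * ξ i) := by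
  have hq : ∀ {κ : Type} [Fintype κ] (B : S → κ → ℝ) (t : S → ℝ), ∑ i, (∑ s, B s i * t s) ^ 2 = ∑ s, ∑ s', t s * t s' * ∑ i, B s i * B s' i := by
    intro κ _ B t
    calc ∑ i, (∑ s, B s i * t s) ^ 2 = ∑ i, ∑ s, ∑ s', (B s i * t s) * (B s' i * t s') := by
          refine Finset.sum_congr rfl fun i _ => ?_
          rw [sq, Finset.sum_mul_sum]
      _ = ∑ s, ∑ i, ∑ s', (B s i * t s) * (B s' i * t s') := Finset.sum_comm
      _ = ∑ s, ∑ s', ∑ i, (B s i * t s) * (B s' i * t s') := Finset.sum_congr rfl fun s _ => Finset.sum_comm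
      _ = _ := by
          refine Finset.sum_congr rfl fun s _ => Finset.sum_congr rfl fun s' _ => ?_
          rw [Finset.mul_sum]
          exact Finset.sum_congr rfl fun i _ => by ring
  have h2 : ((ghStd ι).map (fun ξ s => ∑ i, A s i * ξ i)).map (MeasurableEquiv.toLp 2 (S → ℝ))
      = ((ghStd ι').map (fun ξ s => ∑ i, A' s i * ξ i)).map (MeasurableEquiv.toLp 2 (S → ℝ)) := by
    rw [Measure.map_map (by fun_prop) (by fun_prop), Measure.map_map (by fun_prop) (by fun_prop)]
    apply Measure.ext_of_charFun (E := EuclideanSpace ℝ S)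
    ext t
    have e1 := gh_l_charFun A t
    have e2 := gh_l_charFun A' t
    simp only [Function.comp_def, MeasurableEquiv.coe_toLp]
    rw [e1, e2, hq A, hq A']
    simp only [h]
  exact (MeasurableEquiv.toLp 2 (S → ℝ)).map_measurableEquiv_injective h2


/-- two levels with the same covariance increment produce the same law of the field increment -/
theorem gh_l_inc_congr (l : GhLv S ι) (l' : GhLv S ι') (h : ∀ s t, l.cov s t = l'.cov s t) :
    (ghStd ι).map l.inc = (ghStd ι').map l'.inc :=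
  gh_l_law_congr l.A l'.A h

omit [Fintype S] in
theorem gh_l_inc_meas (l : GhLv S ι) : Measurable l.inc := by
  unfold GhLv.inc; fun_prop

/-- `ghT` of a measurable function of the field increment depends only on the mass and the covariance -/
theorem gh_l_T_congr (l : GhLv S ι) (l' : GhLv S ι') (h : ∀ s t, l.cov s t = l'.cov s t) (m : ℝ) (F : (S → ℝ) → ℝ) (hF : Measurable F) :
    ghT (ghStd ι) m (fun ξ => F (l.inc ξ)) = ghT (ghStd ι') m fun ξ => F (l'.inc ξ) := by
  have e := gh_l_inc_congr l l' h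
  have i1 : ∀ G : (S → ℝ) → ℝ, Measurable G → ∫ ξ, G (l.inc ξ) ∂ghStd ι = ∫ ξ, G (l'.inc ξ) ∂ghStd ι' := by
    intro G hG
    rw [← integral_map (gh_l_inc_meas l).aemeasurable hG.aestronglyMeasurable, ← integral_map (gh_l_inc_meas l').aemeasurable hG.aestronglyMeasurable, e]
  unfold ghT
  rw [i1 F hF, i1 (fun z => Real.exp (m * F z)) (by fun_prop)]

end law

theorem sk_d_sp_mul {n : ℕ} (σ : SkCfg n) (i : Fin n) : skSp σ i * skSp σ i = 1 := by
  unfold skSp pmSpin; split_ifs <;> norm_num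

/-- a sum over all ordered pairs -/
theorem sk_d_sum_pairs {n : ℕ} (f : Fin n → Fin n → ℝ) :
    ∑ p : Fin n × Fin n, f p.1 p.2 = ∑ i, f i i + ∑ p : SKPair n, (f p.1.1 p.1.2 + f p.1.2 p.1.1) := by
  classical
  have h1 : ∑ p : Fin n × Fin n, f p.1 p.2
      = ∑ p ∈ Finset.univ.filter (fun p : Fin n × Fin n => p.1 < p.2), f p.1 p.2
        + (∑ p ∈ Finset.univ.filter (fun p : Fin n × Fin n => p.1 = p.2), f p.1 p.2
          + ∑ p ∈ Finset.univ.filter (fun p : Fin n × Fin n => p.2 < p.1), f p.1 p.2) := by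
    rw [← Finset.sum_filter_add_sum_filter_not Finset.univ (fun p : Fin n × Fin n => p.1 < p.2)]
    congr 1
    rw [← Finset.sum_filter_add_sum_filter_not (Finset.univ.filter fun p : Fin n × Fin n => ¬ p.1 < p.2) (fun p : Fin n × Fin n => p.1 = p.2)]
    congr 1
    · refine Finset.sum_congr ?_ fun _ _ => rfl
      ext p
      simp only [Finset.mem_filter, Finset.mem_univ, true_and]
      constructor
      · exact fun h => h.2
      · exact fun h => ⟨by rw [h]; exact lt_irrefl _, h⟩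
    · refine Finset.sum_congr ?_ fun _ _ => rfl
      ext p
      simp only [Finset.mem_filter, Finset.mem_univ, true_and]
      constructor
      · exact fun h => lt_of_le_of_ne (not_lt.1 h.1) (Ne.symm h.2)
      · exact fun h => ⟨not_lt.2 h.le, fun e => by rw [e] at h; exact lt_irrefl _ h⟩
  have h2 : ∑ p ∈ Finset.univ.filter (fun p : Fin n × Fin n => p.1 < p.2), f p.1 p.2 = ∑ p : SKPair n, f p.1.1 p.1.2 :=
    Finset.sum_subtype _ (by simp) _
  have h3 : ∑ p ∈ Finset.univ.filter (fun p : Fin n × Fin n => p.2 < p.1), f p.1 p.2 = ∑ p : SKPair n, f p.1.2 p.1.1 := by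
    rw [← Finset.sum_subtype (Finset.univ.filter (fun p : Fin n × Fin n => p.1 < p.2)) (by simp) (fun p => f p.2 p.1)]
    refine Finset.sum_nbij' Prod.swap Prod.swap ?_ ?_ ?_ ?_ ?_ <;> simp
  have h4 : ∑ p ∈ Finset.univ.filter (fun p : Fin n × Fin n => p.1 = p.2), f p.1 p.2 = ∑ i, f i i := by
    refine Finset.sum_nbij' (fun p => p.1) (fun i => (i, i)) ?_ ?_ ?_ ?_ ?_
    · simp
    · simp
    · rintro ⟨a, b⟩ h
      simp only [Finset.mem_filter, Finset.mem_univ, true_and] at h
      simp [h]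
    · simp
    · rintro ⟨a, b⟩ h
      simp only [Finset.mem_filter, Finset.mem_univ, true_and] at h
      simp [h]
  rw [h1, h2, h3, h4, Finset.sum_add_distrib]
  ring

/-- the covariance increment of one revelation: `n (db R²/2 + dh R)` -/
theorem sk_d_cov (n : ℕ) (hn : 0 < n) (e : SkInc) (hb : 0 ≤ e.db) (hh : 0 ≤ e.dh) (σ τ : SkCfg n) :
    (e.lv n).cov σ τ = n * (e.db * skOv σ τ ^ 2 / 2 + e.dh * skOv σ τ) := by
  have hn' : (0 : ℝ) < n := by exact_mod_cast hn
  unfold GhLv.cov SkInc.lv ghLvF skPhi skOv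
  rw [Fintype.sum_sum_type]
  simp only [Sum.elim_inl, Sum.elim_inr]
  have h1 : ∀ p : Fin n × Fin n, Real.sqrt e.db * (skSp σ p.1 * skSp σ p.2 / Real.sqrt (2 * n)) * (Real.sqrt e.db * (skSp τ p.1 * skSp τ p.2 / Real.sqrt (2 * n)))
      = e.db / (2 * n) * ((skSp σ p.1 * skSp τ p.1) * (skSp σ p.2 * skSp τ p.2)) := by
    intro p
    have s1 : Real.sqrt e.db * Real.sqrt e.db = e.db := Real.mul_self_sqrt hb
    have s2 : Real.sqrt (2 * n) * Real.sqrt (2 * n) = 2 * n := Real.mul_self_sqrt (by positivity)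
    have s3 : Real.sqrt (2 * (n : ℝ)) ≠ 0 := by positivity
    calc _ = (Real.sqrt e.db * Real.sqrt e.db) / (Real.sqrt (2 * n) * Real.sqrt (2 * n)) * ((skSp σ p.1 * skSp τ p.1) * (skSp σ p.2 * skSp τ p.2)) := by
          field_simp
      _ = _ := by rw [s1, s2]
  have h2 : ∀ i : Fin n, Real.sqrt e.dh * skSp σ i * (Real.sqrt e.dh * skSp τ i) = e.dh * (skSp σ i * skSp τ i) := by
    intro i
    have s1 : Real.sqrt e.dh * Real.sqrt e.dh = e.dh := Real.mul_self_sqrt hh
    calc _ = (Real.sqrt e.dh * Real.sqrt e.dh) * (skSp σ i * skSp τ i) := by ring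
      _ = _ := by rw [s1]
  simp only [h1, h2, ← Finset.mul_sum]
  rw [Fintype.sum_prod_type]
  simp only []
  rw [← Finset.sum_mul_sum]
  field_simp

/-- **LL (A4)**: `K_n(s) = log E exp (s (G_n - E G_n))`, when the first revelation has mass `0` -/
theorem sk_d_A4 (n : ℕ) (hn : 0 < n) (a s : ℝ) (hs : s ≠ 0) (e : SkInc) (he : e.m = 0) (P : SkStp)
    (hI : Integrable (fun ξ => Real.exp (s * skG n a (e :: P) ξ)) (ghStd (SkDr n))) :
    skKK n a s (e :: P) = Real.log (∫ ξ, Real.exp (s * (skG n a (e :: P) ξ - ∫ η, skG n a (e :: P) η ∂ghStd (SkDr n))) ∂ghStd (SkDr n)) := by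
  have hn' : (n : ℝ) ≠ 0 := by exact_mod_cast hn.ne'
  set c : ℝ := ∫ η, skG n a (e :: P) η ∂ghStd (SkDr n) with hc
  have h0 : skF n a (e :: P) 0 = c := by
    rw [hc]
    simp only [skF, skLvs, List.map_cons, ghF, skG, ghT, zero_add]
    rw [if_pos (by simp [SkInc.lv, ghLvF, he])]
  have h1 : skF n a (skTilt s (e :: P)) 0 = s⁻¹ * Real.log (∫ ξ, Real.exp (s * skG n a (e :: P) ξ) ∂ghStd (SkDr n)) := by
    simp only [skTilt, skF, skLvs, List.map_cons, ghF, skG, ghT, zero_add]
    rw [if_neg (by simpa [SkInc.lv, ghLvF] using hs)]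
    rfl
  have h2 : ∫ ξ, Real.exp (s * (skG n a (e :: P) ξ - c)) ∂ghStd (SkDr n) = Real.exp (-(s * c)) * ∫ ξ, Real.exp (s * skG n a (e :: P) ξ) ∂ghStd (SkDr n) := by
    rw [← integral_const_mul]
    refine integral_congr_ae (Filter.Eventually.of_forall fun ξ => ?_)
    simp only []
    rw [← Real.exp_add]
    congr 1
    ring
  have ht : skTotB (skTilt s (e :: P)) = skTotB (e :: P) ∧ skTotH (skTilt s (e :: P)) = skTotH (e :: P) := by
    simp [skTilt, skTotB, skTotH]
  rw [h2]
  have hpos : 0 < ∫ ξ, Real.exp (s * skG n a (e :: P) ξ) ∂ghStd (SkDr n) := integral_exp_pos hI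
  rw [Real.log_mul (Real.exp_pos _).ne' hpos.ne', Real.log_exp]
  unfold skKK skPsi skPr
  rw [h0, h1, ht.1, ht.2]
  field_simp
  ring

/-- the factor of the completed SK field on the drivers `couplings + completion` -/
noncomputable def skcA (β : ℝ) (n : ℕ) (σ : SkCfg n) : SKPair n ⊕ Unit → ℝ :=
  Sum.elim (fun p => β / Real.sqrt n * (skSp σ p.1.1 * skSp σ p.1.2)) fun _ => β / Real.sqrt 2

/-- couplings and completion from standard drivers -/
noncomputable def skcOf (β : ℝ) (n : ℕ) (ξ : SKPair n ⊕ Unit → ℝ) : (SKPair n → ℝ) × ℝ :=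
  (fun p => ξ (Sum.inl p), β / Real.sqrt 2 * ξ (Sum.inr ()))

theorem sk_d_lem_eqns_cite : True := by
  have := @skcA.eq_1
  have := @skcOf.eq_1
  trivial

theorem sk_d_disorder (β : ℝ) (n : ℕ) : (ghStd (SKPair n ⊕ Unit)).map (skcOf β n) = skcDisorder β n := by
  have h1 := (measurePreserving_sumPiEquivProdPi (fun _ : SKPair n ⊕ Unit => gaussianReal 0 1)).map_eq
  have h2 := (measurePreserving_piUnique (fun _ : Unit => gaussianReal 0 1)).map_eq
  have h3 : skcOf β n = (Prod.map id (fun η : Unit → ℝ => β / Real.sqrt 2 * (MeasurableEquiv.piUnique (fun _ : Unit => ℝ)) η)) ∘ (MeasurableEquiv.sumPiEquivProdPi fun _ : SKPair n ⊕ Unit => ℝ) := by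
    funext ξ
    rfl
  have hm : Measurable (fun η : Unit → ℝ => β / Real.sqrt 2 * (MeasurableEquiv.piUnique (fun _ : Unit => ℝ)) η) :=
    measurable_const.mul (MeasurableEquiv.piUnique (fun _ : Unit => ℝ)).measurable
  unfold ghStd
  rw [h3, ← Measure.map_map (measurable_id.prodMap hm) (MeasurableEquiv.measurable _), h1, ← Measure.map_prod_map _ _ measurable_id hm, Measure.map_id]
  unfold skcDisorder skDisorder
  congr 1
  have h4 : (fun η : Unit → ℝ => β / Real.sqrt 2 * (MeasurableEquiv.piUnique (fun _ : Unit => ℝ)) η) = (fun x : ℝ => β / Real.sqrt 2 * x) ∘ (MeasurableEquiv.piUnique (fun _ : Unit => ℝ)) := rfl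
  rw [h4, ← Measure.map_map (by fun_prop) (MeasurableEquiv.measurable _), h2, gaussianReal_map_const_mul]
  congr 1
  · simp
  · ext
    simp only [skcVar, mul_one, NNReal.coe_mk]
    rw [div_pow, Real.sq_sqrt (by norm_num)]
    rfl

/-- the completed free energy is the terminal continuation of the completed field -/
theorem sk_d_free (β : ℝ) (n : ℕ) (ξ : SKPair n ⊕ Unit → ℝ) :
    skcFree β n (skcOf β n ξ) = ghF0 (skBase n 1) fun σ => ∑ k, skcA β n σ k * ξ k := by
  unfold skcFree skcOf skLogPartition ghF0 skBase ghUnif skcA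
  simp only [Fintype.sum_sum_type, Sum.elim_inl, Sum.elim_inr, Finset.univ_unique, Finset.sum_singleton, inv_one, one_mul,
    Fintype.card_pi, Fintype.card_bool, Finset.prod_const, Finset.card_univ, Fintype.card_fin]
  have h1 : ∀ σ : SkCfg n, ((2 ^ n : ℕ) : ℝ)⁻¹ * Real.exp (∑ p : SKPair n, β / Real.sqrt n * (skSp σ p.1.1 * skSp σ p.1.2) * ξ (Sum.inl p) + β / Real.sqrt 2 * ξ (Sum.inr default))
      = (((2 ^ n : ℕ) : ℝ)⁻¹ * Real.exp (β / Real.sqrt 2 * ξ (Sum.inr ()))) * Real.exp (β / Real.sqrt n * ∑ p : SKPair n, ξ (Sum.inl p) * pmSpin (σ p.1.1) * pmSpin (σ p.1.2)) := by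
    intro σ
    rw [Real.exp_add, Finset.mul_sum]
    have : ∀ p : SKPair n, β / Real.sqrt n * (skSp σ p.1.1 * skSp σ p.1.2) * ξ (Sum.inl p) = β / Real.sqrt n * (ξ (Sum.inl p) * pmSpin (σ p.1.1) * pmSpin (σ p.1.2)) := by
      intro p; unfold skSp; ring
    simp only [this]
    ring_nf
  simp only [h1, ← Finset.mul_sum]
  have hpos : 0 < ∑ σ : Fin n → Bool, Real.exp (β / Real.sqrt n * ∑ p : SKPair n, ξ (Sum.inl p) * pmSpin (σ p.1.1) * pmSpin (σ p.1.2)) :=
    Finset.sum_pos (fun _ _ => Real.exp_pos _) Finset.univ_nonempty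
  rw [Real.log_mul (by positivity) hpos.ne', Real.log_mul (by positivity) (Real.exp_pos _).ne', Real.log_exp, Real.log_inv]
  push_cast
  rw [Real.log_pow]
  ring

/-- the two factorisations have the same covariance `β² n R² / 2` -/
theorem sk_d_cov_eq (β : ℝ) (n : ℕ) (hn : 0 < n) (σ τ : SkCfg n) :
    ∑ d, ((⟨0, β ^ 2, 0⟩ : SkInc).lv n).A σ d * ((⟨0, β ^ 2, 0⟩ : SkInc).lv n).A τ d = ∑ k, skcA β n σ k * skcA β n τ k := by
  have hn' : (0 : ℝ) < n := by exact_mod_cast hn
  have h := sk_d_cov n hn ⟨0, β ^ 2, 0⟩ (by positivity) le_rfl σ τ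
  unfold GhLv.cov at h
  rw [h]
  unfold skcA skOv
  simp only [Fintype.sum_sum_type, Sum.elim_inl, Sum.elim_inr, Finset.univ_unique, Finset.sum_singleton, zero_mul, add_zero]
  have h2 := sk_d_sum_pairs (fun i j : Fin n => (skSp σ i * skSp τ i) * (skSp σ j * skSp τ j))
  rw [Fintype.sum_prod_type] at h2
  simp only [] at h2
  rw [← Finset.sum_mul_sum] at h2
  have h3 : ∀ i : Fin n, (skSp σ i * skSp τ i) * (skSp σ i * skSp τ i) = 1 := by
    intro i
    calc _ = (skSp σ i * skSp σ i) * (skSp τ i * skSp τ i) := by ring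
      _ = 1 := by rw [sk_d_sp_mul, sk_d_sp_mul, one_mul]
  simp only [h3, Finset.sum_const, Finset.card_univ, Fintype.card_fin, nsmul_eq_mul, mul_one] at h2
  have h4 : ∑ p : SKPair n, β / Real.sqrt n * (skSp σ p.1.1 * skSp σ p.1.2) * (β / Real.sqrt n * (skSp τ p.1.1 * skSp τ p.1.2))
      = β ^ 2 / n * ∑ p : SKPair n, (skSp σ p.1.1 * skSp τ p.1.1) * (skSp σ p.1.2 * skSp τ p.1.2) := by
    rw [Finset.mul_sum]
    refine Finset.sum_congr rfl fun p _ => ?_
    have s2 : Real.sqrt n * Real.sqrt n = n := Real.mul_self_sqrt hn'.le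
    calc _ = β ^ 2 / (Real.sqrt n * Real.sqrt n) * ((skSp σ p.1.1 * skSp τ p.1.1) * (skSp σ p.1.2 * skSp τ p.1.2)) := by
          have : Real.sqrt (n : ℝ) ≠ 0 := by positivity
          field_simp
      _ = _ := by rw [s2]
  have h5 : ∑ p : SKPair n, ((skSp σ p.1.1 * skSp τ p.1.1) * (skSp σ p.1.2 * skSp τ p.1.2) + (skSp σ p.1.2 * skSp τ p.1.2) * (skSp σ p.1.1 * skSp τ p.1.1))
      = 2 * ∑ p : SKPair n, (skSp σ p.1.1 * skSp τ p.1.1) * (skSp σ p.1.2 * skSp τ p.1.2) := by
    rw [Finset.mul_sum]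
    exact Finset.sum_congr rfl fun p _ => by ring
  rw [h5] at h2
  rw [h4]
  have s2 : Real.sqrt 2 * Real.sqrt 2 = 2 := Real.mul_self_sqrt (by norm_num)
  have h6 : β / Real.sqrt 2 * (β / Real.sqrt 2) = β ^ 2 / 2 := by
    calc _ = β ^ 2 / (Real.sqrt 2 * Real.sqrt 2) := by
          have : Real.sqrt (2 : ℝ) ≠ 0 := by positivity
          field_simp
      _ = _ := by rw [s2]
  rw [h6, div_pow, sq (∑ i, skSp σ i * skSp τ i), h2]
  field_simp
  ring

/-- **BRIDGE**: under the standard drivers, `skFc n β²` has the law of the completed free energy of `Top/Compl.lean` -/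
theorem sk_d_bridge (β : ℝ) (n : ℕ) (hn : 0 < n) :
    (ghStd (SkDr n)).map (skFc n (β ^ 2)) = (skcDisorder β n).map (skcFree β n) := by
  have hF : Measurable (ghF0 (skBase n 1)) := by
    unfold ghF0; fun_prop
  have hO : Measurable (skcOf β n) := by
    unfold skcOf; fun_prop
  have hfree : Measurable (skcFree β n) := by
    unfold skcFree
    exact (((sk_top_meas β n).comp measurable_fst).sub_const _).add measurable_snd
  have e1 : skFc n (β ^ 2) = ghF0 (skBase n 1) ∘ fun ξ σ => ∑ d, ((⟨0, β ^ 2, 0⟩ : SkInc).lv n).A σ d * ξ d := by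
    funext ξ
    rfl
  have e2 : skcFree β n ∘ skcOf β n = ghF0 (skBase n 1) ∘ fun ξ σ => ∑ k, skcA β n σ k * ξ k := by
    funext ξ
    exact sk_d_free β n ξ
  rw [← sk_d_disorder, Measure.map_map hfree hO, e2, e1, ← Measure.map_map hF (by fun_prop), ← Measure.map_map hF (by fun_prop),
    gh_l_law_congr _ _ (sk_d_cov_eq β n hn)]

end Claimed.Agent.R286
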