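import Claimed.Agent.R286.Defs.Gh

/-!
# Row 286 (S0533), Defs/Tr : observed trees with NATURAL labels, signed attachment weights      (owner helper150)

PE Section 2.3-2.4 in DISCRETE form, on top of `Defs/Gh.lean`.

CONVENTIONS
* `N = ls.length` Gaussian levels.  STAGES: `0 .. N-1` = Gaussian levels, stage `N` = the terminal draw (mass `B.a`).
* leaves = the natural numbers `0 .. q-1`;  a tree is `τ : ℕ → ℕ → ℕ`, `τ x y` = number of shared stages; `τ x y = N + 1` : coincident leaves.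
* a NODE of depth `j` (`0 ≤ j ≤ N`) = a class of `{τ ≥ j}`; incoming mass `trPm ms j = m_{j-1}` (`0` at the root), child mass `ms j = m_j` (`ms N = a`).
* spin tests are functions `(ℕ → S) → ℝ` which depend on the first `q` coordinates only (`TrUses q P`): no casts when labels are added.
* attachment `(x, j)`: the new label `q` shares exactly `j` stages with `x` and is a NEW child of the node of depth `j` (`j ≤ N`), or coincides with `x` (`j = N+1`).
  Signed weight `m_{j-1} - d m_j` (`d` occupied children), `a` for a coincidence.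
All identities of `Fd/TrA*`, `Fd/TrC` were checked numerically (origin/helper150:notes/R286/*.py).
-/

set_option autoImplicit false

namespace Claimed.Agent.R286

open MeasureTheory ProbabilityTheory

/-! ## 1. Trees -/

/-- discrete observed tree on the leaves `0..q-1` over `N` Gaussian levels -/
structure IsTr (N q : ℕ) (τ : ℕ → ℕ → ℕ) : Prop where
  le : ∀ x y, x < q → y < q → τ x y ≤ N + 1
  diag : ∀ x, x < q → τ x x = N + 1
  symm : ∀ x y, x < q → y < q → τ x y = τ y x
  ultra : ∀ x y z, x < q → y < q → z < q → min (τ x y) (τ y z) ≤ τ x z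

/-- representative (least element) of the class of the leaf `a` among the leaves which share the stage `j` with it -/
def trRep (q : ℕ) (τ : ℕ → ℕ → ℕ) (j : ℕ) (a : Fin q) : Fin q :=
  ((List.finRange q).find? fun b : Fin q => decide (j < τ a.1 b.1)).getD a

/-- extension of a configuration of `q` leaves to all labels -/
def trExt {S : Type} [Inhabited S] {q : ℕ} (σ : Fin q → S) : ℕ → S :=
  fun i => if h : i < q then σ ⟨i, h⟩ else default

/-- a test which uses the labels `< q` only -/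
def TrUses {S : Type} (q : ℕ) (P : (ℕ → S) → ℝ) : Prop :=
  ∀ σ σ' : ℕ → S, (∀ i, i < q → σ i = σ' i) → P σ = P σ'

/-- **the positive tree number** `ν_τ[P]` of a spin test; `z` = common deterministic source (field at the root) -/
noncomputable def trNu {S ι : Type} [Fintype S] [Fintype ι] [Inhabited S] (B : GhB S) (ls : List (GhLv S ι)) (q : ℕ)
    (τ : ℕ → ℕ → ℕ) (z : S → ℝ) (P : (ℕ → S) → ℝ) : ℝ :=
  ghNu B ls (fun t => trRep q τ t) (fun _ => z) fun _ σ => P (trExt σ)

/-- probability of a configuration of the leaves -/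
noncomputable def trPr {S ι : Type} [Fintype S] [Fintype ι] [Inhabited S] [DecidableEq S] (B : GhB S) (ls : List (GhLv S ι))
    (q : ℕ) (τ : ℕ → ℕ → ℕ) (z : S → ℝ) (σ₀ : Fin q → S) : ℝ :=
  trNu B ls q τ z fun σ => if ∀ i : Fin q, σ i.1 = σ₀ i then 1 else 0

/-- mass of the stage `j` (`B.a` for the terminal draw) -/
def trMs {S ι : Type} (B : GhB S) (ls : List (GhLv S ι)) (j : ℕ) : ℝ := (ls[j]?.map GhLv.m).getD B.a

/-- admissible mass function on the stages `0..N` -/
structure IsMs (N : ℕ) (ms : ℕ → ℝ) : Prop where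
  nonneg : ∀ j, 0 ≤ ms j
  mono : ∀ i j, i ≤ j → j ≤ N → ms i ≤ ms j

/-! ## 2. Signed attachment of one label -/

/-- incoming mass of a node of depth `j` -/
def trPm (ms : ℕ → ℝ) (j : ℕ) : ℝ := if j = 0 then 0 else ms (j - 1)

/-- `x` is the least leaf of its class at depth `j` -/
def trIsMin (τ : ℕ → ℕ → ℕ) (j x : ℕ) : Prop := ∀ y, y < x → τ x y < j

instance trIsMin_dec (τ : ℕ → ℕ → ℕ) (j x : ℕ) : Decidable (trIsMin τ j x) := by
  unfold trIsMin; infer_instance

/-- number of occupied children of the node of depth `j` above the leaf `x` -/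
def trDeg (q : ℕ) (τ : ℕ → ℕ → ℕ) (j x : ℕ) : ℕ :=
  ((Finset.range q).filter fun y => j ≤ τ x y ∧ trIsMin τ (j + 1) y).card

/-- signed weight of the attachment `(x, j)`; counted once per node: only for the least leaf of the class -/
def trWt (ms : ℕ → ℝ) (N q : ℕ) (τ : ℕ → ℕ → ℕ) (x j : ℕ) : ℝ :=
  if trIsMin τ j x then (if j = N + 1 then ms N else trPm ms j - trDeg q τ j x * ms j) else 0

/-- the enlarged tree: the new label is `q` -/
def trAtt (N q : ℕ) (τ : ℕ → ℕ → ℕ) (x j : ℕ) : ℕ → ℕ → ℕ := fun y z =>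
  if y = q then (if z = q then N + 1 else min j (τ x z))
  else if z = q then min j (τ y x) else τ y z

/-- deletion of the label `q` (the labels above it are shifted down) -/
def trDel (q : ℕ) (τ : ℕ → ℕ → ℕ) : ℕ → ℕ → ℕ := fun y z =>
  τ (if y < q then y else y + 1) (if z < q then z else z + 1)

/-- signed sum over the attachments of one label -/
def trSum (ms : ℕ → ℝ) (N q : ℕ) (τ : ℕ → ℕ → ℕ) (Φ : (ℕ → ℕ → ℕ) → ℝ) : ℝ :=
  ∑ x ∈ Finset.range q, ∑ j ∈ Finset.range (N + 2), trWt ms N q τ x j * Φ (trAtt N q τ x j)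

/-- the same with absolute weights (total variation) -/
def trAbs (ms : ℕ → ℝ) (N q : ℕ) (τ : ℕ → ℕ → ℕ) (Φ : (ℕ → ℕ → ℕ) → ℝ) : ℝ :=
  ∑ x ∈ Finset.range q, ∑ j ∈ Finset.range (N + 2), |trWt ms N q τ x j| * Φ (trAtt N q τ x j)

/-- signed sum over the successive attachments of `k` labels `q, q+1, .., q+k-1` -/
def trSumK (ms : ℕ → ℝ) (N : ℕ) : ℕ → ℕ → (ℕ → ℕ → ℕ) → ((ℕ → ℕ → ℕ) → ℝ) → ℝ
  | 0, _, τ, Φ => Φ τ
  | k + 1, q, τ, Φ => trSum ms N q τ fun τ' => trSumK ms N k (q + 1) τ' Φ

/-- total variation version of `trSumK` -/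
def trAbsK (ms : ℕ → ℝ) (N : ℕ) : ℕ → ℕ → (ℕ → ℕ → ℕ) → ((ℕ → ℕ → ℕ) → ℝ) → ℝ
  | 0, _, τ, Φ => Φ τ
  | k + 1, q, τ, Φ => trAbs ms N q τ fun τ' => trAbsK ms N k (q + 1) τ' Φ

/-- sign of the final tree of `k` successive attachments: `+` for a label which coincides with an earlier one, `-` otherwise -/
def trSg (N q k : ℕ) (τ : ℕ → ℕ → ℕ) : ℝ :=
  ∏ i ∈ Finset.range k, if ((Finset.range (q + i)).filter fun y => τ (q + i) y = N + 1).card = 0 then -1 else 1

/-- the tree with natural labels coded by a `GhTree` (over `N` Gaussian levels) -/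
def trOf {q : ℕ} (T : GhTree q) (N : ℕ) : ℕ → ℕ → ℕ := fun x y =>
  if h : x < q ∧ y < q then (if x = y then N + 1 else min (T.sh ⟨x, h.1⟩ ⟨y, h.2⟩) (N + 1)) else 0

/-- row truncated at the cut of depth `t`: a label which follows the old tree beyond depth `t` is made independent at depth `t` -/
def trRow (ms : ℕ → ℝ) (N q : ℕ) (τ : ℕ → ℕ → ℕ) (t : ℕ) (Φ : (ℕ → ℕ → ℕ) → ℝ) : ℝ :=
  ∑ x ∈ Finset.range q, ∑ j ∈ Finset.range (N + 2), trWt ms N q τ x j * Φ (trAtt N q τ x (min j t))

/-- duplication of the subtree `{b : t < τ a b}` from the cut of depth `t`: the copy of `b` is the label `q + b` (it coincides with `b` outside the subtree) -/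
def trDup (q : ℕ) (τ : ℕ → ℕ → ℕ) (a t : ℕ) : ℕ → ℕ → ℕ := fun x y =>
  if (x < q ↔ y < q) then τ (x % q) (y % q)
  else if t < τ a (x % q) ∧ t < τ a (y % q) then t else τ (x % q) (y % q)

/-- the insertion `V_{cd}`: change of covariance accumulated along the `t` shared stages -/
def trV {S : Type} (dK : ℕ → S → S → ℝ) (N t : ℕ) (s s' : S) : ℝ :=
  ∑ j ∈ Finset.range (min t N), dK j s s'

/-! ## 3. Clocked hierarchies (blocks of features, variance increments) -/

section clocked
variable {S Φ ι : Type} [Fintype S] [Fintype Φ] [Fintype ι]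

/-- level with mass `m` and variance increments `v r` of the feature blocks -/
noncomputable def gcLv (feat : Φ → S → ι → ℝ) (m : ℝ) (v : Φ → ℝ) : GhLv S (Φ × ι) :=
  ⟨m, fun s x => Real.sqrt (v x.1) * feat x.1 s x.2⟩

/-- kernel of one block -/
def gcKer (feat : Φ → S → ι → ℝ) (r : Φ) (s t : S) : ℝ := ∑ i, feat r s i * feat r t i

/-- hierarchy coded by (mass, variance increments) -/
noncomputable def gcLs (feat : Φ → S → ι → ℝ) (hs : List (ℝ × (Φ → ℝ))) : List (GhLv S (Φ × ι)) :=
  hs.map fun h => gcLv feat h.1 h.2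

/-- affine family of increments: (mass, increments at `θ = 0`, their derivative) -/
def gcAff (hs : List (ℝ × (Φ → ℝ) × (Φ → ℝ))) (θ : ℝ) : List (ℝ × (Φ → ℝ)) :=
  hs.map fun h => (h.1, fun r => h.2.1 r + θ * h.2.2 r)

/-- derivative of the covariance increment of the level `j` -/
def gcDK (feat : Φ → S → ι → ℝ) (hs : List (ℝ × (Φ → ℝ) × (Φ → ℝ))) (j : ℕ) (s t : S) : ℝ :=
  ∑ r, ((hs[j]?.map fun h => h.2.2 r).getD 0) * gcKer feat r s t

/-- the family is admissible on `[0,1]` (terminal mass `a`) -/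
def GcAffAdm (a : ℝ) (hs : List (ℝ × (Φ → ℝ) × (Φ → ℝ))) : Prop :=
  (hs.map Prod.fst).Pairwise (· ≤ ·) ∧ ∀ h ∈ hs, (0 ≤ h.1 ∧ h.1 ≤ a) ∧ ∀ r, 0 ≤ h.2.1 r ∧ 0 ≤ h.2.1 r + h.2.2 r

/-- masses of an affine family -/
def gcMs (a : ℝ) (hs : List (ℝ × (Φ → ℝ) × (Φ → ℝ))) (j : ℕ) : ℝ := (hs[j]?.map Prod.fst).getD a

/-- the tree number along an affine family of clocks -/
noncomputable def gcNu [Inhabited S] (B : GhB S) (feat : Φ → S → ι → ℝ) (hs : List (ℝ × (Φ → ℝ) × (Φ → ℝ))) (θ : ℝ) (q : ℕ)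
    (τ : ℕ → ℕ → ℕ) (z : S → ℝ) (P : (ℕ → S) → ℝ) : ℝ :=
  trNu B (gcLs feat (gcAff hs θ)) q τ z P

end clocked

/-- law of the field after `t` stages of the planted chain started at `z`: expectation of a function of the field -/
noncomputable def trFld {S ι : Type} [Fintype S] [Fintype ι] (B : GhB S) : List (GhLv S ι) → ℕ → (S → ℝ) → ((S → ℝ) → ℝ) → ℝ
  | [], _, z, f => f z
  | _ :: _, 0, z, f => f z
  | l :: ls, t + 1, z, f => ∫ ξ, ghD B l ls z ξ * trFld B ls t (z + l.inc ξ) f ∂ghStd ι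

theorem tr_defs_eqns_cite : True := by
  have := @trRep.eq_1
  have := @trExt.eq_1
  have := @TrUses.eq_1
  have := @trNu.eq_1
  have := @trPr.eq_1
  have := @trMs.eq_1
  have := @trPm.eq_1
  have := @trIsMin.eq_1
  have := @trDeg.eq_1
  have := @trWt.eq_1
  have := @trAtt.eq_1
  have := @trDel.eq_1
  have := @trSum.eq_1
  have := @trAbs.eq_1
  have := @trSumK.eq_1
  have := @trSumK.eq_2
  have := @trSumK.eq_def
  have := @trAbsK.eq_1
  have := @trAbsK.eq_2
  have := @trAbsK.eq_def
  have := @trSg.eq_1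
  have := @trOf.eq_1
  have := @trRow.eq_1
  have := @trDup.eq_1
  have := @trV.eq_1
  have := @gcLv.eq_1
  have := @gcKer.eq_1
  have := @gcLs.eq_1
  have := @gcAff.eq_1
  have := @gcDK.eq_1
  have := @GcAffAdm.eq_1
  have := @gcMs.eq_1
  have := @gcNu.eq_1
  have := @trFld.eq_1
  have := @trFld.eq_2
  have := @trFld.eq_3
  have := @trFld.eq_def
  have := @trSumK.induct
  have := @trAbsK.induct
  have := @trFld.induct
  trivial

end Claimed.Agent.R286
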