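import Mathlib

/-!
# Row 286 (S0533): JETS.  The finite symbol calculus of LL Section 2 ((A5)-(A9)) and Section 9 ((E1))

FINE LEVEL (a fixed finite hierarchy).  Everything is a finite sum; no formal power series, no integer replicas.

* labels are natural numbers; a topology is `τ : ℕ → ℕ → ℕ` (`τ x y` = number of shared stages, `N + 1` = coinciding labels);
* over `q` old labels, the inserted pair number `i` has the labels `q + 2 i` and `q + 2 i + 1`;
* AT A FIXED TOPOLOGY a symbol is a SET FUNCTION `A ↦ F A` (`A` = finite set of pair numbers): the coefficient of `∏_{i ∈ A} J_i`.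
  Product = subset convolution (commutative): it is the product of exponential generating functions, so that
  `Ψ = ∑ M(A) x^A`, `log Ψ = ∑ κ(A) x^A` (joint cumulants at the fixed topology), `N / Ψ` are polynomial operations;
* evaluation of the degree `n` part = `(2^n n!)⁻¹ ×` signed allocation of `2 n` labels of `F τ {0..n-1} * ν_τ[P ∏ J_i]`.

The context `JtCtx` is abstract: it is instantiated by `Defs/Gh`, `Defs/Sk`, `Defs/Alloc` (matrix model, scalar model, signed sums).
-/

set_option autoImplicit false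

namespace Claimed.Agent.R286

open scoped BigOperators Nat

/-! ### 1. set functions -/

/-- a symbol at a fixed topology: coefficient of the squarefree monomial `x^A` -/
abbrev JtFn := Finset ℕ → ℝ

/-- the unit -/
def jtOne : JtFn := fun A => if A = ∅ then 1 else 0

/-- subset convolution -/
def jtMul (F G : JtFn) : JtFn := fun A => ∑ B ∈ A.powerset, F B * G (A \ B)

/-- powers -/
def jtPow (F : JtFn) : ℕ → JtFn
  | 0 => jtOne
  | n + 1 => jtMul F (jtPow F n)

/-- the symbol without its constant term -/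
def jtAug (F : JtFn) : JtFn := fun A => if A = ∅ then 0 else F A

/-- inverse of a symbol with constant term `1`: `∑_k (-1)^k f^k`, `f = F - 1` (`f^k A = 0` for `k > |A|`) -/
noncomputable def jtInv (F : JtFn) : JtFn := fun A =>
  ∑ k ∈ Finset.range (A.card + 1), (-1 : ℝ) ^ k * jtPow (jtAug F) k A

/-- logarithm of a symbol with constant term `1`: `∑_{k ≥ 1} (-1)^{k+1} f^k / k` (= the joint cumulants of the moments `F`) -/
noncomputable def jtLog (F : JtFn) : JtFn := fun A =>
  ∑ k ∈ Finset.Icc 1 A.card, (-1 : ℝ) ^ (k + 1) / (k : ℝ) * jtPow (jtAug F) k A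

/-- exponential of a symbol (its constant term is ignored): `∑_k L^k / k!` -/
noncomputable def jtExp (L : JtFn) : JtFn := fun A =>
  ∑ k ∈ Finset.range (A.card + 1), jtPow (jtAug L) k A / (k ! : ℝ)

/-- the derivation `∂ / ∂ x_i` -/
def jtDer (i : ℕ) (F : JtFn) : JtFn := fun A => if i ∈ A then 0 else F (insert i A)

/-! ### 2. the context -/

/-- topologies on the labels `0, 1, 2, ...` -/
abbrev JtTopo := ℕ → ℕ → ℕ

/-- Everything the jets see of a finite hierarchy with `N` Gaussian stages.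
`sumK k q τ Φ` = signed sum over the successive attachments of the labels `q, .., q+k-1` to the tree `τ` on the labels `< q`;
`absK` = the same with absolute weights;  `nu q τ P` = positive tree number of the matrix model (`P` uses the labels `< q`);
`nuK` = the same for the one-site scalar reference;  `ov` = overlap;  `bC t, hC t, KC t, qC t` = cumulative clocks and reference overlap
at a pair which shares `t` stages;  `msk t ∈ {0,1}` = mask of the tilted ensemble (`1` in the untilted one). -/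
structure JtCtx (S : Type) where
  N : ℕ
  sumK : ℕ → ℕ → JtTopo → (JtTopo → ℝ) → ℝ
  absK : ℕ → ℕ → JtTopo → (JtTopo → ℝ) → ℝ
  nu : ℕ → JtTopo → ((ℕ → S) → ℝ) → ℝ
  nuK : ℕ → JtTopo → ((ℕ → Bool) → ℝ) → ℝ
  ov : S → S → ℝ
  bC : ℕ → ℝ
  hC : ℕ → ℝ
  KC : ℕ → ℝ
  qC : ℕ → ℝ
  msk : ℕ → ℝ

/-- scalar spin -/
def jtSp (b : Bool) : ℝ := if b then 1 else -1

/-- first label of the pair `i` over `q` old labels -/
def jtC (q i : ℕ) : ℕ := q + 2 * i
/-- second label of the pair `i` over `q` old labels -/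
def jtD (q i : ℕ) : ℕ := q + 2 * i + 1

namespace JtCtx
variable {S : Type} (X : JtCtx S)

/-- masked overlap `Q^*_{cd}` -/
def Qs (τ : JtTopo) (σ : ℕ → S) (c d : ℕ) : ℝ := X.msk (τ c d) * X.ov (σ c) (σ d)

/-- `Δ_{cd} = Q^*_{cd} - q(v_{cd})` -/
def Dl (τ : JtTopo) (σ : ℕ → S) (c d : ℕ) : ℝ := X.Qs τ σ c d - X.qC (τ c d)

/-- the row mismatch `J_{cd} = h + b Q^* - K` -/
def J (τ : JtTopo) (σ : ℕ → S) (c d : ℕ) : ℝ := X.hC (τ c d) + X.bC (τ c d) * X.Qs τ σ c d - X.KC (τ c d)

/-- the two ends of each of the pairs `0..n-1` are different leaves -/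
def off (q n : ℕ) (τ : JtTopo) : ℝ := ∏ i ∈ Finset.range n, if τ (jtC q i) (jtD q i) ≤ X.N then (1 : ℝ) else 0

/-- product of the insertions of the pairs `0..n-1` -/
def Jprod (q n : ℕ) (τ : JtTopo) (σ : ℕ → S) : ℝ := ∏ i ∈ Finset.range n, X.J τ σ (jtC q i) (jtD q i)

/-- scalar moment at the topology `τ` (on `r` labels) of the observed labels `obs` and of the pairs in `A` -/
def scM (r q : ℕ) (obs : Finset ℕ) (τ : JtTopo) : JtFn := fun A =>
  X.nuK r τ fun t => (∏ y ∈ obs, jtSp (t y)) * ∏ i ∈ A, jtSp (t (jtC q i)) * jtSp (t (jtD q i))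

/-- (A5) `Ψ_K` at a fixed topology -/
def Psi (r q : ℕ) (τ : JtTopo) : JtFn := X.scM r q ∅ τ

/-- (A5) `N_{ij,K}` at a fixed topology -/
def Nij (r q i j : ℕ) (τ : JtTopo) : JtFn := X.scM r q {i, j} τ

/-- the cavity quotient `N_{ij,K} / Ψ_K` at a fixed topology -/
noncomputable def Quo (r q i j : ℕ) (τ : JtTopo) : JtFn := jtMul (X.Nij r q i j τ) (jtInv (X.Psi r q τ))

/-- joint scalar cumulants `κ_K` of the pair products, at a fixed topology (coefficients of `log Ψ_K`) -/
noncomputable def Kap (r q : ℕ) (τ : JtTopo) : JtFn := jtLog (X.Psi r q τ)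

/-- (A8) the linear cavity kernel `M_{ij,cd}`, `cd` = pair `0` over `q` old labels -/
noncomputable def Mker (r q i j : ℕ) (τ : JtTopo) : ℝ := 2⁻¹ * X.Quo r q i j τ {0}

/-- evaluation of the degree `n` part of a symbol `F` against the test `P` on the old tree `τ0` with `q` labels;
`F r τ` = the symbol at the topology `τ` on the `r` labels present (`r = q + 2 n`) -/
noncomputable def ev (q : ℕ) (τ0 : JtTopo) (F : ℕ → JtTopo → JtFn) (P : (ℕ → S) → ℝ) (n : ℕ) : ℝ :=
  ((2 : ℝ) ^ n * (n ! : ℝ))⁻¹ * X.sumK (2 * n) q τ0 fun τ =>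
    X.off q n τ * F (q + 2 * n) τ (Finset.range n) * X.nu (q + 2 * n) τ fun σ => P σ * X.Jprod q n τ σ

/-- evaluation through the degree `k - 1` -/
noncomputable def evLt (q : ℕ) (τ0 : JtTopo) (F : ℕ → JtTopo → JtFn) (P : (ℕ → S) → ℝ) (k : ℕ) : ℝ :=
  ∑ n ∈ Finset.range k, X.ev q τ0 F P n

/-- majorant of a remainder with `k` insertions: absolute allocation measure, positive laws -/
noncomputable def rem (q : ℕ) (τ0 : JtTopo) (P : (ℕ → S) → ℝ) (k : ℕ) : ℝ :=
  X.absK (2 * k) q τ0 fun τ => X.off q k τ * X.nu (q + 2 * k) τ fun σ => |P σ| * |X.Jprod q k τ σ|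

/-- the tree with the single label `0` -/
def tau1 : JtTopo := fun _ _ => X.N + 1

/-- per-root evaluation `( )_#` of the degree `n ≥ 1` part: the first label is an ordinary observation of weight `1` -/
noncomputable def evR (F : ℕ → JtTopo → JtFn) (n : ℕ) : ℝ :=
  ((2 : ℝ) ^ n * (n ! : ℝ))⁻¹ * X.sumK (2 * n - 1) 1 X.tau1 fun τ =>
    X.off 0 n τ * F (2 * n) τ (Finset.range n) * X.nu (2 * n) τ fun σ => X.Jprod 0 n τ σ

/-- per-root value of `¼ ∑ b_{ij} (Q^*_{ij})^2` -/
noncomputable def quadR : ℝ :=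
  4⁻¹ * X.sumK 1 1 X.tau1 fun τ => X.off 0 1 τ * X.bC (τ 0 1) * X.nu 2 τ fun σ => X.Qs τ σ 0 1 ^ 2

/-- (A6) per-root expectation of the pressure symbol `I = log Ψ_K(J) - ¼ ∑ b (Q^*)^2`, `log Ψ` truncated after the degree `k` -/
noncomputable def presR (k : ℕ) : ℝ :=
  (∑ n ∈ Finset.Icc 1 k, X.evR (fun r τ => X.Kap r 0 τ) n) - X.quadR

/-- (A7), shape of the contract: cavity quotient through the order `k - 1`, remainder with `k` insertions, contact error `E` -/
def A7 (q : ℕ) (τ0 : JtTopo) (P : (ℕ → S) → ℝ) (i j k : ℕ) (C E : ℝ) : Prop :=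
  |X.nu q τ0 (fun σ => P σ * X.Qs τ0 σ i j) - X.evLt q τ0 (fun r τ => X.Quo r q i j τ) P k| ≤ C * X.rem q τ0 P k + E

end JtCtx

theorem jt_defs_eqns_cite : True := by
  have := @jtOne.eq_1
  have := @jtMul.eq_1
  have := @jtInv.eq_1
  have := @jtLog.eq_1
  have := @jtPow.eq_1
  have := @jtPow.eq_2
  have := @jtPow.eq_def
  have := @jtAug.eq_1
  have := @jtExp.eq_1
  have := @jtDer.eq_1
  have := @jtSp.eq_1
  have := @jtC.eq_1
  have := @jtD.eq_1
  have := @JtCtx.Qs.eq_1
  have := @JtCtx.Dl.eq_1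
  have := @JtCtx.J.eq_1
  have := @JtCtx.off.eq_1
  have := @JtCtx.Jprod.eq_1
  have := @JtCtx.scM.eq_1
  have := @JtCtx.Psi.eq_1
  have := @JtCtx.Nij.eq_1
  have := @JtCtx.Quo.eq_1
  have := @JtCtx.Kap.eq_1
  have := @JtCtx.Mker.eq_1
  have := @JtCtx.ev.eq_1
  have := @JtCtx.evLt.eq_1
  have := @JtCtx.rem.eq_1
  have := @JtCtx.tau1.eq_1
  have := @JtCtx.evR.eq_1
  have := @JtCtx.quadR.eq_1
  have := @JtCtx.presR.eq_1
  have := @JtCtx.A7.eq_1
  have := @jtPow.induct
  trivial

end Claimed.Agent.R286
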