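import Claimed.Agent.R286.Defs.Gh

/-!
# Row 286 (S0533): PLACEMENTS AND SIGNED ROWS   (owner: helper42)

Discrete form of PE Section 2.4 (Prop 2.5 formula (2), Lemma 2.6) and of the cut truncation of Section 2.5, on the base `Defs/Gh`.
The table (placements, real-power weights, "V at the common revelation", "diagonal = terminal covariance") was checked
NUMERICALLY against finite differences: origin/helper42:notes/R286/check2_helper42.py (12 cases, 1e-9; forks, repeated masses).

Conventions.  A hierarchy has `N` levels `0, .., N-1`; the terminal draw is the revelation number `N`.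
* `T.nd l a`   : the NODE of depth `l` above the label `a` = the labels which share the revelations `0, .., l-1` with `a`
                 (`l = 0`: the root, all labels; `l = N + 1`: the labels which coincide with `a`);
* `T.can l a`  : `a` is the least label of its node of depth `l` (one canonical anchor per node);
* `T.kids l a` : number of occupied children of that node (= nodes of depth `l + 1` inside it);
* `T.att l a`  : the tree on `q + 1` labels in which the NEW label `Fin.last q` follows `a` through the revelations `0, .., l-1`
                 and is fresh from the revelation `l` on  (`l = N`: same terminal field, new spin; `l = N + 1`: coincidence);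
* `ghM u ls a` : `M 0 = u` (incoming power of the root; `0` for normalised laws), `M (j+1)` = mass of the level `j`,
                 `M (N+1)` = terminal mass, `M k = 0` for `k > N + 1`;
* `T.coef M l a = M l - kids * M (l+1)` : the real-power weight (incoming mass minus occupied children times next mass);
                 at `l = N + 1` it is the terminal mass (weight of a coincidence);
* `T.row M N l0 Φ` : the signed sum of `Φ l a` over all placements of depth `l0 ≤ l ≤ N + 1`;
* truncation of the placement `(l, a)` at the cut after `t` revelations = the placement `(min l t, a)`.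
-/

set_option autoImplicit false

namespace Claimed.Agent.R286

open MeasureTheory ProbabilityTheory

/-! ### extension of a tree by one label -/

/-- extension of a table by a row (the new label is `Fin.last q`) -/
def ghExt {q : ℕ} (sh : Fin q → Fin q → ℕ) (row : Fin q → ℕ) (x y : Fin (q + 1)) : ℕ :=
  Fin.lastCases (motive := fun _ => ℕ) (Fin.lastCases (motive := fun _ => ℕ) 0 row y)
    (fun a => Fin.lastCases (motive := fun _ => ℕ) (row a) (sh a) y) x

@[simp] theorem ghExt_cc {q : ℕ} (sh : Fin q → Fin q → ℕ) (row : Fin q → ℕ) (a b : Fin q) :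
    ghExt sh row a.castSucc b.castSucc = sh a b := by simp [ghExt]

@[simp] theorem ghExt_lc {q : ℕ} (sh : Fin q → Fin q → ℕ) (row : Fin q → ℕ) (b : Fin q) :
    ghExt sh row (Fin.last q) b.castSucc = row b := by simp [ghExt]

@[simp] theorem ghExt_cl {q : ℕ} (sh : Fin q → Fin q → ℕ) (row : Fin q → ℕ) (a : Fin q) :
    ghExt sh row a.castSucc (Fin.last q) = row a := by simp [ghExt]

@[simp] theorem ghExt_ll {q : ℕ} (sh : Fin q → Fin q → ℕ) (row : Fin q → ℕ) :
    ghExt sh row (Fin.last q) (Fin.last q) = 0 := by simp [ghExt]

/-- the tree extended by a compatible row -/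
def GhTree.ext {q : ℕ} (T : GhTree q) (row : Fin q → ℕ)
    (h1 : ∀ a b, a ≠ b → min (row a) (T.sh a b) ≤ row b)
    (h2 : ∀ a b, a ≠ b → min (row a) (row b) ≤ T.sh a b) : GhTree (q + 1) where
  sh := ghExt T.sh row
  symm := by
    intro x y
    induction x using Fin.lastCases with
    | last => induction y using Fin.lastCases with
      | last => rfl
      | cast b => simp
    | cast a => induction y using Fin.lastCases with
      | last => simp
      | cast b => simpa using T.symm a b
  ultra := by
    intro x y z hxz
    induction x using Fin.lastCases with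
    | last =>
      induction z using Fin.lastCases with
      | last => exact absurd rfl hxz
      | cast c =>
        induction y using Fin.lastCases with
        | last => simp
        | cast b =>
          simp only [ghExt_lc, ghExt_cc]
          by_cases hbc : b = c
          · subst hbc; exact min_le_left _ _
          · exact h1 b c hbc
    | cast a =>
      induction z using Fin.lastCases with
      | last =>
        induction y using Fin.lastCases with
        | last => simp
        | cast b =>
          simp only [ghExt_cl, ghExt_cc]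
          by_cases hba : b = a
          · subst hba; exact min_le_right _ _
          · have := h1 b a hba
            rw [T.symm b a, min_comm] at this
            exact this
      | cast c =>
        have hac : a ≠ c := fun h => hxz (by rw [h])
        induction y using Fin.lastCases with
        | last => simpa using h2 a c hac
        | cast b => simpa using T.ultra a b c hac

/-- the row of a new label which follows `a0` through `l` revelations -/
def GhTree.arow {q : ℕ} (T : GhTree q) (l : ℕ) (a0 : Fin q) (b : Fin q) : ℕ :=
  if b = a0 then l else min l (T.sh a0 b)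

theorem GhTree.arow_h1 {q : ℕ} (T : GhTree q) (l : ℕ) (a0 : Fin q) (a b : Fin q) (hab : a ≠ b) :
    min (T.arow l a0 a) (T.sh a b) ≤ T.arow l a0 b := by
  unfold GhTree.arow
  by_cases hb : b = a0
  · have ha : a ≠ a0 := fun h => hab (h.trans hb.symm)
    rw [if_pos hb, if_neg ha]
    exact (min_le_left _ _).trans (min_le_left _ _)
  · rw [if_neg hb]
    by_cases ha : a = a0
    · rw [if_pos ha, ha]
    · rw [if_neg ha]
      have h := T.ultra a0 a b (fun h => hb h.symm)
      refine le_min ((min_le_left _ _).trans (min_le_left _ _)) (le_trans ?_ h)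
      exact min_le_min (min_le_right _ _) le_rfl

theorem GhTree.arow_h2 {q : ℕ} (T : GhTree q) (l : ℕ) (a0 : Fin q) (a b : Fin q) (hab : a ≠ b) :
    min (T.arow l a0 a) (T.arow l a0 b) ≤ T.sh a b := by
  unfold GhTree.arow
  by_cases ha : a = a0
  · have hb : b ≠ a0 := fun h => hab (ha.trans h.symm)
    rw [if_pos ha, if_neg hb, ha]
    exact (min_le_right _ _).trans (min_le_right _ _)
  · rw [if_neg ha]
    by_cases hb : b = a0
    · rw [if_pos hb, hb, T.symm a a0]
      exact (min_le_left _ _).trans (min_le_right _ _)
    · rw [if_neg hb]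
      have h := T.ultra a a0 b hab
      rw [T.symm a a0] at h
      exact le_trans (min_le_min (min_le_right _ _) (min_le_right _ _)) h

/-- **attachment**: the new label `Fin.last q` follows `a0` through the revelations `0, .., l-1`, and is fresh afterwards -/
def GhTree.att {q : ℕ} (T : GhTree q) (l : ℕ) (a0 : Fin q) : GhTree (q + 1) :=
  T.ext (T.arow l a0) (T.arow_h1 l a0) (T.arow_h2 l a0)

/-- the tree with one label -/
def ghTree1 : GhTree 1 where
  sh := fun _ _ => 0
  symm := fun _ _ => rfl
  ultra := fun a _ c h => absurd (Subsingleton.elim a c) h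

/-- restriction / relabelling along an injective map -/
def GhTree.comap {p q : ℕ} (T : GhTree q) (e : Fin p → Fin q) (he : Function.Injective e) : GhTree p where
  sh := fun a b => T.sh (e a) (e b)
  symm := fun _ _ => T.symm _ _
  ultra := fun _ _ _ h => T.ultra _ _ _ (fun h' => h (he h'))

/-! ### nodes, anchors, weights -/

/-- the node of depth `l` above `a`: the labels which share the revelations `0, .., l-1` with `a` -/
def GhTree.nd {q : ℕ} (T : GhTree q) (l : ℕ) (a : Fin q) : Finset (Fin q) :=
  Finset.univ.filter fun b => b = a ∨ l ≤ T.sh a b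

/-- `a` is the canonical anchor (least label) of its node of depth `l` -/
def GhTree.can {q : ℕ} (T : GhTree q) (l : ℕ) (a : Fin q) : Prop := ∀ b, l ≤ T.sh a b → a ≤ b

instance GhTree.can_dec {q : ℕ} (T : GhTree q) (l : ℕ) (a : Fin q) : Decidable (T.can l a) := by
  unfold GhTree.can; infer_instance

/-- number of occupied children of the node of depth `l` above `a` -/
def GhTree.kids {q : ℕ} (T : GhTree q) (l : ℕ) (a : Fin q) : ℕ :=
  ((T.nd l a).filter fun b => T.can (l + 1) b).card

/-- number of nodes of depth `l` -/
def GhTree.nnd {q : ℕ} (T : GhTree q) (l : ℕ) : ℕ := (Finset.univ.filter fun a => T.can l a).card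

/-- the masses seen by the signed calculus -/
def ghM {S ι : Type} (u : ℝ) (ls : List (GhLv S ι)) (a : ℝ) (k : ℕ) : ℝ := ((u :: ls.map GhLv.m) ++ [a]).getD k 0

/-- the real-power weight of the placement `(l, a)` -/
def GhTree.coef {q : ℕ} (T : GhTree q) (M : ℕ → ℝ) (l : ℕ) (a : Fin q) : ℝ := M l - (T.kids l a : ℝ) * M (l + 1)

/-- **signed row**: sum over the placements `(l, a)` of depth `l0 ≤ l ≤ N + 1` of one new label -/
def GhTree.row {q : ℕ} (T : GhTree q) (M : ℕ → ℝ) (N l0 : ℕ) (Φ : ℕ → Fin q → ℝ) : ℝ :=
  ∑ l ∈ Finset.Icc l0 (N + 1), ∑ a : Fin q, if T.can l a then T.coef M l a * Φ l a else 0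

/-- the same sum restricted to the placements inside the node of depth `l0` above `x` -/
def GhTree.rowIn {q : ℕ} (T : GhTree q) (M : ℕ → ℝ) (N l0 : ℕ) (x : Fin q) (Φ : ℕ → Fin q → ℝ) : ℝ :=
  ∑ l ∈ Finset.Icc l0 (N + 1), ∑ a ∈ T.nd l0 x, if T.can l a then T.coef M l a * Φ l a else 0

/-- total variation of the row -/
def GhTree.rowTV {q : ℕ} (T : GhTree q) (M : ℕ → ℝ) (N l0 : ℕ) : ℝ :=
  ∑ l ∈ Finset.Icc l0 (N + 1), ∑ a : Fin q, if T.can l a then |T.coef M l a| else 0

/-! ### tests -/

/-- type of the tests of the tree laws with `q` labels -/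
abbrev GhTest (S ι : Type) (q : ℕ) : Type := (ℕ → Fin q → ι → ℝ) → (Fin q → S) → ℝ

/-- an old test, read on the tree with one more label -/
def ghOld {S ι : Type} {q : ℕ} (P : GhTest S ι q) : GhTest S ι (q + 1) :=
  fun η σ => P (fun t a => η t a.castSucc) fun a => σ a.castSucc

/-- a spin test -/
def ghSp {S ι : Type} {q : ℕ} (P : (Fin q → S) → ℝ) : GhTest S ι q := fun _ σ => P σ

/-- pull-back of a test along a map of labels -/
def ghPull {S ι : Type} {p q : ℕ} (e : Fin p → Fin q) (P : GhTest S ι p) : GhTest S ι q :=
  fun η σ => P (fun t a => η t (e a)) fun a => σ (e a)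

/-! ### covariance differentiation: formula (2) -/

variable {S ι : Type} [Fintype S] [Fintype ι]

/-- cumulative covariance after the first `r` levels -/
def ghCum (ls : List (GhLv S ι)) (r : ℕ) (s t : S) : ℝ := ((ls.take r).map fun l => l.cov s t).sum

/-- signed row of tree expectations: `∑_c ν_{T + c}[P]`, placements of depth `≥ l0` -/
noncomputable def GhTree.nuRow {q : ℕ} (T : GhTree q) (B : GhB S) (ls : List (GhLv S ι)) (z : S → ℝ) (l0 : ℕ)
    (P : GhTest S ι (q + 1)) : ℝ :=
  T.row (ghM 0 ls B.a) ls.length l0 fun l a => (T.att l a).nu B ls z P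

/-- the same row truncated at the cut after `t` revelations -/
noncomputable def GhTree.nuRowT {q : ℕ} (T : GhTree q) (B : GhB S) (ls : List (GhLv S ι)) (z : S → ℝ) (l0 t : ℕ)
    (P : GhTest S ι (q + 1)) : ℝ :=
  T.row (ghM 0 ls B.a) ls.length l0 fun l a => (T.att (min l t) a).nu B ls z P

/-- right side of PE (2).  `V r s t` = derivative of the cumulative covariance after `r` levels;
the labels are `c = q` and `d = q + 1`; a pair which shares `r` revelations sees `V (min r N)`
(coinciding labels: the terminal covariance on the diagonal). -/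
noncomputable def GhTree.d2 {q : ℕ} (T : GhTree q) (B : GhB S) (ls : List (GhLv S ι)) (z : S → ℝ)
    (V : ℕ → S → S → ℝ) (P : (Fin q → S) → ℝ) : ℝ :=
  (1 / 2) * T.row (ghM 0 ls B.a) ls.length 0 fun l a =>
    (T.att l a).row (ghM 0 ls B.a) ls.length 0 fun l' a' =>
      ((T.att l a).att l' a').nu B ls z <| ghSp fun σ =>
        P (fun x => σ x.castSucc.castSucc) *
          V (min (((T.att l a).att l' a').sh (Fin.last q).castSucc (Fin.last (q + 1))) ls.length)
            (σ (Fin.last q).castSucc) (σ (Fin.last (q + 1)))

/-- CONTRACT (PE Prop 2.5, formula (2), finite form): a family of hierarchies with fixed masses whose cumulative covariances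
have the derivative `V` at `θ` (within `I`). -/
def GhFormula2 : Prop :=
  ∀ (S ι : Type) [Fintype S] [Fintype ι] (B : GhB S) (ls : ℝ → List (GhLv S ι)) (N : ℕ) (V : ℕ → S → S → ℝ)
    (I : Set ℝ) (θ : ℝ) (z : S → ℝ) (q : ℕ) (T : GhTree q) (P : (Fin q → S) → ℝ),
    B.Ok → (∀ t, (ls t).length = N) → (∀ t, (ls t).map GhLv.m = (ls θ).map GhLv.m) → GhAdm B 0 (ls θ) →
    (∀ r s t, HasDerivWithinAt (fun x => ghCum (ls x) r s t) (V r s t) I θ) →
    HasDerivWithinAt (fun x => T.nu B (ls x) z (ghSp P)) (T.d2 B (ls θ) z V P) I θ

theorem gh_plc_eqns_cite : True := by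
  have := @ghExt.eq_1
  have := @GhTree.ext.eq_1
  have := @GhTree.arow.eq_1
  have := @GhTree.att.eq_1
  have := @ghTree1.eq_1
  have := @GhTree.comap.eq_1
  have := @GhTree.nd.eq_1
  have := @GhTree.can.eq_1
  have := @GhTree.kids.eq_1
  have := @GhTree.nnd.eq_1
  have := @ghM.eq_1
  have := @GhTree.coef.eq_1
  have := @GhTree.row.eq_1
  have := @GhTree.rowIn.eq_1
  have := @GhTree.rowTV.eq_1
  have := @ghOld.eq_1
  have := @ghSp.eq_1
  have := @ghPull.eq_1
  have := @ghCum.eq_1
  have := @GhTree.nuRow.eq_1
  have := @GhTree.nuRowT.eq_1
  have := @GhTree.d2.eq_1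
  have := @GhFormula2.eq_1
  trivial

end Claimed.Agent.R286
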