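import Claimed.Agent.R286.Defs.Sk
import Claimed.Agent.R286.Defs.Clk
import Claimed.Agent.R286.Defs.Plc
import Claimed.Agent.R286.Defs.Jet

/-!
# Row 286 (S0533): FINE LL PATHS (vocabulary of the concrete jet context)      (helper136; names `GhTabOk`, `ghOfTab`, `Ll*`, `ll*`)

* `LlInc = (m, db, dh, dK)` one revelation of an LL fine path: mass, increments of the matrix clock, of the field clock and of the SCALAR REFERENCE clock `K`;
* `llMat`, `llSc`, `llCumK`, `LlStpAdm`: the matrix path, the one-site scalar reference on the SAME stages, the cumulative reference clock, admissibility.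
* **THE jet context is `llJs n a P tl` of `L02/Defs.lean` (owner helper93; signed calculus of `Defs/Tr`)**: ruling of 136, 15 Oct 03:51Z.
  The former context on `Defs/Plc` (and its private sums, tree numbers, tilt) was DELETED at 04:20Z: nothing may speak of it.
-/

set_option autoImplicit false

namespace Claimed.Agent.R286

open MeasureTheory ProbabilityTheory

/-! ### tables and trees -/

/-- the table `sh` is a tree on the labels `< q` -/
structure GhTabOk (q : ℕ) (sh : ℕ → ℕ → ℕ) : Prop where
  symm : ∀ x y, x < q → y < q → sh x y = sh y x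
  ultra : ∀ x y z, x < q → y < q → z < q → x ≠ z → min (sh x y) (sh y z) ≤ sh x z

/-- the tree of a table -/
def ghOfTab (q : ℕ) (sh : ℕ → ℕ → ℕ) (h : GhTabOk q sh) : GhTree q where
  sh := fun a b => sh a.1 b.1
  symm := fun a b => h.symm _ _ a.2 b.2
  ultra := fun a b c hac => h.ultra _ _ _ a.2 b.2 c.2 (fun e => hac (Fin.ext e))

/-- the table of a tree (`0` outside the labels) -/
def GhTree.tab {q : ℕ} (T : GhTree q) : ℕ → ℕ → ℕ := fun x y =>
  if h : x < q ∧ y < q then T.sh ⟨x, h.1⟩ ⟨y, h.2⟩ else 0

/-! ### fine LL paths -/

/-- one revelation of a fine LL path -/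
structure LlInc where
  m : ℝ
  db : ℝ
  dh : ℝ
  dK : ℝ

/-- a fine LL path: the list of its revelations, the first revealed first -/
abbrev LlStp : Type := List LlInc

/-- the step path of the matrix model -/
def llMat (P : LlStp) : SkStp := P.map fun e => ⟨e.m, e.db, e.dh⟩

/-- the step path of the one-site scalar reference (same stages) -/
def llSc (P : LlStp) : SkStp := P.map fun e => ⟨e.m, 0, e.dK⟩

/-- cumulative reference clock after `j` revelations -/
def llCumK (P : LlStp) (j : ℕ) : ℝ := ((P.take j).map LlInc.dK).sum

/-- admissible -/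
def LlStpAdm (a : ℝ) (P : LlStp) : Prop := SkAdm a (llMat P) ∧ SkAdm a (llSc P)

theorem ll_jetsk_eqns_cite : True := by
  have := @ghOfTab.eq_1
  have := @GhTree.tab.eq_1
  have := @llMat.eq_1
  have := @llSc.eq_1
  have := @llCumK.eq_1
  have := @LlStpAdm.eq_1
  trivial

end Claimed.Agent.R286
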