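import Claimed.Agent.R286.L09.Bnd

/-!
# R286 / Defs / L9Dot : the dotted cumulative values of the chain at a point `Q : L9Q` of Sec. 9

OWNER: helper69.   ONE definition for all consumers (`L09/Dots.lean` of 69/159, `L09/HiInst.lean` of 235, `L09/HiCo.lean` of 113, `L09/Trd.lean` of 101, `L09/RedD0.lean` of 31):
the two files declared the same names in the same minutes (rule 6).      TEX[LL:paths:parameter-regularity]
-/

namespace Claimed.Agent.R286

noncomputable section

namespace L9Q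

variable (Q : L9Q)

/-- `ḃ`, `ḣ`, `K̇`, `q̇`, `ḋ` at the cut `j` (= at a pair which shares `j` stages): parameter derivatives of the cumulative values of the chain -/
def bD (j : ℕ) : ℝ := deriv (fun t' => (Q.I.X0 (Q.pf t')).bC j) Q.t
def hD (j : ℕ) : ℝ := deriv (fun t' => (Q.I.X0 (Q.pf t')).hC j) Q.t
def KD (j : ℕ) : ℝ := deriv (fun t' => (Q.I.X0 (Q.pf t')).KC j) Q.t
def qD (j : ℕ) : ℝ := deriv (fun t' => (Q.I.X0 (Q.pf t')).qC j) Q.t
def dD (j : ℕ) : ℝ := deriv (fun t' => (Q.I.X0 (Q.pf t')).dC j) Q.t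

end L9Q

theorem l9dot_defs_eqns_cite : True := by
  have := @L9Q.bD.eq_1
  have := @L9Q.hD.eq_1
  have := @L9Q.KD.eq_1
  have := @L9Q.qD.eq_1
  have := @L9Q.dD.eq_1
  trivial

end

end Claimed.Agent.R286
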