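/-
Row 286 (S0533).   LLPar = THE exponents and fixed constants of LL (Sec. 10 "Parameter choices"), ONE structure.
OWNER: helper242.   Mathlib only.   Every LL contract takes `(par : LLPar)`.

ORDER OF CHOICE = chain of stages `LLParA ← LLParB ← LLParC ← LLParD ← LLParE ← LLPar` (`extends`; all fields are
reachable as `par.tau`, `par.pStar`, ..).   A field may be chosen small (large) depending on ALL earlier fields.
HOW A PACKAGE STATES A NON-EXPLICIT "≪":   `∀ (pB : LLParB), ∃ thr > 0, ∀ par : LLPar, par.toLLParB = pB → par.zeta ≤ thr → ..`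
(quantify over the EARLIER stage, get a threshold, then all later fields are arbitrary).  The existence theorems
`llparB_exists .. llpar_exists` (file Defs/LLParEx.lean) give every stage below ARBITRARY positive thresholds that may depend on the
earlier fields; so such statements can always be chained.   The explicit factors `100` below are only a convenient default.

EXTERNAL constants (outputs of other packages, they are FIELDS with only sign conditions):
 `cG` (G1), `cC` (saving `c` of (C2)), `cP` (`c'` of (P11)), `CH`, `CL` (losses `C_H`, `C` of (D15), (D16), size projections),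
 `C0` (loss of the direct Taylor error (D8)).
Dictionary:  kc = k_c = 0.03 | tau, sStar = 1/2 - tau | eta | tau0, s0 = sStar - tau0 | bs = b_s | bl = b_ℓ | he = h_e |
 dStar = δ_* = 1/10000 | kRow, kPr = size row / pressure Taylor degrees | a0, bH = b_H, a1, a2 (V_i = x^(a_i)) | pStar = p_* |
 nSt = number of stages of (C11) | zeta | sigL = local PE power slack | rho = buffer exponent | kappa | dPr = δ' | J0 = direct degree |
 pMom, pTr = moment / change of measure orders | epsG = geometric loss of ≲_⋄ | rSt = stencil order | cFin = common saving |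
 epsL = Laplace exponent ε of Sec. 4.
-/
import Mathlib

set_option autoImplicit false

namespace Claimed.Agent.R286

/-- stage A: the global saving `c_G` of (G1). -/
structure LLParA where
  cG : ℝ
  cG_pos : 0 < cG
  cG_le : cG ≤ 1

/-- stage B (LL 10, item 2): `τ, η, τ₀, b_s, b_ℓ, h_e`. -/
structure LLParB extends LLParA where
  tau : ℝ
  eta : ℝ
  tau0 : ℝ
  bs : ℝ
  bl : ℝ
  he : ℝ
  tau_pos : 0 < tau
  tau_le : 100 * tau ≤ 1 / 10000
  tau_le_cG : 1200 * tau ≤ cG
  eta_pos : 0 < eta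
  eta_le : 100 * eta ≤ tau
  tau0_pos : 0 < tau0
  tau0_le : 100 * tau0 ≤ eta
  bs_pos : 0 < bs
  bs_le : 100 * bs ≤ eta
  bl_pos : 0 < bl
  bl_le : 100 * bl ≤ bs
  he_pos : 0 < he
  he_le : 1000 * he ≤ cG

/-- `k_c = 0.03` -/
noncomputable def llKc : ℝ := 3 / 100
/-- `δ_* = (1/200)/50` -/
noncomputable def llDStar : ℝ := 1 / 10000

/-- `s_* = 1/2 - τ` -/
noncomputable def LLParB.sStar (p : LLParB) : ℝ := 1 / 2 - p.tau
/-- `s_0 = s_* - τ₀` -/
noncomputable def LLParB.s0 (p : LLParB) : ℝ := 1 / 2 - p.tau - p.tau0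

/-- stage C (item 2, end; item 3, beginning): savings of (C2), (P11); size Taylor degrees; polynomial losses. -/
structure LLParC extends LLParB where
  cC : ℝ
  cP : ℝ
  kRow : ℕ
  kPr : ℕ
  CH : ℝ
  CL : ℝ
  cC_pos : 0 < cC
  cC_le : cC ≤ 1
  cP_pos : 0 < cP
  cP_le : cP ≤ 1
  kRow_ge : 7 ≤ (kRow : ℝ) * llDStar
  kPr_ge : 7 ≤ (kPr : ℝ) * llDStar
  CH_ge : 1 ≤ CH
  CL_ge : 1 ≤ CL

/-- stage D (item 3): cutoffs `V_i = x^(a_i)`, `b_H`, final strength exponent `p_*`. -/
structure LLParD extends LLParC where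
  a0 : ℝ
  bH : ℝ
  a1 : ℝ
  a2 : ℝ
  pStar : ℝ
  a0_pos : 0 < a0
  a0_le_cC : 100 * a0 ≤ cC
  a0_le_dStar : 100 * a0 ≤ llDStar
  bH_pos : 0 < bH
  bH_le : 100 * bH ≤ a0
  a1_pos : 0 < a1
  a1_le : 100 * CH * a1 ≤ bH
  a2_pos : 0 < a2
  a2_le : 100 * CH * a2 ≤ a1
  pStar_pos : 0 < pStar
  pStar_le_a2 : 100 * CL * pStar ≤ a2
  pStar_le_he : 1000 * pStar ≤ he
  pStar_le_cP : 100 * pStar ≤ cP

/-- stage E (item 4): stages of (C11), `ζ`, local PE slack, buffer exponent `ρ`. -/
structure LLParE extends LLParD where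
  nSt : ℕ
  zeta : ℝ
  sigL : ℝ
  rho : ℝ
  nSt_pos : 1 ≤ nSt
  /-- the recursion (C11) has reached `a_goal` (`bds_astage_last`, Bud/Stage) -/
  nSt_ok : (2 / 3 : ℝ) ^ nSt * (2 / pStar) ≤ 0.12
  zeta_pos : 0 < zeta
  zeta_le_bl : 100 * zeta ≤ pStar * bl
  zeta_le_tau0 : 100 * zeta ≤ pStar * tau0
  /-- `BdFix.Ok.zeta_le` (Bud/Defs) -/
  zeta_le : 100000 * zeta ≤ pStar * tau0 * bl
  sigL_pos : 0 < sigL
  sigL_le : 100 * sigL ≤ zeta
  rho_pos : 0 < rho
  rho_le : 100 * rho ≤ zeta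

/-- stage F = all parameters (item 5 and the end of LL 10). -/
structure LLPar extends LLParE where
  kappa : ℝ
  C0 : ℝ
  dPr : ℝ
  J0 : ℕ
  pMom : ℕ
  pTr : ℕ
  epsG : ℝ
  rSt : ℕ
  cFin : ℝ
  epsL : ℝ
  kappa_pos : 0 < kappa
  kappa_le : 100 * kappa ≤ pStar * eta
  C0_ge : 1 ≤ C0
  dPr_pos : 0 < dPr
  dPr_le : 100 * C0 * dPr ≤ kappa
  J0_ge : 7 ≤ ((J0 : ℝ) - 2) * dPr
  J0_ge_kPr : kPr ≤ J0
  pMom_ge : 4 ≤ pMom
  pTr_ge : 4 ≤ pTr
  epsG_pos : 0 < epsG
  epsG_le : 100 * epsG ≤ dPr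
  epsG_le_rho : 100 * epsG ≤ rho
  rSt_ge : J0 ≤ rSt
  cFin_pos : 0 < cFin
  cFin_le : 100 * cFin ≤ epsG
  epsL_pos : 0 < epsL
  epsL_le : 100 * epsL ≤ cFin

/-- `s_*` -/
noncomputable abbrev LLPar.sStar (p : LLPar) : ℝ := p.toLLParB.sStar
/-- `s_0` -/
noncomputable abbrev LLPar.s0 (p : LLPar) : ℝ := p.toLLParB.s0

/-- forces the equation lemmas of the definitions of this file to live in this module. -/
theorem llpar_eqns_cite : True := by
  have := @llKc.eq_1; have := @llDStar.eq_1; have := @LLParB.sStar.eq_1; have := @LLParB.s0.eq_1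
  have := @LLPar.sStar.eq_1; have := @LLPar.s0.eq_1
  trivial

end Claimed.Agent.R286
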