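/-
Row 286 (S0533).   LLPar: the displayed inequalities of LL Sec. 10 as lemmas, and EXISTENCE of every stage below arbitrary
positive thresholds (above arbitrary lower thresholds for the large parameters) that may depend on all earlier fields.
OWNER: helper242.   Mathlib only.
-/
import Claimed.Agent.R286.Defs.LLPar

set_option autoImplicit false

namespace Claimed.Agent.R286

/-! ### stage B -/

namespace LLParB
variable (p : LLParB)

theorem tau_lt : p.tau ≤ 1 / 1000000 := by have := p.tau_le; linarith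
theorem eta_lt_tau : p.eta ≤ p.tau / 100 := by have := p.eta_le; linarith
theorem tau0_lt_eta : p.tau0 ≤ p.eta / 100 := by have := p.tau0_le; linarith
theorem sStar_eq : p.sStar = 1 / 2 - p.tau := rfl
theorem s0_eq : p.s0 = p.sStar - p.tau0 := rfl
theorem sStar_pos : 49 / 100 < p.sStar := by have := p.tau_lt; unfold sStar; linarith
theorem sStar_lt : p.sStar < 1 / 2 := by have := p.tau_pos; unfold sStar; linarith
theorem s0_pos : 49 / 100 < p.s0 := by
  have := p.tau_lt; have := p.eta_lt_tau; have := p.tau0_lt_eta; have := p.tau_pos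
  unfold s0; linarith
theorem s0_lt : p.s0 < p.sStar := by have := p.tau0_pos; unfold s0 sStar; linarith

/-- `2(τ+τ₀)+b_s < c_G/12` -/
theorem room_cG : 2 * (p.tau + p.tau0) + p.bs < p.cG / 12 := by
  have := p.tau_le_cG; have := p.eta_le; have := p.tau0_le; have := p.bs_le
  have := p.tau_pos; have := p.eta_pos; have := p.cG_pos
  linarith
/-- `2(τ+τ₀)+b_s < k_c/3` -/
theorem room_kc : 2 * (p.tau + p.tau0) + p.bs < llKc / 3 := by
  have := p.tau_le; have := p.eta_le; have := p.tau0_le; have := p.bs_le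
  have := p.tau_pos; have := p.eta_pos
  unfold llKc; linarith
/-- `b_s < 2(η-τ₀)` -/
theorem bs_lt : p.bs < 2 * (p.eta - p.tau0) := by
  have := p.tau0_le; have := p.bs_le; have := p.eta_pos; linarith
/-- `k_c/3 - 1 + 2 s₀ > 0` (even `≥ 0.009`) -/
theorem gap_kc : 9 / 1000 < llKc / 3 - 1 + 2 * p.s0 := by
  have := p.tau_lt; have := p.eta_lt_tau; have := p.tau0_lt_eta; have := p.tau_pos
  unfold llKc s0; linarith
/-- `5 s_*/2 - 1 > 0` -/
theorem gap_switch : 1 / 5 < 5 * p.sStar / 2 - 1 := by have := p.tau_lt; unfold sStar; linarith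
/-- `1 - 2 s_* = 2τ` -/
theorem gain1 : 1 - 2 * p.sStar = 2 * p.tau := by unfold sStar; ring
/-- `(1-η)/2 - s_* = τ - η/2 > 0` -/
theorem gain2 : (1 - p.eta) / 2 - p.sStar = p.tau - p.eta / 2 := by unfold sStar; ring
theorem gain2_pos : p.tau / 2 < (1 - p.eta) / 2 - p.sStar := by
  rw [p.gain2]; have := p.eta_lt_tau; have := p.tau_pos; linarith
/-- `s_*/2 - η > 0` -/
theorem gain3_pos : 1 / 5 < p.sStar / 2 - p.eta := by
  have := p.tau_lt; have := p.eta_lt_tau; have := p.tau_pos; unfold sStar; linarith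
/-- `(1-η)/s_* - 2 = (2τ-η)/s_*` -/
theorem gain4 : (1 - p.eta) / p.sStar - 2 = (2 * p.tau - p.eta) / p.sStar := by
  have h : p.sStar ≠ 0 := by have := p.sStar_pos; linarith
  field_simp
  unfold sStar; ring
theorem gain4_pos : 2 * p.tau < (1 - p.eta) / p.sStar - 2 := by
  rw [p.gain4, lt_div_iff₀ (by have := p.sStar_pos; linarith)]
  have h1 := p.sStar_lt; have h2 := p.eta_lt_tau; have h3 := p.tau_pos; have h4 := p.sStar_pos
  nlinarith
/-- `1 - 12 η > 0` -/
theorem margin_proj : 9 / 10 < 1 - 12 * p.eta := by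
  have := p.tau_lt; have := p.eta_lt_tau; linarith

end LLParB

/-! ### stage D -/

namespace LLParD
variable (p : LLParD)

theorem CH_pos : 0 < p.CH := lt_of_lt_of_le one_pos p.CH_ge
theorem CL_pos : 0 < p.CL := lt_of_lt_of_le one_pos p.CL_ge
theorem a1_le' : 100 * p.a1 ≤ p.bH := by
  have h := p.a1_le; have h1 := p.CH_ge; have h2 := p.a1_pos; nlinarith
theorem a2_le' : 100 * p.a2 ≤ p.a1 := by
  have h := p.a2_le; have h1 := p.CH_ge; have h2 := p.a2_pos; nlinarith
theorem pStar_le' : 100 * p.pStar ≤ p.a2 := by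
  have h := p.pStar_le_a2; have h1 := p.CL_ge; have h2 := p.pStar_pos; nlinarith
theorem a0_lt : p.a0 ≤ 1 / 1000000 := by have := p.a0_le_dStar; unfold llDStar at this; linarith
/-- the preliminary restriction `p_* < (1/200)/100` -/
theorem pStar_lt : p.pStar < 1 / 20000 := by
  have := p.pStar_le'; have := p.a2_le'; have := p.a1_le'; have := p.bH_le; have := p.a0_lt
  have := p.pStar_pos; linarith
theorem pStar_lt_cG : 10000 * p.pStar ≤ p.cG := by
  have := p.pStar_le_he; have := p.he_le; have := p.pStar_pos; linarith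
/-- `1 - 2 C_H a₁ > 0` -/
theorem margin1 : 9 / 10 < 1 - 2 * p.CH * p.a1 := by
  have := p.a1_le; have := p.bH_le; have := p.a0_lt; linarith
/-- `b_H - C_H a₁ > 0` -/
theorem margin2 : p.bH / 2 < p.bH - p.CH * p.a1 := by
  have := p.a1_le; have := p.bH_pos; linarith
/-- `b_H - C p_* > 0` -/
theorem margin3 : p.bH / 2 < p.bH - p.CL * p.pStar := by
  have := p.pStar_le_a2; have := p.a2_le'; have := p.a1_le'; have := p.bH_pos; have := p.a2_pos
  have := p.a1_pos; linarith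
/-- `a₁ - C_H a₂ - p_* s_* > 0` -/
theorem margin4 : p.a1 / 2 < p.a1 - p.CH * p.a2 - p.pStar * p.toLLParB.sStar := by
  have h1 := p.a2_le; have h2 := p.pStar_le'; have h3 := p.a2_le'; have h4 := p.a1_pos
  have h5 := p.toLLParB.sStar_lt; have h6 := p.pStar_pos; have h7 := p.toLLParB.sStar_pos
  have h8 : p.pStar * p.toLLParB.sStar ≤ p.pStar * 1 :=
    mul_le_mul_of_nonneg_left (by linarith) h6.le
  linarith
/-- `δ_*/2 - C_H a₂ - p_* s_* > 0` -/
theorem margin5 : llDStar / 4 < llDStar / 2 - p.CH * p.a2 - p.pStar * p.toLLParB.sStar := by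
  have h1 := p.a2_le; have h2 := p.pStar_le'; have h3 := p.a2_le'; have h4 := p.a1_pos
  have h5 := p.toLLParB.sStar_lt; have h6 := p.pStar_pos
  have h8 : p.pStar * p.toLLParB.sStar ≤ p.pStar * 1 :=
    mul_le_mul_of_nonneg_left (by linarith) h6.le
  have := p.a1_le'; have := p.bH_le; have := p.a0_le_dStar; have := p.a0_pos; have := p.bH_pos
  linarith
/-- `1 - C p_* > 0` -/
theorem margin6 : 9 / 10 < 1 - p.CL * p.pStar := by
  have := p.pStar_le_a2; have := p.a2_le'; have := p.a1_le'; have := p.bH_le; have := p.a0_lt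
  have := p.a2_pos; have := p.a1_pos; have := p.bH_pos
  linarith
/-- the three powers of the differentiated bound of (C2) and the smoothing error stay above `4`. -/
theorem pow1 : 4 + p.cG / 2 < 4 + p.cG - p.pStar := by
  have := p.pStar_lt_cG; have := p.pStar_pos; have := p.cG_pos; linarith
theorem pow2 : 4 + 1 / 2 < 5 + p.pStar * (2 * p.eta - 5 * p.toLLParB.sStar / 2) := by
  have h1 := p.pStar_lt; have h2 := p.pStar_pos; have h3 := p.eta_pos
  have h4 := p.toLLParB.sStar_lt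
  nlinarith
theorem pow3 : 5 < 6 - 2 * p.pStar := by have := p.pStar_lt; linarith
theorem pow4 : 5 + p.cP / 2 < 5 + p.cP - p.pStar := by
  have := p.pStar_le_cP; have := p.pStar_pos; have := p.cP_pos; linarith

end LLParD

/-! ### stages E, F -/

namespace LLParE
variable (p : LLParE)

/-- `2ζ < p_* (k_c/3 - 1 + 2 s₀)`: the extra optimized excess fits the budget at (C3). -/
theorem zeta_fit : 2 * p.zeta < p.pStar * (llKc / 3 - 1 + 2 * p.toLLParB.s0) := by
  have h1 := p.zeta_le_tau0; have h2 := p.toLLParB.gap_kc; have h3 := p.pStar_pos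
  have h4 := p.toLLParB.tau0_lt_eta; have h5 := p.toLLParB.eta_lt_tau; have h6 := p.toLLParB.tau_lt
  have h7 := p.zeta_pos; have h8 := p.tau0_pos
  have h9 : p.tau0 ≤ 1 / 1000 := by linarith [p.tau_pos, p.eta_pos]
  nlinarith

end LLParE

namespace LLPar
variable (p : LLPar)

theorem C0_pos : 0 < p.C0 := lt_of_lt_of_le one_pos p.C0_ge
/-- `4κ < p_* (1 - 2 s_*)` -/
theorem kappa_lt1 : 4 * p.kappa < p.pStar * (1 - 2 * p.sStar) := by
  have h0 : p.sStar = p.toLLParB.sStar := rfl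
  rw [h0, p.toLLParB.gain1]
  have h1 := p.kappa_le; have h2 := p.toLLParB.eta_lt_tau; have h3 := p.pStar_pos
  have h4 := p.tau_pos; have h5 := p.kappa_pos
  have h6 : p.pStar * p.eta ≤ p.pStar * (p.tau / 100) := mul_le_mul_of_nonneg_left h2 h3.le
  nlinarith [mul_pos h3 h4]
/-- `4κ < (1-η)/s_* - 2` -/
theorem kappa_lt2 : 4 * p.kappa < (1 - p.eta) / p.sStar - 2 := by
  have h0 : p.sStar = p.toLLParB.sStar := rfl
  rw [h0]
  refine lt_trans ?_ p.toLLParB.gain4_pos
  have h1 := p.kappa_le; have h2 := p.toLLParB.eta_lt_tau; have h3 := p.pStar_pos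
  have h4 := p.tau_pos; have h5 := p.toLLParD.pStar_lt; have h7 := p.eta_pos
  have h6 : p.pStar * p.eta ≤ 1 * p.eta := mul_le_mul_of_nonneg_right (by linarith) h7.le
  linarith
/-- `δ' < κ` -/
theorem dPr_lt : p.dPr < p.kappa := by
  have h1 := p.dPr_le; have h2 := p.C0_ge; have h3 := p.dPr_pos; nlinarith
/-- `2 C₀ δ' < p_* ((1-η)/2 - s_*)` (strict room) -/
theorem dPr_fit : 2 * (p.C0 * p.dPr) < p.pStar * ((1 - p.eta) / 2 - p.sStar) := by
  have h0 : p.sStar = p.toLLParB.sStar := rfl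
  rw [h0]
  have h1 := p.dPr_le; have h2 := p.kappa_le; have h3 := p.toLLParB.gain2_pos
  have h4 := p.toLLParB.eta_lt_tau; have h5 := p.pStar_pos; have h6 := p.tau_pos
  have h7 : p.pStar * p.eta ≤ p.pStar * (p.tau / 100) := mul_le_mul_of_nonneg_left h4 h5.le
  have h8 : p.pStar * (p.tau / 2) < p.pStar * ((1 - p.eta) / 2 - p.toLLParB.sStar) :=
    mul_lt_mul_of_pos_left h3 h5
  have h9 := mul_pos h5 h6
  nlinarith

end LLPar

/-! ### existence -/

theorem llparA_exists (cG0 : ℝ) (h : 0 < cG0) : ∃ p : LLParA, p.cG ≤ cG0 :=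
  ⟨⟨min cG0 1, lt_min h one_pos, min_le_right _ _⟩, min_le_left _ _⟩

theorem llparB_exists (pA : LLParA) (f1 : ℝ) (f2 : ℝ → ℝ) (f3 : ℝ → ℝ → ℝ) (f4 : ℝ → ℝ → ℝ → ℝ)
    (f5 : ℝ → ℝ → ℝ → ℝ → ℝ) (f6 : ℝ → ℝ → ℝ → ℝ → ℝ → ℝ) (h1 : 0 < f1) (h2 : ∀ a, 0 < f2 a)
    (h3 : ∀ a b, 0 < f3 a b) (h4 : ∀ a b c, 0 < f4 a b c) (h5 : ∀ a b c d, 0 < f5 a b c d)
    (h6 : ∀ a b c d e, 0 < f6 a b c d e) :
    ∃ p : LLParB, p.toLLParA = pA ∧ p.tau ≤ f1 ∧ p.eta ≤ f2 p.tau ∧ p.tau0 ≤ f3 p.tau p.eta ∧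
      p.bs ≤ f4 p.tau p.eta p.tau0 ∧ p.bl ≤ f5 p.tau p.eta p.tau0 p.bs ∧
      p.he ≤ f6 p.tau p.eta p.tau0 p.bs p.bl := by
  have hG := pA.cG_pos
  set tau := min (min (1 / 1000000) (pA.cG / 1200)) f1 with htau
  have tau_pos : 0 < tau := lt_min (lt_min (by norm_num) (by positivity)) h1
  set eta := min (tau / 100) (f2 tau) with heta
  have eta_pos : 0 < eta := lt_min (by positivity) (h2 _)
  set tau0 := min (eta / 100) (f3 tau eta) with htau0
  have tau0_pos : 0 < tau0 := lt_min (by positivity) (h3 _ _)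
  set bs := min (eta / 100) (f4 tau eta tau0) with hbs
  have bs_pos : 0 < bs := lt_min (by positivity) (h4 _ _ _)
  set bl := min (bs / 100) (f5 tau eta tau0 bs) with hbl
  have bl_pos : 0 < bl := lt_min (by positivity) (h5 _ _ _ _)
  set he := min (pA.cG / 1000) (f6 tau eta tau0 bs bl) with hhe
  have he_pos : 0 < he := lt_min (by positivity) (h6 _ _ _ _ _)
  refine ⟨{ toLLParA := pA, tau := tau, eta := eta, tau0 := tau0, bs := bs, bl := bl, he := he,
            tau_pos := tau_pos, eta_pos := eta_pos, tau0_pos := tau0_pos, bs_pos := bs_pos,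
            bl_pos := bl_pos, he_pos := he_pos,
            tau_le := ?_, tau_le_cG := ?_, eta_le := ?_, tau0_le := ?_, bs_le := ?_, bl_le := ?_,
            he_le := ?_ }, rfl, min_le_right _ _, min_le_right _ _, min_le_right _ _,
            min_le_right _ _, min_le_right _ _, min_le_right _ _⟩
  · have : tau ≤ 1 / 1000000 := le_trans (min_le_left _ _) (min_le_left _ _)
    linarith
  · have : tau ≤ pA.cG / 1200 := le_trans (min_le_left _ _) (min_le_right _ _)
    linarith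
  · have : eta ≤ tau / 100 := min_le_left _ _
    linarith
  · have : tau0 ≤ eta / 100 := min_le_left _ _
    linarith
  · have : bs ≤ eta / 100 := min_le_left _ _
    linarith
  · have : bl ≤ bs / 100 := min_le_left _ _
    linarith
  · have : he ≤ pA.cG / 1000 := min_le_left _ _
    linarith

theorem llparC_exists (pB : LLParB) (cC0 cP0 : ℝ) (kRow0 kPr0 : ℝ → ℝ → ℕ)
    (CH0 CL0 : ℝ → ℝ → ℕ → ℕ → ℝ) (h1 : 0 < cC0) (h2 : 0 < cP0) :
    ∃ p : LLParC, p.toLLParB = pB ∧ p.cC ≤ cC0 ∧ p.cP ≤ cP0 ∧ kRow0 p.cC p.cP ≤ p.kRow ∧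
      kPr0 p.cC p.cP ≤ p.kPr ∧ CH0 p.cC p.cP p.kRow p.kPr ≤ p.CH ∧
      CL0 p.cC p.cP p.kRow p.kPr ≤ p.CL := by
  refine ⟨{ toLLParB := pB, cC := min cC0 1, cP := min cP0 1,
            kRow := max (kRow0 (min cC0 1) (min cP0 1)) 70000,
            kPr := max (kPr0 (min cC0 1) (min cP0 1)) 70000,
            CH := max (CH0 (min cC0 1) (min cP0 1) (max (kRow0 (min cC0 1) (min cP0 1)) 70000)
              (max (kPr0 (min cC0 1) (min cP0 1)) 70000)) 1,
            CL := max (CL0 (min cC0 1) (min cP0 1) (max (kRow0 (min cC0 1) (min cP0 1)) 70000)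
              (max (kPr0 (min cC0 1) (min cP0 1)) 70000)) 1,
            cC_pos := lt_min h1 one_pos, cC_le := min_le_right _ _, cP_pos := lt_min h2 one_pos,
            cP_le := min_le_right _ _, kRow_ge := ?_, kPr_ge := ?_, CH_ge := le_max_right _ _,
            CL_ge := le_max_right _ _ }, rfl, min_le_left _ _, min_le_left _ _, le_max_left _ _,
            le_max_left _ _, le_max_left _ _, le_max_left _ _⟩
  · have : (70000 : ℝ) ≤ ((max (kRow0 (min cC0 1) (min cP0 1)) 70000 : ℕ) : ℝ) := by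
      exact_mod_cast le_max_right _ _
    unfold llDStar; linarith
  · have : (70000 : ℝ) ≤ ((max (kPr0 (min cC0 1) (min cP0 1)) 70000 : ℕ) : ℝ) := by
      exact_mod_cast le_max_right _ _
    unfold llDStar; linarith

theorem llparD_exists (pC : LLParC) (f1 : ℝ) (f2 : ℝ → ℝ) (f3 : ℝ → ℝ → ℝ) (f4 : ℝ → ℝ → ℝ → ℝ)
    (f5 : ℝ → ℝ → ℝ → ℝ → ℝ) (h1 : 0 < f1) (h2 : ∀ a, 0 < f2 a)
    (h3 : ∀ a b, 0 < f3 a b) (h4 : ∀ a b c, 0 < f4 a b c) (h5 : ∀ a b c d, 0 < f5 a b c d) :
    ∃ p : LLParD, p.toLLParC = pC ∧ p.a0 ≤ f1 ∧ p.bH ≤ f2 p.a0 ∧ p.a1 ≤ f3 p.a0 p.bH ∧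
      p.a2 ≤ f4 p.a0 p.bH p.a1 ∧ p.pStar ≤ f5 p.a0 p.bH p.a1 p.a2 := by
  have hcC := pC.cC_pos
  have hcP := pC.cP_pos
  have hhe := pC.he_pos
  have hCH : 0 < pC.CH := lt_of_lt_of_le one_pos pC.CH_ge
  have hCL : 0 < pC.CL := lt_of_lt_of_le one_pos pC.CL_ge
  set a0 := min (min (pC.cC / 100) (llDStar / 100)) f1 with ha0
  have a0_pos : 0 < a0 := lt_min (lt_min (by positivity) (by unfold llDStar; norm_num)) h1
  set bH := min (a0 / 100) (f2 a0) with hbH
  have bH_pos : 0 < bH := lt_min (by positivity) (h2 _)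
  set a1 := min (bH / (100 * pC.CH)) (f3 a0 bH) with ha1
  have a1_pos : 0 < a1 := lt_min (by positivity) (h3 _ _)
  set a2 := min (a1 / (100 * pC.CH)) (f4 a0 bH a1) with ha2
  have a2_pos : 0 < a2 := lt_min (by positivity) (h4 _ _ _)
  set pS := min (min (a2 / (100 * pC.CL)) (min (pC.he / 1000) (pC.cP / 100))) (f5 a0 bH a1 a2)
    with hpS
  have pS_pos : 0 < pS :=
    lt_min (lt_min (by positivity) (lt_min (by positivity) (by positivity))) (h5 _ _ _ _)
  refine ⟨{ toLLParC := pC, a0 := a0, bH := bH, a1 := a1, a2 := a2, pStar := pS,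
            a0_pos := a0_pos, bH_pos := bH_pos, a1_pos := a1_pos, a2_pos := a2_pos,
            pStar_pos := pS_pos, a0_le_cC := ?_, a0_le_dStar := ?_, bH_le := ?_, a1_le := ?_,
            a2_le := ?_, pStar_le_a2 := ?_, pStar_le_he := ?_, pStar_le_cP := ?_ },
            rfl, min_le_right _ _, min_le_right _ _, min_le_right _ _, min_le_right _ _,
            min_le_right _ _⟩
  · have : a0 ≤ pC.cC / 100 := le_trans (min_le_left _ _) (min_le_left _ _)
    linarith
  · have : a0 ≤ llDStar / 100 := le_trans (min_le_left _ _) (min_le_right _ _)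
    linarith
  · have : bH ≤ a0 / 100 := min_le_left _ _
    linarith
  · have : a1 ≤ bH / (100 * pC.CH) := min_le_left _ _
    rw [le_div_iff₀ (by positivity)] at this
    linarith
  · have : a2 ≤ a1 / (100 * pC.CH) := min_le_left _ _
    rw [le_div_iff₀ (by positivity)] at this
    linarith
  · have : pS ≤ a2 / (100 * pC.CL) := le_trans (min_le_left _ _) (min_le_left _ _)
    rw [le_div_iff₀ (by positivity)] at this
    linarith
  · have : pS ≤ pC.he / 1000 :=
      le_trans (min_le_left _ _) (le_trans (min_le_right _ _) (min_le_left _ _))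
    linarith
  · have : pS ≤ pC.cP / 100 :=
      le_trans (min_le_left _ _) (le_trans (min_le_right _ _) (min_le_right _ _))
    linarith

theorem llparE_exists (pD : LLParD) (n0 : ℕ) (f1 : ℕ → ℝ) (f2 : ℕ → ℝ → ℝ) (f3 : ℕ → ℝ → ℝ → ℝ)
    (h1 : ∀ n, 0 < f1 n) (h2 : ∀ n a, 0 < f2 n a) (h3 : ∀ n a b, 0 < f3 n a b) :
    ∃ p : LLParE, p.toLLParD = pD ∧ n0 ≤ p.nSt ∧ p.zeta ≤ f1 p.nSt ∧ p.sigL ≤ f2 p.nSt p.zeta ∧
      p.rho ≤ f3 p.nSt p.zeta p.sigL := by
  have hp := pD.pStar_pos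
  have hbl := pD.bl_pos
  have ht0 := pD.tau0_pos
  obtain ⟨n1, hn1⟩ := exists_pow_lt_of_lt_one (show (0 : ℝ) < 0.12 * (pD.pStar / 2) by positivity)
    (show (2 / 3 : ℝ) < 1 by norm_num)
  set n := max (max n0 1) n1 with hn
  set zeta := min (min (min (pD.pStar * pD.bl / 100) (pD.pStar * pD.tau0 / 100))
    (pD.pStar * pD.tau0 * pD.bl / 100000)) (f1 n) with hz
  have zeta_pos : 0 < zeta :=
    lt_min (lt_min (lt_min (by positivity) (by positivity)) (by positivity)) (h1 _)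
  set sigL := min (zeta / 100) (f2 n zeta) with hs
  have sigL_pos : 0 < sigL := lt_min (by positivity) (h2 _ _)
  set rho := min (zeta / 100) (f3 n zeta sigL) with hr
  have rho_pos : 0 < rho := lt_min (by positivity) (h3 _ _ _)
  refine ⟨{ toLLParD := pD, nSt := n, zeta := zeta, sigL := sigL, rho := rho,
            nSt_pos := le_trans (le_max_right _ _) (le_max_left _ _), zeta_pos := zeta_pos,
            sigL_pos := sigL_pos, rho_pos := rho_pos, nSt_ok := ?_, zeta_le_bl := ?_,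
            zeta_le_tau0 := ?_, zeta_le := ?_, sigL_le := ?_, rho_le := ?_ },
            rfl, le_trans (le_max_left _ _) (le_max_left _ _), min_le_right _ _, min_le_right _ _,
            min_le_right _ _⟩
  · have h4 : (2 / 3 : ℝ) ^ n ≤ (2 / 3 : ℝ) ^ n1 :=
      pow_le_pow_of_le_one (by norm_num) (by norm_num) (le_max_right _ _)
    calc (2 / 3 : ℝ) ^ n * (2 / pD.pStar) ≤ 0.12 * (pD.pStar / 2) * (2 / pD.pStar) := by
          have := h4.trans hn1.le
          gcongr
      _ = 0.12 := by field_simp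
  · have : zeta ≤ pD.pStar * pD.bl / 100 :=
      le_trans (min_le_left _ _) (le_trans (min_le_left _ _) (min_le_left _ _))
    linarith
  · have : zeta ≤ pD.pStar * pD.tau0 / 100 :=
      le_trans (min_le_left _ _) (le_trans (min_le_left _ _) (min_le_right _ _))
    linarith
  · have : zeta ≤ pD.pStar * pD.tau0 * pD.bl / 100000 :=
      le_trans (min_le_left _ _) (min_le_right _ _)
    linarith
  · have : sigL ≤ zeta / 100 := min_le_left _ _
    linarith
  · have : rho ≤ zeta / 100 := min_le_left _ _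
    linarith

/-- thresholds of the last stage (each may depend on all the fields chosen before it). -/
structure LLThrF where
  kappa : ℝ
  C0 : ℝ → ℝ
  dPr : ℝ → ℝ → ℝ
  J0 : ℝ → ℝ → ℝ → ℕ
  pMom : ℝ → ℝ → ℝ → ℕ → ℕ
  pTr : ℝ → ℝ → ℝ → ℕ → ℕ → ℕ
  epsG : ℝ → ℝ → ℝ → ℕ → ℕ → ℕ → ℝ
  rSt : ℝ → ℝ → ℝ → ℕ → ℕ → ℕ → ℝ → ℕ
  cFin : ℝ → ℝ → ℝ → ℕ → ℕ → ℕ → ℝ → ℕ → ℝ
  epsL : ℝ → ℝ → ℝ → ℕ → ℕ → ℕ → ℝ → ℕ → ℝ → ℝ
  kappa_pos : 0 < kappa
  dPr_pos : ∀ a b, 0 < dPr a b
  epsG_pos : ∀ a b c d e f, 0 < epsG a b c d e f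
  cFin_pos : ∀ a b c d e f g h, 0 < cFin a b c d e f g h
  epsL_pos : ∀ a b c d e f g h i, 0 < epsL a b c d e f g h i

theorem llpar_exists (pE : LLParE) (t : LLThrF) :
    ∃ p : LLPar, p.toLLParE = pE ∧ p.kappa ≤ t.kappa ∧ t.C0 p.kappa ≤ p.C0 ∧
      p.dPr ≤ t.dPr p.kappa p.C0 ∧ t.J0 p.kappa p.C0 p.dPr ≤ p.J0 ∧
      t.pMom p.kappa p.C0 p.dPr p.J0 ≤ p.pMom ∧ t.pTr p.kappa p.C0 p.dPr p.J0 p.pMom ≤ p.pTr ∧
      p.epsG ≤ t.epsG p.kappa p.C0 p.dPr p.J0 p.pMom p.pTr ∧
      t.rSt p.kappa p.C0 p.dPr p.J0 p.pMom p.pTr p.epsG ≤ p.rSt ∧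
      p.cFin ≤ t.cFin p.kappa p.C0 p.dPr p.J0 p.pMom p.pTr p.epsG p.rSt ∧
      p.epsL ≤ t.epsL p.kappa p.C0 p.dPr p.J0 p.pMom p.pTr p.epsG p.rSt p.cFin := by
  have hp := pE.pStar_pos
  have he := pE.eta_pos
  have hrho := pE.rho_pos
  set kappa := min (pE.pStar * pE.eta / 100) t.kappa with hk
  have kappa_pos : 0 < kappa := lt_min (by positivity) t.kappa_pos
  set C0 := max (t.C0 kappa) 1 with hC0
  have C0_ge : 1 ≤ C0 := le_max_right _ _
  have C0_pos : 0 < C0 := lt_of_lt_of_le one_pos C0_ge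
  set dPr := min (kappa / (100 * C0)) (t.dPr kappa C0) with hd
  have dPr_pos : 0 < dPr := lt_min (by positivity) (t.dPr_pos _ _)
  set J0 := max (max (t.J0 kappa C0 dPr) pE.kPr) (⌈7 / dPr⌉₊ + 2) with hJ
  set pMom := max (t.pMom kappa C0 dPr J0) 4 with hpM
  set pTr := max (t.pTr kappa C0 dPr J0 pMom) 4 with hpT
  set epsG := min (min (dPr / 100) (pE.rho / 100)) (t.epsG kappa C0 dPr J0 pMom pTr) with heG
  have epsG_pos : 0 < epsG := lt_min (lt_min (by positivity) (by positivity)) (t.epsG_pos _ _ _ _ _ _)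
  set rSt := max (t.rSt kappa C0 dPr J0 pMom pTr epsG) J0 with hrS
  set cFin := min (epsG / 100) (t.cFin kappa C0 dPr J0 pMom pTr epsG rSt) with hcF
  have cFin_pos : 0 < cFin := lt_min (by positivity) (t.cFin_pos _ _ _ _ _ _ _ _)
  set epsL := min (cFin / 100) (t.epsL kappa C0 dPr J0 pMom pTr epsG rSt cFin) with heL
  have epsL_pos : 0 < epsL := lt_min (by positivity) (t.epsL_pos _ _ _ _ _ _ _ _ _)
  refine ⟨{ toLLParE := pE, kappa := kappa, C0 := C0, dPr := dPr, J0 := J0, pMom := pMom,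
            pTr := pTr, epsG := epsG, rSt := rSt, cFin := cFin, epsL := epsL,
            kappa_pos := kappa_pos, C0_ge := C0_ge, dPr_pos := dPr_pos, epsG_pos := epsG_pos,
            cFin_pos := cFin_pos, epsL_pos := epsL_pos, pMom_ge := le_max_right _ _,
            pTr_ge := le_max_right _ _, rSt_ge := le_max_right _ _,
            J0_ge_kPr := le_trans (le_max_right _ _) (le_max_left _ _),
            kappa_le := ?_, dPr_le := ?_, J0_ge := ?_, epsG_le := ?_, epsG_le_rho := ?_,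
            cFin_le := ?_, epsL_le := ?_ },
            rfl, min_le_right _ _, le_max_left _ _, min_le_right _ _,
            le_trans (le_max_left _ _) (le_max_left _ _), le_max_left _ _, le_max_left _ _,
            min_le_right _ _, le_max_left _ _, min_le_right _ _, min_le_right _ _⟩
  · have : kappa ≤ pE.pStar * pE.eta / 100 := min_le_left _ _
    linarith
  · have : dPr ≤ kappa / (100 * C0) := min_le_left _ _
    rw [le_div_iff₀ (by positivity)] at this
    linarith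
  · have h1 : ((⌈7 / dPr⌉₊ + 2 : ℕ) : ℝ) ≤ (J0 : ℝ) := by exact_mod_cast le_max_right _ _
    have h2 : 7 / dPr ≤ (⌈7 / dPr⌉₊ : ℝ) := Nat.le_ceil _
    push_cast at h1
    have h3 : 7 / dPr ≤ (J0 : ℝ) - 2 := by linarith
    rw [div_le_iff₀ dPr_pos] at h3
    exact h3
  · have : epsG ≤ dPr / 100 := le_trans (min_le_left _ _) (min_le_left _ _)
    linarith
  · have : epsG ≤ pE.rho / 100 := le_trans (min_le_left _ _) (min_le_right _ _)
    linarith
  · have : cFin ≤ epsG / 100 := min_le_left _ _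
    linarith
  · have : epsL ≤ cFin / 100 := min_le_left _ _
    linarith

/-- `LLPar` is inhabited (all thresholds trivial). -/
theorem llpar_nonempty : Nonempty LLPar := by
  obtain ⟨pA, -⟩ := llparA_exists 1 one_pos
  obtain ⟨pB, -⟩ := llparB_exists pA 1 (fun _ => 1) (fun _ _ => 1) (fun _ _ _ => 1)
    (fun _ _ _ _ => 1) (fun _ _ _ _ _ => 1) one_pos (fun _ => one_pos) (fun _ _ => one_pos)
    (fun _ _ _ => one_pos) (fun _ _ _ _ => one_pos) (fun _ _ _ _ _ => one_pos)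
  obtain ⟨pC, -⟩ := llparC_exists pB 1 1 (fun _ _ => 0) (fun _ _ => 0) (fun _ _ _ _ => 0)
    (fun _ _ _ _ => 0) one_pos one_pos
  obtain ⟨pD, -⟩ := llparD_exists pC 1 (fun _ => 1) (fun _ _ => 1) (fun _ _ _ => 1)
    (fun _ _ _ _ => 1) one_pos (fun _ => one_pos) (fun _ _ => one_pos)
    (fun _ _ _ => one_pos) (fun _ _ _ _ => one_pos)
  obtain ⟨pE, -⟩ := llparE_exists pD 0 (fun _ => 1) (fun _ _ => 1) (fun _ _ _ => 1)
    (fun _ => one_pos) (fun _ _ => one_pos) (fun _ _ _ => one_pos)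
  obtain ⟨p, -⟩ := llpar_exists pE
    { kappa := 1, C0 := fun _ => 0, dPr := fun _ _ => 1, J0 := fun _ _ _ => 0,
      pMom := fun _ _ _ _ => 0, pTr := fun _ _ _ _ _ => 0, epsG := fun _ _ _ _ _ _ => 1,
      rSt := fun _ _ _ _ _ _ _ => 0, cFin := fun _ _ _ _ _ _ _ _ => 1,
      epsL := fun _ _ _ _ _ _ _ _ _ => 1, kappa_pos := one_pos, dPr_pos := fun _ _ => one_pos,
      epsG_pos := fun _ _ _ _ _ _ => one_pos, cFin_pos := fun _ _ _ _ _ _ _ _ => one_pos,
      epsL_pos := fun _ _ _ _ _ _ _ _ _ => one_pos }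
  exact ⟨p⟩

end Claimed.Agent.R286
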