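import Claimed.Agent.R286.L09.ParChain
import Claimed.Agent.R286.L08.Defs

/-!
# Row 286 (S0533), unit L09, file Defs/L9Pre: THE DATA OF THE NODES IN THE FORM `LLGood` + THE LEGAL PREFIX      (text of helper70, MOVED VERBATIM from `L09/Nodes.lean` by helper282 so that the files of the
suppliers of the nodes (which `L09/Nodes.lean` imports) can speak about them;   prefix `l9q`)

* `l9qF F0 par = F0.wExp par.sStar par.eta par.pStar`, `l9qMj par = l8Mj par.cC`, `l9q_expOk`;
* LEGAL PREFIX (ruling M2 of 224): `l9q_of_stB : LlcG1Exit 𝔹 T → L8Fix 𝔹 T F0 → (∀ pB, LlcStB 𝔹 F0 pB → ∀ᶠ par in l9qFilB pB, Φ par) → LLGood Φ`.      The exit (G1) itself (`exit_l9_g1`) stays in `L09/Nodes.lean`: an upstream supplier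
  takes `(hG : LlcG1Exit llBase T)` as a hypothesis.
-/

set_option autoImplicit false

namespace Claimed.Agent.R286

open MeasureTheory Set Filter
open scoped ENNReal

noncomputable section

/-- the record of the cut-offs `F0` with the exponents of `par` -/
def l9qF (F0 : LlFix) (par : LLPar) : LlFix := F0.wExp par.sStar par.eta par.pStar

/-- the majorants of `par` -/
def l9qMj (par : LLPar) : L9Mj := l8Mj par.cC

/-- the exponents of `par` lie in the explicit ranges of LL Sec. 3 -/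
theorem l9q_expOk (par : LLPar) : LlExpOk par.sStar par.eta par.pStar where
  s_lo := by have := par.toLLParB.sStar_pos; show 1 / 4 ≤ par.toLLParB.sStar; linarith
  s_hi := par.toLLParB.sStar_lt
  e_lo := par.eta_pos
  e_hi := by have := par.toLLParB.eta_lt_tau; have := par.toLLParB.tau_lt; linarith
  p_lo := par.pStar_pos
  p_hi := by have := par.toLLParD.pStar_lt; linarith

/-! ### 2. the legal prefix (ruling M2 of 224) -/

/-- **the stage B is eventually legal**: (G1) holds with the saving `par.cG` at the exponents of `par` -/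
theorem l9q_FB_stB {𝔹 : LlBase} {T : ℝ} (hG : LlcG1Exit 𝔹 T) {F0 : LlFix} (h0 : L8Fix 𝔹 T F0) :
    ∀ᶠ pA in l9qFA, ∀ᶠ pB in l9qFB pA, LlcStB 𝔹 F0 pB := by
  obtain ⟨cG, s0, hcG, hs0, h⟩ := hG F0 h0.1 h0.2.1 h0.2.2
  filter_upwards [l9q_FA_cG hcG] with pA hA
  filter_upwards [l9q_FB_tau pA (show 0 < 1 / 2 - s0 by linarith), l9q_FB_to pA] with pB ht e
  intro pS hp0 hp1
  have hs : s0 ≤ pB.sStar := by unfold LLParB.sStar; linarith
  have hc : pB.cG ≤ cG := by rw [← e] at hA; exact hA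
  exact llc_g1_mono (h _ _ _ (llc_expOk pB hp0 hp1) hs) hc

/-- **INTRO of the legal prefix**: to prove `LLGood Φ` one may fix a LEGAL stage B -/
theorem l9q_of_stB {𝔹 : LlBase} {T : ℝ} (hG : LlcG1Exit 𝔹 T) {F0 : LlFix} (h0 : L8Fix 𝔹 T F0) {Φ : LLPar → Prop}
    (h : ∀ pB : LLParB, LlcStB 𝔹 F0 pB → ∀ᶠ par in l9qFilB pB, Φ par) : LLGood Φ := by
  rw [l9q_Fil_iff]
  filter_upwards [l9q_FB_stB hG h0] with pA hA
  rw [l9q_FilA_iff]
  filter_upwards [hA] with pB hB using h pB hB

theorem l9q_stB {𝔹 : LlBase} {T : ℝ} (hG : LlcG1Exit 𝔹 T) {F0 : LlFix} (h0 : L8Fix 𝔹 T F0) :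
    LLGood fun par => LlcStB 𝔹 F0 par.toLLParB :=
  l9q_of_stB hG h0 fun pB hB => (l9q_FilB_to pB).mono fun par e => by rw [e]; exact hB

end

theorem l9q_nodes_eqns_cite : True := by
  have := @l9qF.eq_1; have := @l9qMj.eq_1
  trivial

end Claimed.Agent.R286
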