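import Claimed.Agent.R286.Defs.L9Pre
import Claimed.Agent.R286.L09.HiTop

/-!
# Row 286 (S0533), file Defs/L9HiThr: NODE HI, SUPPLY `L9hiNumS`: FROM THE NESTED THRESHOLDS OF (D15) TO `LLGood`      (helper59, split agreed with helper71 07:27Z; prefix `l9hm`, `L9hn`)

* `L9hnThr 𝔹 F0 pB c`   = the form in which 71 (`L09/HiNumX.lean`, `l9hn_numS`) delivers the supply: the order `c | C_H | a_0 | b_H | a_1 | a_2 | p_*` of `L8xD15` / `l9hs_supS` (124), every loss `CH ≥ CH0`, `CL ≥ 2`, every degree;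
* `l9hm_good`           = the FILTER layer: `(∀ pB legal, ∀ c > 0, L9hnThr llBase F0 pB c) → LLGood fun par => L9hiNumS .. par.kPr par.a1 par.a2 par.bH par.CH par.CL`      (= the statement of `exit_l9_hiNumS`, `L09/BndExit.lean`).
  Stage C: `cC = c` FIRST, then `CH ≥ CH0(c)`, `CL ≥ 2` (`l9q_FC_iff`); stage D: nested (`l9q_FD_iff`, `l9q_evS_iff`).
-/

set_option autoImplicit false

namespace Claimed.Agent.R286

open Filter

/-- the supply `L9hiNumS` of node HI with the order of the thresholds of (D15) -/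
def L9hnThr (𝔹 : LlBase) (F0 : LlFix) (pB : LLParB) (c : ℝ) : Prop :=
  ∃ CH0 t0 : ℝ, 1 ≤ CH0 ∧ 0 < t0 ∧ ∀ a0, 0 < a0 → a0 ≤ t0 → ∃ tH : ℝ, 0 < tH ∧ ∀ bH, 0 < bH → bH ≤ tH →
    ∃ t1 : ℝ, 0 < t1 ∧ ∀ a1, 0 < a1 → a1 ≤ t1 → ∃ t2 : ℝ, 0 < t2 ∧ ∀ a2, 0 < a2 → a2 ≤ t2 → ∃ tp : ℝ, 0 < tp ∧ ∀ pS, 0 < pS → pS ≤ tp →
      ∀ CH CL : ℝ, CH0 ≤ CH → 2 ≤ CL → ∀ J0 : ℕ, L9hiNumS 𝔹 (l8Mj c) (F0.wExp pB.sStar pB.eta pS) J0 a1 a2 bH CH CL

/-- **the filter layer of `exit_l9_hiNumS`** -/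
theorem l9hm_good {T : ℝ} (hG : LlcG1Exit llBase T) {F0 : LlFix} (h0 : L8Fix llBase T F0)
    (H : ∀ pB : LLParB, LlcStB llBase F0 pB → ∀ c : ℝ, 0 < c → L9hnThr llBase F0 pB c) :
    LLGood fun par => L9hiNumS llBase (l9qMj par) (l9qF F0 par) par.kPr par.a1 par.a2 par.bH par.CH par.CL := by
  refine l9q_of_stB hG h0 fun pB hSt => ?_
  rw [l9q_FilB_iff, l9q_FC_iff]
  filter_upwards [l9q_small one_pos] with cC hcC
  obtain ⟨CH0, t0, -, ht0, H⟩ := H pB hSt cC hcC.1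
  refine .of_forall fun _ => .of_forall fun _ => .of_forall fun _ => ?_
  filter_upwards [eventually_ge_atTop CH0] with CH hCH
  filter_upwards [eventually_ge_atTop (2 : ℝ)] with CL hCL
  intro pC e1 _ _ _ e5 e6 eB
  rw [l9q_FilC_iff, l9q_FD_iff]
  refine (l9q_evS_iff _).2 ⟨t0, ht0, fun a0 ha0 ha0' => ?_⟩
  obtain ⟨tH, htH, H⟩ := H a0 ha0 ha0'
  refine (l9q_evS_iff _).2 ⟨tH, htH, fun bH hb hb' => ?_⟩
  obtain ⟨t1, ht1, H⟩ := H bH hb hb'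
  refine (l9q_evS_iff _).2 ⟨t1, ht1, fun a1 ha1 ha1' => ?_⟩
  obtain ⟨t2, ht2, H⟩ := H a1 ha1 ha1'
  refine (l9q_evS_iff _).2 ⟨t2, ht2, fun a2 ha2 ha2' => ?_⟩
  obtain ⟨tp, htp, H⟩ := H a2 ha2 ha2'
  refine (l9q_evS_iff _).2 ⟨tp, htp, fun pS hp hp' => ?_⟩
  have H := H pS hp hp' CH CL hCH hCL
  intro pD _ d2 d3 d4 d5 eC
  filter_upwards [l9q_FilD_to pD] with par e
  subst e
  subst eC
  subst eB
  subst e1 e5 e6 d2 d3 d4 d5
  exact H par.kPr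

theorem l9hm_thr_eqns_cite : True := by
  have := @L9hnThr.eq_1
  trivial

end Claimed.Agent.R286
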