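/-
Row 286 (S0533).   LLParBr = BRIDGE between the FOUR vocabularies of exponents (misfit M4 of the LL chain board of helper224).
OWNER: helper213 (co-owner of Defs/LLPar with helper242).   prefix `llpb_`.   0 sorry.

  `LLPar` stages (242, Defs/LLPar)  |  `LlExpOk` (272, LL/PathsDefs)  |  `BiExp`, `BiFix` (162, Bud/Inst)  |  `BtExp`, `BtFix`, `BdFix.Ok` (66 / 157, Bud/TopExit, Bud/Defs)

* `llpb_biExp`      `pB : LLParB`, `0 < pS`, `1000 pS ≤ pB.he`   ⟹   `BiExp (F0.wExp pB.sStar pB.eta pS) pB.cG`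
* `llpb_side`       the side conditions of `bt_targets`:   `1/4 ≤ sS`, `eta ≤ 1/8`, `pS ≤ min cG (1/8) / 8`
* `llpb_btExp`      `BiFix Fx X K ..`, `K.cG = cG`   ⟹   `BtExp Fx X cG`
* `llpb_c12`        **(C1) + (C2) at a LEGAL stage B** (`LlcStB`, ruling M2 of 224), all `p_* ≤ h_e/1000`, saving `min cG (1/8) / 2` fixed BEFORE `p_*`: from `exit_bud` (162)
* `llpb_g1`         `LlcG1 𝔹 F cG ⟹ BtG1 𝔹 F cG` (the two typings of (G1))
* `llpb_D_*`        the same from a stage `pD : LLParD` (`pS := pD.pStar`)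
* `llpb_bdfix`      THE exponents of a stage `pE : LLParE` as fields of a `BdFix`: all numeric fields of `BdFix.Ok` (for users who want `X.tau0 = pE.tau0`, `X.bl = pE.bl`, `X.zeta = pE.zeta`, ..)
NOTE: the `X` of `bi_fix_ex` uses `tau0 := eta/100`, `bl := eta/10^4`, `zeta := ..` of its own, NOT `pB.tau0`, `pB.bl`.  Harmless: (C1), (C2) (`BtC1`, `BtC2`) mention none of them.
-/
import Claimed.Agent.R286.Defs.LLPar
import Claimed.Agent.R286.LL.Chain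
import Claimed.Agent.R286.Bud.Inst
import Claimed.Agent.R286.Bud.TopExit
import Claimed.Agent.R286.Exit.Bud

set_option autoImplicit false

namespace Claimed.Agent.R286

open MeasureTheory Set

/-- the exponents of a stage B and a small `p_*` are in the ranges of LL sec. 7 -/
theorem llpb_biExp (F0 : LlFix) (pB : LLParB) {pS : ℝ} (h0 : 0 < pS) (h1 : 1000 * pS ≤ pB.he) :
    BiExp (F0.wExp pB.sStar pB.eta pS) pB.cG where
  s_hi := by show pB.sStar < 1 / 2; have := pB.tau_pos; unfold LLParB.sStar; linarith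
  s_lo := by show 1 / 2 - pB.sStar ≤ 1 / 100000; have := pB.tau_le; unfold LLParB.sStar; linarith
  s_cG := by show 100 * (1 / 2 - pB.sStar) ≤ pB.cG; have := pB.tau_le_cG; have := pB.tau_pos; unfold LLParB.sStar; linarith
  e_pos := pB.eta_pos
  e_le := by show pB.eta ≤ (1 / 2 - pB.sStar) / 100; have := pB.eta_le; unfold LLParB.sStar; linarith
  p_pos := h0
  p_le := by show pS ≤ 1 / 1000000; have := pB.he_le; have := pB.cG_le; linarith
  p_cG := by show 2000 * pS ≤ pB.cG; have := pB.he_le; have := pB.he_pos; linarith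

/-- the side conditions of `bt_targets` -/
theorem llpb_side (F0 : LlFix) (pB : LLParB) {pS : ℝ} (h0 : 0 < pS) (h1 : 1000 * pS ≤ pB.he) :
    1 / 4 ≤ (F0.wExp pB.sStar pB.eta pS).sS ∧ (F0.wExp pB.sStar pB.eta pS).eta ≤ 1 / 8 ∧
      (F0.wExp pB.sStar pB.eta pS).pS ≤ min pB.cG (1 / 8) / 8 ∧ pS ≤ 1 := by
  have hE := llc_expOk pB h0 (by have := pB.he_le; have := pB.cG_le; linarith : pS ≤ 1)
  refine ⟨hE.s_lo, hE.e_hi, ?_, hE.p_hi⟩
  show pS ≤ min pB.cG (1 / 8) / 8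
  rw [le_div_iff₀ (by norm_num : (0 : ℝ) < 8)]
  refine le_min ?_ ?_
  · have := pB.he_le; have := pB.he_pos; linarith
  · have := pB.he_le; have := pB.cG_le; linarith

/-- `BiFix` (162) contains `BtExp` (66) -/
theorem llpb_btExp {Fx : LlFix} {X : BdFix} {K : BdCst} {c C v0 sg Cu cG : ℝ} (h : BiFix Fx X K c C v0 sg Cu) (hK : K.cG = cG) :
    BtExp Fx X cG where
  fix := h.tie
  ok := h.ok
  cG := by
    have := h.cG_s0
    rw [hK] at this
    unfold BdFix.s0 BdFix.sS at this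
    linarith

/-- the two typings of (G1) -/
theorem llpb_g1 {𝔹 : LlBase} {F : LlFix} {cG : ℝ} (h : LlcG1 𝔹 F cG) : BtG1 𝔹 F cG := by
  obtain ⟨N0, h⟩ := h
  refine ⟨N0, fun p hp hN hsm m h1 h2 => ?_⟩
  have h3 := (h p hp hN hsm m h1 h2).2
  have ha : (0 : ℝ) ≤ p.a := by
    unfold LlPt.a
    split_ifs
    · norm_num
    · linarith [hp.ell1]
  have e : ∫ v in Ioo (0 : ℝ) p.a, p.b F 𝔹 v * p.q F 𝔹 v ^ 2 = ∫ v in (0 : ℝ)..p.a, p.b F 𝔹 v * p.q F 𝔹 v ^ 2 := by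
    rw [intervalIntegral.integral_of_le ha, integral_Ioc_eq_integral_Ioo]
  rw [e]
  unfold LlPt.gapG at h3
  linarith

/-- **(C1) + (C2) at a legal stage B**: the arrow LL 03 + LL 06 + LL 07 `⟹` LL 08 in the vocabulary of the LL chain.   The saving of (C2) depends on `pB.cG` only (BEFORE `p_*`).      TEX[LL:bud:targets] -/
theorem llpb_c12 {F0 : LlFix} (hP : LlcP llBase F0) (pB : LLParB) (hSt : LlcStB llBase F0 pB) {pS : ℝ} (h0 : 0 < pS) (h1 : 1000 * pS ≤ pB.he) :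
    BtC1 llBase (F0.wExp pB.sStar pB.eta pS) ∧ BtC2 llBase (F0.wExp pB.sStar pB.eta pS) (min pB.cG (1 / 8) / 2) := by
  have hp1 : pS ≤ 1 := (llpb_side F0 pB h0 h1).2.2.2
  exact exit_bud pB.cG_pos (llpb_biExp F0 pB h0 h1) (hP _ _ _ (llc_expOk pB h0 hp1)).sec3 (llpb_g1 (hSt pS h0 hp1))

/-! ## from a stage D -/

theorem llpb_D_biExp (F0 : LlFix) (pD : LLParD) : BiExp (F0.wExp pD.sStar pD.eta pD.pStar) pD.cG :=
  llpb_biExp F0 pD.toLLParB pD.pStar_pos pD.pStar_le_he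

theorem llpb_D_expOk (pD : LLParD) : LlExpOk pD.sStar pD.eta pD.pStar :=
  llc_expOk pD.toLLParB pD.pStar_pos (llpb_side ⟨0, 0, 0, 0, 0, id, 0, id, id, id, 0, 0, 0, id⟩ pD.toLLParB pD.pStar_pos pD.pStar_le_he).2.2.2

/-- `p_* < 1/20000` (the only condition of `δ_*`, (D11)) with much room -/
theorem llpb_D_pStar_le (pD : LLParD) : pD.pStar ≤ 1 / 1000000 := (llpb_D_biExp ⟨0, 0, 0, 0, 0, id, 0, id, id, id, 0, 0, 0, id⟩ pD).p_le

/-! ## the exponents of a stage E as a `BdFix` -/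

/-- replace the exponents of `X0` by those of the stage `pE` (`m_PE := sigL`, `J + 1 := nSt`) -/
def llpbFix (X0 : BdFix) (pE : LLParE) : BdFix :=
  { X0 with
    tau := pE.tau, tau0 := pE.tau0, eta := pE.eta, pS := pE.pStar, bl := pE.bl, bs := pE.bs, zeta := pE.zeta, mPE := pE.sigL,
    rho := pE.rho, he := pE.he, J := pE.nSt - 1 }

/-- all NUMERIC fields of `BdFix.Ok` at the exponents of a stage E -/
theorem llpb_bdfix (X0 : BdFix) (pE : LLParE) :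
    let X := llpbFix X0 pE
    0 < X.tau0 ∧ X.tau0 ≤ X.eta / 100 ∧ X.eta ≤ X.tau / 100 ∧ X.tau ≤ 1 / 100000 ∧ 0 < X.pS ∧ X.pS ≤ X.he / 1000 ∧ X.he ≤ 1 / 1000 ∧
      0 < X.bl ∧ X.bl ≤ X.bs / 100 ∧ X.bs ≤ X.eta / 100 ∧ 0 < X.zeta ∧ X.zeta ≤ X.pS * X.tau0 * X.bl / 100000 ∧ 0 < X.mPE ∧
      X.mPE ≤ X.zeta / 100 ∧ 0 < X.rho ∧ X.rho ≤ X.tau0 / 1000 ∧ (2 / 3 : ℝ) ^ (X.J + 1) * (2 / X.pS) ≤ 0.12 ∧
      X.sS = pE.sStar ∧ X.s0 = pE.s0 ∧ 48 * (X.tau + X.tau0) ≤ pE.cG := by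
  intro X
  have hp1 : pE.pStar ≤ 1 := (llpb_D_pStar_le pE.toLLParD).trans (by norm_num)
  have hz : 100 * pE.zeta ≤ pE.tau0 := by
    have h1 := pE.zeta_le_tau0
    have h2 : pE.pStar * pE.tau0 ≤ 1 * pE.tau0 := mul_le_mul_of_nonneg_right hp1 pE.tau0_pos.le
    linarith
  refine ⟨pE.tau0_pos, ?_, ?_, ?_, pE.pStar_pos, ?_, ?_, pE.bl_pos, ?_, ?_, pE.zeta_pos, ?_, pE.sigL_pos, ?_, pE.rho_pos, ?_, ?_, rfl, ?_, ?_⟩
  · show pE.tau0 ≤ pE.eta / 100; linarith [pE.tau0_le]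
  · show pE.eta ≤ pE.tau / 100; linarith [pE.eta_le]
  · show pE.tau ≤ 1 / 100000; linarith [pE.tau_le]
  · show pE.pStar ≤ pE.he / 1000; linarith [pE.pStar_le_he]
  · show pE.he ≤ 1 / 1000; linarith [pE.he_le, pE.cG_le]
  · show pE.bl ≤ pE.bs / 100; linarith [pE.bl_le]
  · show pE.bs ≤ pE.eta / 100; linarith [pE.bs_le]
  · show pE.zeta ≤ pE.pStar * pE.tau0 * pE.bl / 100000; linarith [pE.zeta_le]
  · show pE.sigL ≤ pE.zeta / 100; linarith [pE.sigL_le]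
  · show pE.rho ≤ pE.tau0 / 1000; linarith [pE.rho_le, pE.rho_pos]
  · show (2 / 3 : ℝ) ^ (pE.nSt - 1 + 1) * (2 / pE.pStar) ≤ 0.12
    rw [Nat.sub_add_cancel pE.nSt_pos]; exact pE.nSt_ok
  · show 1 / 2 - pE.tau - pE.tau0 = pE.s0; rfl
  · show 48 * (pE.tau + pE.tau0) ≤ pE.cG
    linarith [pE.tau_le_cG, pE.tau0_le, pE.eta_le, pE.tau_pos, pE.eta_pos]

theorem llpb_eqns_cite : True := by
  have := @llpbFix.eq_1
  trivial

end Claimed.Agent.R286
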